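import Vale.Agent.N258.GeoA
import Vale.Agent.P258.R2.H390.Main2

/-! Block A: labels of regions and colours of strands. -/

namespace Vale.Agent.N258

open Set Filter Topology
open Vale.Agent.P258.Braid (Word)
open Vale.Agent.P002Z

open Vale.Agent.P258.Braid

variable {o : ℕ} {w : Word} {G : Type} [Group G]

/-- the labels given by colours of the six strands of the knot -/
def Pc (c : Fin 6 → G) (j : ℕ) : G := (((List.ofFn c).take j).map fun g => g⁻¹).prod

/-- the conditions at the caps, for colours -/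
def Col (a : ℤ) (c : Fin 6 → G) : Prop :=
  (∀ i, c i * c (caps6.bot i) = 1) ∧ ∀ i, (pick (run (fam a) (start c)) i).col *
    (pick (run (fam a) (start c)) (caps6.top i)).col = 1

theorem A_cross_get {m : ℕ} (e : Bool) : ∀ (i : ℕ) (l : List (St m G)) (s t : St m G),
    l[i]? = some s → l[i + 1]? = some t → ∀ j, (cross i e l)[j]? =
      if j = i then some (half e s t).1 else if j = i + 1 then some (half e s t).2 else l[j]?
  | 0, [], s, t, h, _, _ => by simp at h
  | 0, [_], s, t, _, h, _ => by simp at h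
  | 0, a :: b :: l, s, t, h1, h2, j => by
    obtain rfl : a = s := by simpa using h1
    obtain rfl : b = t := by simpa using h2
    rcases j with _ | _ | j <;> simp [cross]
  | i + 1, [], s, t, h, _, _ => by simp at h
  | i + 1, a :: l, s, t, h1, h2, j => by
    rcases j with _ | j
    · simp [cross]
    · simp only [cross, List.getElem?_cons_succ] at h1 h2 ⊢
      rw [A_cross_get e i l s t h1 h2 j]
      simp

/-- a row of strands, the labels of the regions, the positions and the products of colours -/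
structure ARel {m : ℕ} (l : List (St m G)) (P : ℕ → G) (f : ℕ → ℕ) (τ : ℕ → G) : Prop where
  len : l.length = m
  col : ∀ j s, l[j]? = some s → s.col = (P (j + 1))⁻¹ * P j
  str : ∀ p < m, ∃ s, l[f p]? = some s ∧ s.lab.val = p ∧ s.tr = τ p

theorem ARel.step {m : ℕ} {l : List (St m G)} {P : ℕ → G} {f : ℕ → ℕ} {τ : ℕ → G}
    (h : ARel l P f τ) (x : ℕ × Bool) (hx : x.1 + 1 < m) :
    ARel (cross x.1 x.2 l) (stepP x P) (fun p => sw x (f p)) fun p => τ p * under x P (f p) := by
  obtain ⟨i, e⟩ := x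
  have hl := h.len
  obtain ⟨s, hs⟩ : ∃ s, l[i]? = some s :=
    ⟨_, List.getElem?_eq_getElem (show i < l.length by simp only at hx; omega)⟩
  obtain ⟨t, ht⟩ : ∃ t, l[i + 1]? = some t :=
    ⟨_, List.getElem?_eq_getElem (show i + 1 < l.length by simp only at hx; omega)⟩
  have cs := h.col i s hs
  have ct := h.col (i + 1) t ht
  have hg := A_cross_get e i l s t hs ht
  refine ⟨by rw [cross_length, hl], fun j u hu => ?_, fun p hp => ?_⟩
  · simp only at hu
    rw [hg] at hu
    by_cases h1 : j = i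
    · subst h1
      rw [if_pos rfl] at hu
      obtain rfl := Option.some.inj hu
      cases e
      · simp only [half, stepP, ct, Function.update_self, Bool.false_eq_true, if_false]
        rw [Function.update_of_ne (by omega)]
        group
      · simp only [half, stepP, cs, ct, Function.update_self, if_true]
        rw [Function.update_of_ne (by omega)]
        group
    · rw [if_neg h1] at hu
      by_cases h2 : j = i + 1
      · subst h2
        rw [if_pos rfl] at hu
        obtain rfl := Option.some.inj hu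
        cases e
        · simp only [half, stepP, cs, ct, Function.update_self, Bool.false_eq_true, if_false]
          rw [Function.update_of_ne (by omega)]
          group
        · simp only [half, stepP, cs, Function.update_self, if_true]
          rw [Function.update_of_ne (by omega)]
          group
      · rw [if_neg h2] at hu
        rw [h.col j u hu]
        simp only [stepP]
        rw [Function.update_of_ne (by omega), Function.update_of_ne h2]
  · obtain ⟨u, hu, hu1, hu2⟩ := h.str p hp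
    simp only [hg, sw]
    by_cases h1 : f p = i
    · rw [h1] at hu
      obtain rfl : u = s := Option.some.inj (hu.symm.trans hs)
      refine ⟨(half e u t).2, by simp [h1], ?_, ?_⟩
      · cases e <;> exact hu1
      · cases e
        · simp only [half, under, h1, hu2, ct, Bool.false_eq_true, if_false, if_true]
          group
        · simp [half, under, h1, hu2]
    · by_cases h2 : f p = i + 1
      · rw [h2] at hu
        obtain rfl : u = t := Option.some.inj (hu.symm.trans ht)
        refine ⟨(half e s u).1, by simp [h2], ?_, ?_⟩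
        · cases e <;> exact hu1
        · cases e
          · simp [half, under, h2, hu2]
          · simp only [half, under, h2, hu2, cs, if_true]
      · refine ⟨u, by simp [h1, h2, hu], hu1, ?_⟩
        cases e <;> simp [under, h1, h2, hu2]

theorem A_bridge {m : ℕ} (hw : ∀ x ∈ w, x.1 + 1 < m) (P : ℕ → G) (c : Fin m → G)
    (hc : ∀ j : Fin m, c j = (P (j + 1))⁻¹ * P j) : ∀ k ≤ w.length,
    ARel (run (w.take k) (start c)) (reg w P k) (pos w k) fun p => trP w P p k := by
  intro k
  induction k with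
  | zero =>
    intro _
    refine ⟨start_length c, fun j s hs => ?_, fun p hp => ?_⟩
    · change (start c)[j]? = some s at hs
      obtain ⟨hj, rfl⟩ := List.getElem?_eq_some_iff.1 hs
      simp only [start, List.getElem_ofFn]
      exact hc _
    · refine ⟨⟨⟨p, hp⟩, c ⟨p, hp⟩, 1⟩, ?_, rfl, rfl⟩
      change (start c)[p]? = _
      simp [start, hp]
  | succ k ih =>
    intro hk
    have hx : w[k]? = some w[k] := List.getElem?_eq_getElem hk
    have h := (ih (by omega)).step w[k] (hw _ (List.getElem_mem hk))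
    have e1 : run (w.take (k + 1)) (start c) = cross w[k].1 w[k].2 (run (w.take k) (start c)) := by
      rw [List.take_add_one, hx, run_append]; rfl
    have e2 : pos w (k + 1) = fun p => sw w[k] (pos w k p) := funext (pos_succ hx)
    have e3 : (fun p => trP w P p (k + 1)) =
        fun p => trP w P p k * under w[k] (reg w P k) (pos w k p) := by
      funext p
      simp only [trP, hx]
    rw [e1, e2, e3, reg_succ hx]
    exact h

theorem A_bridge' {m : ℕ} (hw : ∀ x ∈ w, x.1 + 1 < m) (P : ℕ → G) (c : Fin m → G)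
    (hc : ∀ j : Fin m, c j = (P (j + 1))⁻¹ * P j) :
    ARel (run w (start c)) (reg w P w.length) (pos w w.length) fun p => trP w P p w.length := by
  have h := A_bridge hw P c hc w.length le_rfl
  rwa [List.take_length] at h

theorem A_pos_ge {m : ℕ} (hw : ∀ x ∈ w, x.1 + 1 < m) {p : ℕ} (hp : m ≤ p) :
    ∀ k ≤ w.length, pos w k p = p := by
  intro k
  induction k with
  | zero => intro _; exact pos_zero w p
  | succ k ih =>
    intro hk
    have h := hw _ (List.getElem_mem hk)
    rw [pos_succ (List.getElem?_eq_getElem hk), ih (by omega), sw, if_neg (by omega),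
      if_neg (by omega)]

theorem A_trP_ge {m : ℕ} (hw : ∀ x ∈ w, x.1 + 1 < m) (P : ℕ → G) {p : ℕ} (hp : m ≤ p) :
    ∀ k ≤ w.length, trP w P p k = 1 := by
  intro k
  induction k with
  | zero => intro _; rfl
  | succ k ih =>
    intro hk
    have h := hw _ (List.getElem_mem hk)
    have hx : w[k]? = some w[k] := List.getElem?_eq_getElem hk
    simp only [trP, hx]
    rw [ih (by omega), A_pos_ge hw hp k (by omega), under, if_neg (show ¬ p = w[k].1 + 1 by omega),
      if_neg (show ¬ p = w[k].1 by omega), ite_self, mul_one]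

theorem A_same {m : ℕ} {w' : Word} (hw : ∀ x ∈ w, x.1 + 1 < m) (hw' : ∀ x ∈ w', x.1 + 1 < m)
    (h : Same m G w' w) (P : ℕ → G) :
    (∀ p, pos w w.length p = pos w' w'.length p) ∧
    (∀ j ≤ m, reg w P w.length j = reg w' P w'.length j) ∧
    ∀ p < m, trP w P p w.length = trP w' P p w'.length := by
  have h1 := A_bridge' hw P (fun j : Fin m => (P (j + 1))⁻¹ * P j) fun _ => rfl
  have h2 := A_bridge' hw' P (fun j : Fin m => (P (j + 1))⁻¹ * P j) fun _ => rfl
  rw [h _ (start_length _)] at h2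
  have key : ∀ p < m, pos w w.length p = pos w' w'.length p ∧
      trP w P p w.length = trP w' P p w'.length := by
    intro p hp
    obtain ⟨s, hs, l1, t1⟩ := h1.str p hp
    obtain ⟨p', hp', e⟩ := pos_surj hw' w'.length ((pos_lt hw w.length p).2 hp)
    obtain ⟨s', hs', l2, t2⟩ := h2.str p' hp'
    rw [e] at hs'
    obtain rfl : s = s' := Option.some.inj (hs.symm.trans hs')
    obtain rfl : p = p' := l1.symm.trans l2
    exact ⟨e.symm, t1.symm.trans t2⟩
  refine ⟨fun p => ?_, fun j => ?_, fun p hp => (key p hp).2⟩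
  · rcases lt_or_ge p m with hp | hp
    · exact (key p hp).1
    · rw [A_pos_ge hw hp _ le_rfl, A_pos_ge hw' hp _ le_rfl]
  · induction j with
    | zero => intro _; rw [reg_left, reg_left]
    | succ j ih =>
      intro hj
      have hs := List.getElem?_eq_getElem (show j < _ from h1.len.symm ▸ hj)
      have h3 := (h1.col j _ hs).symm.trans (h2.col j _ hs)
      rw [ih (by omega)] at h3
      exact inv_injective (mul_right_cancel h3)

theorem A_pw (i : ℕ) (z : ℤ) : ∀ x ∈ pw i z, x.1 = i := by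
  intro x hx
  cases z with
  | ofNat n => rw [List.eq_of_mem_replicate hx]
  | negSucc n => rw [List.eq_of_mem_replicate hx]

theorem A_rng (a : ℤ) : ∀ x ∈ fam a ++ turn, x.1 + 1 < 6 := by
  intro x hx
  simp only [fam, turn, List.mem_append, List.mem_cons, List.not_mem_nil, or_false] at hx
  rcases hx with (h | h | h | h | h) | rfl | rfl | rfl | rfl
  all_goals first
    | (rw [A_pw _ _ x h]; norm_num)
    | norm_num

theorem A_rng' (a : ℤ) (o : ℕ) : ∀ x ∈ fam a ++ turn, x.1 + 1 < 6 + o := fun x hx => by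
  have := A_rng a x hx
  omega

theorem A_lab {a : ℤ} (ha : Odd a) (c : Fin 6 → G) :
    (run (fam a) (start c)).map St.lab = [0, 1, 3, 2, 5, 4] := by
  obtain ⟨k, rfl⟩ := ha
  have h2 : (hPerm : Equiv.Perm (St 6 G × St 6 G)) ^ (2 : ℤ) = hPerm ^ (2 * 1 : ℤ) := by norm_num
  have h10 : (hPerm : Equiv.Perm (St 6 G × St 6 G)) ^ (-2 * (2 * k + 1)) =
      hPerm ^ (2 * (-(2 * k + 1))) := by
    congr 1; ring
  have h9 : (hPerm : Equiv.Perm (St 6 G × St 6 G)) ^ (1 - 2 * (2 * k + 1)) =
      hPerm ^ (2 * (-(2 * k + 1)) + 1) := by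
    congr 1; ring
  rw [start6, run_fam, h2, h10, h9]
  simp only [actAt, hz_even, hz_odd]
  rfl

theorem A_turn (s0 s1 s2 s3 s4 s5 : St 6 G) : run turn [s0, s1, s2, s3, s4, s5] =
    [⟨s1.lab, s0.col⁻¹ * s1.col * s0.col, s1.tr * s0.col⟩,
      ⟨s2.lab, s0.col⁻¹ * s2.col * s0.col, s2.tr * s0.col⟩,
      ⟨s3.lab, s0.col⁻¹ * s3.col * s0.col, s3.tr * s0.col⟩,
      ⟨s4.lab, s0.col⁻¹ * s4.col * s0.col, s4.tr * s0.col⟩, s0, s5] := rfl

theorem A_top {a : ℤ} (ha : Odd a) (p : ℕ) :
    pos (fam a ++ turn) (fam a ++ turn).length p = perm p := by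
  rcases lt_or_ge p 6 with hp | hp
  · have h1 := A_bridge' (A_rng a) (fun _ => (1 : Multiplicative ℤ)) (fun _ => 1)
      fun _ => by simp
    have hl := A_lab ha fun _ : Fin 6 => (1 : Multiplicative ℤ)
    obtain ⟨s0, s1, s2, s3, s4, s5, hr⟩ := list6
      (run (fam a) (start fun _ : Fin 6 => (1 : Multiplicative ℤ)))
      (by rw [run_length, start_length])
    rw [run_append, hr, A_turn] at h1
    rw [hr] at hl
    simp only [List.map_cons, List.map_nil, List.cons.injEq, and_true] at hl
    obtain ⟨l0, l1, l2, l3, l4, l5⟩ := hl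
    obtain ⟨s, hs, hs1, -⟩ := h1.str p hp
    have hq := (pos_lt (A_rng a) (fam a ++ turn).length p).2 hp
    generalize pos (fam a ++ turn) (fam a ++ turn).length p = q at hs hq
    subst hs1
    interval_cases q
    all_goals
      obtain rfl := Option.some.inj hs
      simp only [l0, l1, l2, l3, l4, l5]
      rfl
  · rw [A_pos_ge (A_rng a) hp _ le_rfl]
    obtain ⟨q, rfl⟩ := Nat.exists_eq_add_of_le' hp
    rfl

theorem ok_of_same {a : ℤ} (ha : Odd a) (hw : ∀ x ∈ w, x.1 + 1 < 6 + o)
    (h : Same (6 + o) G (fam a ++ turn) w) : Ok o w :=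
  ⟨hw, fun p => ((A_same hw (A_rng' a o) h fun _ => 1).1 p).trans (A_top ha p)⟩

theorem split_of_same {a : ℤ} (hw : ∀ x ∈ w, x.1 + 1 < 6 + o)
    (h : Same (6 + o) G (fam a ++ turn) w) : Split o w G := by
  intro P _
  obtain ⟨-, h2, h3⟩ := A_same hw (A_rng' a o) h P
  refine ⟨fun j h6 hj => ?_, fun p h6 hp => ?_, fun hP j hj => ?_⟩
  · rw [h2 j hj]
    exact reg_right (fun x hx => (A_rng a x hx).trans_le h6) P _
  · rw [h3 p hp]
    exact A_trP_ge (A_rng a) P h6 _ le_rfl
  · rw [h2 j (by omega), reg_congr (A_rng a) (P' := fun _ => 1) hP _ j hj, reg_one]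

theorem A_comm {H : Type} [CommGroup H] (w : Word) (P : ℕ → H) (p : ℕ) : ∀ k ≤ w.length,
    (reg w P k (pos w k p + 1))⁻¹ * reg w P k (pos w k p) = (P (p + 1))⁻¹ * P p := by
  intro k
  induction k with
  | zero => intro _; rw [reg_zero, pos_zero]
  | succ k ih =>
    intro hk
    have hx : w[k]? = some w[k] := List.getElem?_eq_getElem hk
    rw [reg_succ hx, pos_succ hx, ← ih (by omega)]
    generalize w[k] = x
    generalize reg w P k = R
    generalize pos w k p = q
    obtain ⟨i, e⟩ := x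
    have hv : (if e = true then R (i + 2) * (R (i + 1))⁻¹ * R i
        else R i * (R (i + 1))⁻¹ * R (i + 2)) = R (i + 2) * (R (i + 1))⁻¹ * R i := by
      split_ifs
      · rfl
      · rw [mul_comm, mul_comm (R i), mul_assoc]
    simp only [stepP, sw, hv]
    by_cases h1 : q = i
    · subst h1
      rw [if_pos rfl, Function.update_self, Function.update_of_ne (by omega)]
      group
    · rw [if_neg h1]
      by_cases h2 : q = i + 1
      · subst h2
        rw [if_pos rfl, Function.update_self, Function.update_of_ne (by omega), mul_comm,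
          mul_comm (R (i + 1 + 1))⁻¹]
        group
      · rw [if_neg h2, Function.update_of_ne (by omega), Function.update_of_ne h2]

theorem exists_int (ok : Ok o w) :
    ∃ P : ℕ → Multiplicative ℤ, Capd w P ∧ P 1 = Multiplicative.ofAdd 1 := by
  let P : ℕ → Multiplicative ℤ := fun j => Multiplicative.ofAdd
    (if j = 1 then 1 else if j = 3 then -1 else if j = 5 then -1 else 0)
  obtain ⟨R, hR⟩ : ∃ R : ℕ → ℤ, R = fun j => Multiplicative.toAdd (reg w P w.length j) :=
    ⟨_, rfl⟩
  have h : ∀ p, R (perm p) - R (perm p + 1) =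
      Multiplicative.toAdd (P p) - Multiplicative.toAdd (P (p + 1)) := by
    intro p
    have h1 := congrArg Multiplicative.toAdd (A_comm w P p w.length le_rfl)
    rw [ok.top, toAdd_mul, toAdd_mul, toAdd_inv, toAdd_inv] at h1
    simp only [hR]
    linarith
  have h0 : R 4 - R 5 = 0 - 1 := h 0
  have h1 : R 0 - R 1 = 1 - 0 := h 1
  have h2 : R 2 - R 3 = 0 - (-1) := h 2
  have h3 : R 1 - R 2 = -1 - 0 := h 3
  have h4 : R 5 - R 6 = 0 - (-1) := h 4
  have h5 : R 3 - R 4 = -1 - 0 := h 5
  have h6 : R 0 = 0 := by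
    rw [hR]
    exact congrArg Multiplicative.toAdd (reg_left w P w.length)
  have key : ∀ j, R j = 0 → reg w P w.length j = 1 := by
    intro j hj
    rw [hR] at hj
    exact Multiplicative.toAdd.injective hj
  refine ⟨P, fun j hj => ?_, rfl⟩
  interval_cases j
  · exact ⟨rfl, key 0 h6⟩
  · exact ⟨rfl, key 2 (by omega)⟩
  · exact ⟨rfl, key 4 (by omega)⟩
  · exact ⟨rfl, key 6 (by omega)⟩

theorem Pc_zero (c : Fin 6 → G) : Pc c 0 = 1 := rfl

theorem A_Pc_succ (c : Fin 6 → G) (j : Fin 6) : Pc c (j + 1) = Pc c j * (c j)⁻¹ := by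
  unfold Pc
  rw [List.take_add_one, List.map_append, List.prod_append, List.getElem?_ofFn, dif_pos j.2]
  simp

theorem A_Pc_col (c : Fin 6 → G) (j : Fin 6) : c j = (Pc c (j + 1))⁻¹ * Pc c j := by
  rw [A_Pc_succ]; group

theorem A_Pc_ge (c : Fin 6 → G) {j : ℕ} (hj : 6 ≤ j) : Pc c j = Pc c 6 := by
  unfold Pc
  rw [List.take_of_length_le (by simpa using hj), List.take_of_length_le (by simp)]

theorem Pc_one (c : Fin 6 → G) : (Pc c 1)⁻¹ = c 0 := by
  have h := A_Pc_col c 0
  rw [h]
  exact (mul_one _).symm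

theorem Pc_inj {c c' : Fin 6 → G} (h : ∀ j ≤ 6, Pc c j = Pc c' j) : c = c' := by
  funext j
  rw [A_Pc_col c j, A_Pc_col c' j, h _ j.2.le, h _ j.2]

theorem Pc_surj {P : ℕ → G} (h0 : P 0 = 1) (h : Flat o P) :
    ∃ c : Fin 6 → G, ∀ j ≤ 6 + o, P j = Pc c j := by
  have key : ∀ j ≤ 6, P j = Pc (fun i : Fin 6 => (P (i + 1))⁻¹ * P i) j := by
    intro j
    induction j with
    | zero => intro _; exact h0
    | succ j ih =>
      intro hj
      have h1 := A_Pc_succ (fun i : Fin 6 => (P (i + 1))⁻¹ * P i) ⟨j, hj⟩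
      simp only at h1
      rw [h1, ← ih (by omega)]
      group
  refine ⟨fun i : Fin 6 => (P (i + 1))⁻¹ * P i, fun j hj => ?_⟩
  rcases le_total j 6 with h6 | h6
  · exact key j h6
  · rw [A_Pc_ge _ h6, ← key 6 le_rfl, h j h6 hj, h 6 le_rfl (by omega)]

theorem Pc_flat {c : Fin 6 → G} (h : Capd w (Pc c)) : Flat o (Pc c) := fun _ h6 _ =>
  (A_Pc_ge c h6).trans (h 3 le_rfl).1

theorem capd_congr (ok : Ok o w) {P P' : ℕ → G} (h : Capd w P) (e : ∀ j ≤ 6 + o, P j = P' j) :
    Capd w P' := fun j hj =>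
  ⟨(e _ (by omega)).symm.trans (h j hj).1,
    (reg_congr ok.rng e _ _ (by omega)).symm.trans (h j hj).2⟩

theorem raw_congr (ok : Ok o w) {P P' : ℕ → G} (e : ∀ j ≤ 6 + o, P j = P' j) :
    Raw w P = Raw w P' := by
  simp only [Raw, trP_congr ok.rng e]

theorem A_even (R : ℕ → G) (h0 : R 0 = 1) :
    (∀ j ≤ 3, R (2 * j) = 1) ↔ ((R 1)⁻¹ * R 0) * ((R 2)⁻¹ * R 1) = 1 ∧
      ((R 3)⁻¹ * R 2) * ((R 4)⁻¹ * R 3) = 1 ∧ ((R 5)⁻¹ * R 4) * ((R 6)⁻¹ * R 5) = 1 := by
  have key : ∀ x y z : G, (y⁻¹ * x) * (z⁻¹ * y) = 1 ↔ z = x := by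
    intro x y z
    constructor
    · intro h
      calc z = y * ((y⁻¹ * x) * (z⁻¹ * y)) * y⁻¹ * z := by rw [h]; group
        _ = x := by group
    · rintro rfl; group
  rw [key, key, key]
  constructor
  · intro h
    have h1 : R 2 = 1 := h 1 (by norm_num)
    have h2 : R 4 = 1 := h 2 (by norm_num)
    have h3 : R 6 = 1 := h 3 (by norm_num)
    exact ⟨h1.trans h0.symm, h2.trans h1.symm, h3.trans h2.symm⟩
  · rintro ⟨h1, h2, h3⟩ j hj
    interval_cases j
    · exact h0
    · exact h1.trans h0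
    · exact h2.trans (h1.trans h0)
    · exact h3.trans (h2.trans (h1.trans h0))

theorem capd_iff {a : ℤ} (ha : Odd a) (hw : ∀ x ∈ w, x.1 + 1 < 6 + o)
    (h : Same (6 + o) G (fam a ++ turn) w) (c : Fin 6 → G) : Capd w (Pc c) ↔ Col a c := by
  have _ := ha
  obtain ⟨-, h2, -⟩ := A_same hw (A_rng' a o) h (Pc c)
  have h1 := A_bridge' (A_rng a) (Pc c) c (A_Pc_col c)
  obtain ⟨s0, s1, s2, s3, s4, s5, hr⟩ := list6 (run (fam a) (start c))
    (by rw [run_length, start_length])
  rw [run_append, hr, A_turn] at h1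
  have e : Capd w (Pc c) ↔ (∀ j ≤ 3, Pc c (2 * j) = 1) ∧
      ∀ j ≤ 3, reg (fam a ++ turn) (Pc c) (fam a ++ turn).length (2 * j) = 1 :=
    ⟨fun hc => ⟨fun j hj => (hc j hj).1, fun j hj => (h2 _ (by omega)).symm.trans (hc j hj).2⟩,
      fun hc j hj => ⟨hc.1 j hj, (h2 _ (by omega)).trans (hc.2 j hj)⟩⟩
  have c0 : c 0 = (Pc c 1)⁻¹ * Pc c 0 := A_Pc_col c 0
  have c1 : c 1 = (Pc c 2)⁻¹ * Pc c 1 := A_Pc_col c 1
  have c2 : c 2 = (Pc c 3)⁻¹ * Pc c 2 := A_Pc_col c 2
  have c3 : c 3 = (Pc c 4)⁻¹ * Pc c 3 := A_Pc_col c 3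
  have c4 : c 4 = (Pc c 5)⁻¹ * Pc c 4 := A_Pc_col c 4
  have c5 : c 5 = (Pc c 6)⁻¹ * Pc c 5 := A_Pc_col c 5
  rw [e, A_even _ (Pc_zero c), A_even _ ((reg_left _ _ _).trans (Pc_zero c)), ← c0, ← c1, ← c2,
    ← c3, ← c4, ← c5, ← h1.col 0 _ rfl, ← h1.col 1 _ rfl, ← h1.col 2 _ rfl, ← h1.col 3 _ rfl,
    ← h1.col 4 _ rfl, ← h1.col 5 _ rfl]
  have key : ∀ g x y : G, (g⁻¹ * x * g) * (g⁻¹ * y * g) = 1 ↔ x * y = 1 := by
    intro g x y
    constructor
    · intro h
      calc x * y = g * ((g⁻¹ * x * g) * (g⁻¹ * y * g)) * g⁻¹ := by group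
        _ = 1 := by rw [h]; group
    · intro h
      calc _ = g⁻¹ * (x * y) * g := by group
        _ = 1 := by rw [h]; group
  simp only [key, Col, hr]
  constructor
  · rintro ⟨⟨b1, b2, b3⟩, t1, t2, t3⟩
    refine ⟨fun i => ?_, fun i => ?_⟩
    · fin_cases i
      · exact b1
      · exact mul_eq_one_comm.1 b1
      · exact b2
      · exact mul_eq_one_comm.1 b2
      · exact b3
      · exact mul_eq_one_comm.1 b3
    · fin_cases i
      · exact t3
      · exact t1
      · exact mul_eq_one_comm.1 t1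
      · exact t2
      · exact mul_eq_one_comm.1 t2
      · exact mul_eq_one_comm.1 t3
  · rintro ⟨b, t⟩
    exact ⟨⟨b 0, b 2, b 4⟩, t 1, t 3, t 0⟩

theorem raw_eq {a : ℤ} (ha : Odd a) (hw : ∀ x ∈ w, x.1 + 1 < 6 + o)
    (h : Same (6 + o) G (fam a ++ turn) w) (c : Fin 6 → G) :
    Raw w (Pc c) = caps6.rawLon (fam a) c := by
  obtain ⟨-, -, h3⟩ := A_same hw (A_rng' a o) h (Pc c)
  have h1 := A_bridge' (A_rng a) (Pc c) c (A_Pc_col c)
  obtain ⟨s0, s1, s2, s3, s4, s5, hr⟩ := list6 (run (fam a) (start c))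
    (by rw [run_length, start_length])
  rw [raw5' _ c _ _ _ _ _ _ hr (A_lab ha c)]
  rw [run_append, hr] at h1
  have key : ∀ p < 6, ∀ s : St 6 G, (run turn [s0, s1, s2, s3, s4, s5])[perm p]? = some s →
      trP w (Pc c) p w.length = s.tr := by
    intro p hp s hs
    obtain ⟨s', hs', -, t⟩ := h1.str p hp
    rw [A_top ha] at hs'
    rw [h3 p (by omega), ← t, Option.some.inj (hs'.symm.trans hs)]
  unfold Raw
  rw [key 0 (by norm_num) _ rfl, key 1 (by norm_num) _ rfl, key 2 (by norm_num) _ rfl,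
    key 3 (by norm_num) _ rfl, key 4 (by norm_num) _ rfl, key 5 (by norm_num) _ rfl]
  simp only [half]
  group

theorem A_cross_comm {m : ℕ} {H : Type} [CommGroup H] (c : Fin m → H) (e : Bool) :
    ∀ (i : ℕ) (l : List (St m H)), (∀ s ∈ l, s.col = c s.lab) →
      ∀ s ∈ cross i e l, s.col = c s.lab
  | 0, [], h => h
  | 0, [_], h => h
  | 0, a :: b :: l, h => by
    have ha := h a (by simp)
    have hb := h b (by simp)
    intro s hs
    simp only [cross, List.mem_cons] at hs
    rcases hs with rfl | rfl | hs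
    · cases e
      · exact hb
      · simp [half, hb]
    · cases e
      · simp [half, ha]
      · exact ha
    · exact h s (by simp [hs])
  | i + 1, [], h => h
  | i + 1, a :: l, h => by
    intro s hs
    simp only [cross, List.mem_cons] at hs
    rcases hs with rfl | hs
    · exact h s (by simp)
    · exact A_cross_comm c e i l (fun s hs => h s (by simp [hs])) s hs

theorem A_run_comm {m : ℕ} {H : Type} [CommGroup H] (c : Fin m → H) (w : Word) :
    ∀ l : List (St m H), (∀ s ∈ l, s.col = c s.lab) → ∀ s ∈ run w l, s.col = c s.lab := by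
  induction w with
  | nil => intro l h; exact h
  | cons x w ih => intro l h; exact ih _ (A_cross_comm c x.2 x.1 l h)

/-- the colouring by the orientation, modulo `N` -/
theorem col_ori {a : ℤ} (ha : Odd a) (N : ℕ) :
    ∃ c : Fin 6 → Multiplicative (ZMod N), Col a c ∧ c 0 = Multiplicative.ofAdd 1 ∧
      caps6.rawLon (fam a) c = Multiplicative.ofAdd ((caps6.expo (fam a) : ℤ) : ZMod N) := by
  let φ : Multiplicative ℤ →* Multiplicative (ZMod N) :=
    AddMonoidHom.toMultiplicative (Int.castAddHom (ZMod N))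
  have ho : ∀ i, caps6.ori (fam a) i = if i ∈ ([0, 5, 3] : List (Fin 6)) then 1 else -1 := by
    intro i
    unfold Caps.ori
    rw [(walk_of_lab _ (A_lab ha _)).1]
  obtain ⟨c, hc⟩ : ∃ c : Fin 6 → Multiplicative (ZMod N),
    c = fun i => φ (Multiplicative.ofAdd (caps6.ori (fam a) i)) := ⟨_, rfl⟩
  have hm : ∀ i j, caps6.ori (fam a) i + caps6.ori (fam a) j = 0 → c i * c j = 1 := by
    intro i j hij
    rw [hc]
    simp only
    rw [← map_mul, ← ofAdd_add, hij, ofAdd_zero, map_one]
  refine ⟨c, ⟨fun i => hm _ _ ?_, fun i => ?_⟩, ?_, ?_⟩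
  · rw [ho, ho]
    revert i
    decide
  · have hl := A_lab ha c
    have hcol := A_run_comm c (fam a) (start c) (by
      intro s hs
      obtain ⟨i, rfl⟩ := (List.mem_ofFn' _ _).1 hs
      rfl)
    obtain ⟨s0, s1, s2, s3, s4, s5, hr⟩ := list6 (run (fam a) (start c))
      (by rw [run_length, start_length])
    rw [hr] at hl hcol ⊢
    simp only [List.map_cons, List.map_nil, List.cons.injEq, and_true] at hl
    obtain ⟨l0, l1, l2, l3, l4, l5⟩ := hl
    have e0 := hcol s0 (by simp)
    have e1 := hcol s1 (by simp)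
    have e2 := hcol s2 (by simp)
    have e3 := hcol s3 (by simp)
    have e4 := hcol s4 (by simp)
    have e5 := hcol s5 (by simp)
    rw [l0] at e0
    rw [l1] at e1
    rw [l2] at e2
    rw [l3] at e3
    rw [l4] at e4
    rw [l5] at e5
    have t0 : s0.col * s5.col = 1 := by rw [e0, e5]; exact hm _ _ (by rw [ho, ho]; decide)
    have t1 : s1.col * s2.col = 1 := by rw [e1, e2]; exact hm _ _ (by rw [ho, ho]; decide)
    have t3 : s3.col * s4.col = 1 := by rw [e3, e4]; exact hm _ _ (by rw [ho, ho]; decide)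
    fin_cases i
    · exact t0
    · exact t1
    · exact mul_eq_one_comm.1 t1
    · exact t3
    · exact mul_eq_one_comm.1 t3
    · exact mul_eq_one_comm.1 t0
  · rw [hc]
    simp only
    rw [ho]
    simp [φ]
  · rw [hc, rawLon_map]
    rfl

end Vale.Agent.N258
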