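import Vale.Agent.P258.R2.H390.BrDefs
import Mathlib.Geometry.Manifold.Instances.Sphere
import Mathlib.AlgebraicTopology.FundamentalGroupoid.FundamentalGroup
import Mathlib.Analysis.SpecialFunctions.Complex.Circle

/-!
# Dehn surgery on framed knots in the three-sphere, and plats in `ℂ × ℝ`
-/

namespace Vale.Agent.N258

open Vale.Agent.P258.Braid (Word)

/-- The three-sphere. -/
abbrev S3 : Type := Metric.sphere (0 : EuclideanSpace ℝ (Fin 4)) 1

/-- The point `exp (2 π i t)` of the circle. -/
noncomputable def ex (t : ℝ) : Circle := Circle.exp (2 * Real.pi * t)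

/-- The core of a solid torus. -/
def core {Z : Type} (ν : Circle × ℂ → Z) : Set Z := Set.range fun u => ν (u, 0)

/-- Dehn surgery of slope `p` with respect to the framing `ν`: the core `K` of `ν` is removed and
a solid torus `S¹ × ℂ` is glued in, the point `(v, r u)` (`r > 0`, `u`, `v` in `S¹`) being
identified with `ν (u, r u ^ p v)`.  The meridian circles (`u` turns) of the new solid torus go
to curves which turn once along `K` and `p` times around `K`. -/
abbrev Surgery (ν : Circle × ℂ → S3) (p : ℤ) : Type :=
  Quot fun a b : ↥(core ν)ᶜ ⊕ Circle × ℂ => ∃ (x : ↥(core ν)ᶜ) (u v : Circle) (r : ℝ),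
    0 < r ∧ a = Sum.inl x ∧ b = Sum.inr (v, (r : ℂ) * u) ∧ x.1 = ν (u, (r : ℂ) * (u : ℂ) ^ p * v)

/-- The framing `ν` is the preferred one: the longitude `t ↦ ν (exp (2 π i t), 1)` is
null-homologous in the complement of the knot. -/
def Preferred (ν : Circle × ℂ → S3) : Prop :=
  ∀ (x : ↥(core ν)ᶜ) (l : Path x x), (∀ t, (l t).1 = ν (ex t, 1)) →
    FundamentalGroup.fromPath (Path.Homotopic.Quotient.mk l) ∈
      commutator (FundamentalGroup (↥(core ν)ᶜ) x)

/-- The sign of a crossing letter. -/
def sg (e : Bool) : ℝ := if e then 1 else -1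

/-- The place in `ℂ`, at the time `s ∈ [0, 1]`, of the point that starts at `q` during the
crossing `x = (i, e)`: the points `i` and `i + 1` are exchanged; for `e = true` the one that
starts at `i` has positive imaginary part. -/
def mv (x : ℕ × Bool) (q : ℕ) (s : ℝ) : ℂ :=
  if q = x.1 then ⟨q + s, sg x.2 * (s * (1 - s))⟩
  else if q = x.1 + 1 then ⟨q - s, -(sg x.2 * (s * (1 - s)))⟩ else q

/-- The position after the crossing `x`. -/
def sw (x : ℕ × Bool) (q : ℕ) : ℕ := if q = x.1 then q + 1 else if q = x.1 + 1 then x.1 else q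

/-- The caps: the points `0, 1`, the points `2, 3` and the points `4, 5` meet at the time
`s = 1`; the other points do not move. -/
noncomputable def cap (q : ℕ) (s : ℝ) : ℂ :=
  if q < 6 then ((q + (-1) ^ q * min s 1 / 2 : ℝ) : ℂ) else q

/-- The motion, for `t ≥ 0`, of the point that starts at `q`: one letter of the word in each
unit of time, then the caps. -/
noncomputable def up : Word → ℕ → ℝ → ℂ
  | [], q, t => cap q t
  | x :: w, q, t => if t ≤ 1 then mv x q t else up w (sw x q) (t - 1)

/-- The strand with the bottom position `p`, at the height `t`. -/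
noncomputable def strand (w : Word) (p : ℕ) (t : ℝ) : ℂ :=
  if t ≤ 0 then cap p (-t) else up w p t

/-- The plat closure of the first six strands of the braid `w`. -/
def knot (w : Word) : Set (ℂ × ℝ) :=
  {y | ∃ p < 6, -1 ≤ y.2 ∧ y.2 ≤ w.length + 1 ∧ y.1 = strand w p y.2}

/-- The complement of the other `o` strands of the braid `w`, extended to infinity. -/
def pattern (o : ℕ) (w : Word) : Set (ℂ × ℝ) :=
  {y | ∀ p, 6 ≤ p → p < 6 + o → y.1 ≠ strand w p y.2}

/-- The first strand passes over the next four. -/
def turn : Word := [(0, true), (1, true), (2, true), (3, true)]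

end Vale.Agent.N258
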