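import Vale.Agent.N258.Main

/-! The slopes `2` and `-2`. -/

namespace Vale.Agent.N258

open Set Filter Topology
open Vale.Agent.P258.Braid
open Vale.Agent.P258.Seven (G7 pow84)
open Vale.Agent.P002Z

variable {o : ℕ} {w : Word} {ν : Circle × ℂ → S3} {e : ↥(pattern o w) → S3}

theorem separated {G : Type} [Group G] {N : ℕ} (hN : ∀ g : G, g ^ N = 1) {a : ℤ} (ha : Odd a)
    (hw : ∀ x ∈ w, x.1 + 1 < 6 + o) (hE : Equiv (6 + o) G N (fam a ++ turn) w)
    (hne : caps6.homCount G (fam a) 2 1 ≠ caps6.homCount G (fam a) (-2) 1)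
    (he : IsOpenEmbedding e) (hν : IsOpenEmbedding ν)
    (hcore : core ν = e '' (Subtype.val ⁻¹' knot w)) (hpref : Preferred ν) {p r : ℤ}
    (hp : (N : ℤ) ∣ p - 2) (hr : (N : ℤ) ∣ r + 2) (x : Surgery ν p) (y : Surgery ν r) :
    IsEmpty (FundamentalGroup (Surgery ν p) x ≃* FundamentalGroup (Surgery ν r) y) := by
  obtain ⟨eX, E⟩ := exists_emb (ok_of_same ha hw hE.1) he hν hcore
  obtain ⟨ε, hε, h⟩ := count E hpref ha hN hE
  apply isEmpty_of_card (G := G)
  have hrefl : Equiv 6 G N (fam a) (fam a) := ⟨Same.refl' _, Same.refl' _⟩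
  rw [h p x, h r y]
  rcases hε with rfl | rfl
  · rw [homCount_congr caps6 hN hrefl (p' := 2) (q' := 1) (by rwa [one_mul]) (by simp),
      homCount_congr caps6 hN hrefl (p := 1 * r) (p' := -2) (q' := 1)
        (by rwa [one_mul, sub_neg_eq_add]) (by simp)]
    exact hne
  · rw [homCount_congr caps6 hN hrefl (p' := -2) (q' := 1)
        (by rw [show -1 * p - -2 = -(p - 2) by ring]; exact hp.neg_right) (by simp),
      homCount_congr caps6 hN hrefl (p := -1 * r) (p' := 2) (q' := 1)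
        (by rw [show -1 * r - 2 = -(r + 2) by ring]; exact hr.neg_right) (by simp)]
    exact hne.symm

theorem main (o : ℕ) : ∃ S : Subgroup (BraidGroup (6 + o)), S.Normal ∧ S.FiniteIndex ∧
    ∀ n : ℤ, (24 ∣ n - 7 ∨ 24 ∣ n + 7 ∨ 168 ∣ n - 9 ∨ 168 ∣ n + 9 ∨ 168 ∣ n - 33 ∨
        168 ∣ n + 33 ∨ 168 ∣ n - 73 ∨ 168 ∣ n + 73 ∨ 252 ∣ n - 5) →
      ∀ w : Word, (∀ x ∈ w, x.1 + 1 < 6 + o) →
        (toBraid (6 + o) (fam n ++ turn))⁻¹ * toBraid (6 + o) w ∈ S →
        ∀ e : ↥(pattern o w) → S3, IsOpenEmbedding e →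
        ∀ ν : Circle × ℂ → S3, IsOpenEmbedding ν → core ν = e '' (Subtype.val ⁻¹' knot w) →
          Preferred ν → ∀ p r : ℤ, 252 ∣ p - 2 → 252 ∣ r + 2 →
          (∀ x y, IsEmpty (FundamentalGroup (Surgery ν p) x ≃* FundamentalGroup (Surgery ν r) y)) ∧
            IsEmpty (ContinuousMap.HomotopyEquiv (Surgery ν p) (Surgery ν r)) := by
  have f1 : (actKer (6 + o) S8 126).FiniteIndex := actKer_finiteIndex _ S8 126 (by norm_num)
  have f2 : (actKer (6 + o) G7 84).FiniteIndex := actKer_finiteIndex _ G7 84 (by norm_num)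
  refine ⟨actKer (6 + o) S8 126 ⊓ actKer (6 + o) G7 84, inferInstance, inferInstance, ?_⟩
  intro n hn w hw hS e he ν hν hcore hpref p r hp hr
  have := nonempty_surgery ν p
  suffices h : ∀ x y, IsEmpty (FundamentalGroup (Surgery ν p) x ≃*
      FundamentalGroup (Surgery ν r) y) from ⟨h, isEmpty_homotopyEquiv h⟩
  have happ : ∀ {G : Type} [Group G] {N : ℕ} {u v : Word}, Equiv (6 + o) G N u v →
      Equiv (6 + o) G N (u ++ turn) (v ++ turn) := fun h =>
    ⟨h.1.append (Same.refl' _), h.2.append (Same.refl' _)⟩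
  have hn' : (24 ∣ n - 7 ∨ 24 ∣ n + 7 ∨ 168 ∣ n - 9 ∨ 168 ∣ n + 9 ∨ 168 ∣ n - 33 ∨
      168 ∣ n + 33 ∨ 168 ∣ n - 73 ∨ 168 ∣ n + 73) ∨ 252 ∣ n - 5 := by tauto
  rcases hn' with hn | hn
  · obtain ⟨a, ha, hd⟩ := rep_of_class n hn
    have hE := (mem_actKer (6 + o) G7 84 _ _).1 hS.2
    have hF : Equiv (6 + o) G7 84 (fam (2 * (a : ℤ) + 1)) (fam n) := by
      refine fam_equiv pow84 ?_
      have : (2 * (84 : ℕ) : ℤ) = 168 := by norm_num
      rw [this]
      omega
    exact separated pow84 ⟨a, rfl⟩ hw (equiv_trans (happ hF) hE) (sep_all a ha) he hν hcore hpref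
      (by push_cast; omega) (by push_cast; omega)
  · have hE := (mem_actKer (6 + o) S8 126 _ _).1 hS.1
    have hF : Equiv (6 + o) S8 126 (fam 5) (fam n) := by
      refine fam_equiv pow126 ?_
      have : (2 * (126 : ℕ) : ℤ) = 252 := by norm_num
      rw [this]
      omega
    exact separated pow126 ⟨2, rfl⟩ hw (equiv_trans (happ hF) hE) count_lt.ne' he hν hcore hpref
      (by push_cast; omega) (by push_cast; omega)

end Vale.Agent.N258
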