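import Vale.Agent.N258.Base
import Mathlib.Analysis.Convex.Contractible

/-! Block G: local simple connectivity, convex sets, gluing. -/

namespace Vale.Agent.N258

open Set Filter Topology
open Vale.Agent.P258.Braid (Word)
open Vale.Agent.P002Z

variable {X Y : Type} [TopologicalSpace X] [TopologicalSpace Y] {G : Type} [Group G]

theorem G1_sc {E : Type} [NormedAddCommGroup E] [NormedSpace ℝ E] {S : Set E}
    (h : Convex ℝ S) (hne : S.Nonempty) : IsSimplyConnected S := by
  have := h.contractibleSpace hne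
  exact SimplyConnectedSpace.ofContractible S

theorem null_of_convex {E : Type} [NormedAddCommGroup E] [NormedSpace ℝ E] {S : Set E}
    {V : Set ↥S} (h : Convex ℝ (Subtype.val '' V)) : Null V := fun x p hp =>
  null_of_isSimplyConnected (IsEmbedding.subtypeVal.isSimplyConnected_image.1
    (G1_sc h ⟨_, p 0, hp 0, rfl⟩)) x p hp

theorem joinedIn_of_convex {E : Type} [NormedAddCommGroup E] [NormedSpace ℝ E] {S : Set E}
    {V : Set ↥S} (h : Convex ℝ (Subtype.val '' V)) {x y : ↥S} (hx : x ∈ V) (hy : y ∈ V) :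
    JoinedIn V x y :=
  (IsEmbedding.subtypeVal.isSimplyConnected_image.1
    (G1_sc h ⟨_, x, hx, rfl⟩)).isPathConnected.joinedIn x hx y hy

theorem joinedIn_of_segment {E : Type} [NormedAddCommGroup E] [NormedSpace ℝ E] {S : Set E}
    {V : Set ↥S} (x y : ↥S) (h : ∀ z ∈ segment ℝ x.1 y.1, z ∈ Subtype.val '' V) :
    JoinedIn V x y := by
  have e : Subtype.val '' (Subtype.val ⁻¹' segment ℝ x.1 y.1 : Set ↥S) = segment ℝ x.1 y.1 :=
    image_preimage_eq_of_subset fun z hz => by
      obtain ⟨v, -, rfl⟩ := h z hz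
      exact ⟨v, rfl⟩
  refine (joinedIn_of_convex (V := Subtype.val ⁻¹' segment ℝ x.1 y.1)
    (e.symm ▸ convex_segment _ _) (left_mem_segment _ _ _) (right_mem_segment _ _ _)).mono ?_
  intro z hz
  obtain ⟨v, hv, e⟩ := h z.1 hz
  exact Subtype.ext e ▸ hv

/-- a locally constant function is constant along paths -/
theorem const_of_joinedIn {A : Type} {V : Set X} {f : X → A}
    (h : ∀ x ∈ V, ∀ᶠ y in 𝓝[V] x, f y = f x) {x y : X} (hj : JoinedIn V x y) : f x = f y := by
  obtain ⟨p, hp⟩ := hj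
  have hl : IsLocallyConstant fun t => f (p t) :=
    (IsLocallyConstant.iff_eventually_eq _).2 fun t =>
      (tendsto_nhdsWithin_iff.2 ⟨p.continuous.tendsto t, Eventually.of_forall hp⟩).eventually
        (h _ (hp t))
  simpa using hl.apply_eq_of_preconnectedSpace 0 1

theorem nice_normed (E : Type) [NormedAddCommGroup E] [NormedSpace ℝ E] : Nice E := by
  intro x U hU
  obtain ⟨r, hr, hs⟩ := Metric.mem_nhds_iff.1 hU
  exact ⟨_, Metric.isOpen_ball, Metric.mem_ball_self hr, hs,
    G1_sc (convex_ball x r) ⟨x, Metric.mem_ball_self hr⟩⟩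

theorem Nice.of_isOpenEmbedding {f : X → Y} (hf : IsOpenEmbedding f) (h : Nice Y) : Nice X := by
  intro x U hU
  obtain ⟨V, ho, hx, hs, hc⟩ := h (f x) (f '' U) (hf.isOpenMap.image_mem_nhds hU)
  refine ⟨f ⁻¹' V, ho.preimage hf.continuous, hx,
    (preimage_mono hs).trans (preimage_image_eq U hf.injective).subset, ?_⟩
  rw [← hf.isEmbedding.isSimplyConnected_image,
    image_preimage_eq_of_subset (hs.trans (image_subset_range f U))]
  exact hc

theorem Nice.locPath (h : Nice X) : LocallyPathConnectedSpace X :=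
  ⟨fun x => ⟨fun U => ⟨fun hU => by
    obtain ⟨V, ho, hx, hs, hc⟩ := h x U hU
    exact ⟨V, ⟨ho.mem_nhds hx, hc.isPathConnected⟩, hs⟩,
    fun ⟨_, hV, hs⟩ => mem_of_superset hV.1 hs⟩⟩⟩

theorem G1_chart (H : Type) [TopologicalSpace H] [ChartedSpace H X] (h : Nice H) : Nice X := by
  intro x U hU
  have ho := (chartAt H x).open_source
  have hn : Nice (chartAt H x).source :=
    h.of_isOpenEmbedding (chartAt H x).isOpenEmbedding_restrict
  obtain ⟨V, hV, hx, hs, hc⟩ := hn ⟨x, mem_chart_source H x⟩ (Subtype.val ⁻¹' U)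
    (continuous_subtype_val.continuousAt.preimage_mem_nhds hU)
  exact ⟨Subtype.val '' V, ho.isOpenMap_subtype_val V hV, ⟨_, hx, rfl⟩, image_subset_iff.2 hs,
    IsEmbedding.subtypeVal.isSimplyConnected_image.2 hc⟩

theorem nice_S3 : Nice S3 := G1_chart (EuclideanSpace ℝ (Fin 3)) (nice_normed _)

theorem nice_torus : Nice (Circle × ℂ) :=
  G1_chart (ModelProd (EuclideanSpace ℝ (Fin 1)) ℂ) (nice_normed (EuclideanSpace ℝ (Fin 1) × ℂ))

end Vale.Agent.N258
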