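import Vale.Agent.N258.GeoA

/-! Block Geo: the geometry of the plat. -/

namespace Vale.Agent.N258

open Set Filter Topology
open Vale.Agent.P258.Braid (Word)
open Vale.Agent.P002Z

variable {o : ℕ} {w : Word} {G : Type} [Group G]

/-- A set that can be pushed along a direction into a convex subset is contractible. -/
theorem geoB_contractible {E : Type} [NormedAddCommGroup E] [NormedSpace ℝ E] {V C : Set E}
    (v : E) (m : E → ℝ) (hm : Continuous m) (hm0 : ∀ y, 0 ≤ m y) (hC : Convex ℝ C) (hCV : C ⊆ V)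
    (hV : ∀ y ∈ V, ∀ s : ℝ, 0 ≤ s → y + s • v ∈ V) (hmC : ∀ y, y + m y • v ∈ C) :
    ContractibleSpace V := by
  let r : C(V, V) := ⟨fun z => ⟨z.1 + m z.1 • v, hCV (hmC _)⟩, by
    refine Continuous.subtype_mk ?_ _
    fun_prop⟩
  rw [contractible_iff_id_nullhomotopic]
  refine ⟨⟨0 + m 0 • v, hCV (hmC 0)⟩, ContinuousMap.Homotopic.trans (g := r) ⟨?_⟩ ⟨?_⟩⟩
  · exact
      { toFun := fun p => ⟨p.2.1 + ((p.1 : ℝ) * m p.2.1) • v,
          hV _ p.2.2 _ (mul_nonneg p.1.2.1 (hm0 _))⟩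
        continuous_toFun := by
          refine Continuous.subtype_mk ?_ _
          fun_prop
        map_zero_left := fun z => Subtype.ext (by simp)
        map_one_left := fun z => Subtype.ext (by simp [r]) }
  · exact
      { toFun := fun p => ⟨(1 - (p.1 : ℝ)) • (p.2.1 + m p.2.1 • v) + (p.1 : ℝ) • (0 + m 0 • v),
          hCV (hC (hmC _) (hmC _) (sub_nonneg.2 p.1.2.2) p.1.2.1 (by ring))⟩
        continuous_toFun := by
          refine Continuous.subtype_mk ?_ _
          fun_prop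
        map_zero_left := fun z => Subtype.ext (by simp [r])
        map_one_left := fun z => Subtype.ext (by simp) }

/-- the set `Up` in the ambient space -/
def geoB_U (o : ℕ) (w : Word) (e : ℝ) : Set (ℂ × ℝ) :=
  {y | ∀ p < 6 + o, act w p y.2 → (strand w p y.2).re = y.1.re →
    0 < e * (y.1.im - (strand w p y.2).im)}

theorem geoB_U_subset (o : ℕ) (w : Word) (e : ℝ) : geoB_U o w e ⊆ (link o w)ᶜ := by
  rintro y hy ⟨p, hp, ha, h⟩
  have := hy p hp ha (by rw [h])
  rw [h] at this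
  simp at this

theorem geoB_up_eq (o : ℕ) (w : Word) (e : ℝ) : Up o w e = Subtype.val ⁻¹' geoB_U o w e := rfl

theorem geoB_half (o : ℕ) (w : Word) {e : ℝ} (he : e = 1 ∨ e = -1) {y : ℂ × ℝ}
    (hy : 1 ≤ e * y.1.im) : y ∈ geoB_U o w e := by
  intro p _ _ _
  have h := abs_le.1 (strand_im w p y.2)
  rcases he with rfl | rfl <;> linarith [h.1, h.2]

theorem geoB_contractible_U (o : ℕ) (w : Word) {e : ℝ} (he : e = 1 ∨ e = -1) :
    ContractibleSpace (geoB_U o w e) := by
  have he2 : e * e = 1 := by rcases he with rfl | rfl <;> norm_num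
  have him : ∀ (y : ℂ × ℝ) (s : ℝ),
      e * (y + s • (((e : ℂ) * Complex.I, 0) : ℂ × ℝ)).1.im = e * y.1.im + s := by
    intro y s
    have : (y + s • (((e : ℂ) * Complex.I, 0) : ℂ × ℝ)).1.im = y.1.im + s * e := by simp
    rw [this]
    linear_combination s * he2
  refine geoB_contractible (C := {y : ℂ × ℝ | 1 ≤ e * y.1.im}) (((e : ℂ) * Complex.I, 0) : ℂ × ℝ)
    (fun y => max 0 (1 - e * y.1.im)) (by fun_prop) (fun y => le_max_left _ _) ?_
    (fun y hy => geoB_half o w he hy) ?_ ?_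
  · intro x hx y hy a b ha hb hab
    have h1 : (a • x + b • y).1.im = a * x.1.im + b * y.1.im := by simp
    have hx' : 1 ≤ e * x.1.im := hx
    have hy' : 1 ≤ e * y.1.im := hy
    change 1 ≤ e * (a • x + b • y).1.im
    rw [h1]
    nlinarith [mul_le_mul_of_nonneg_left hx' ha, mul_le_mul_of_nonneg_left hy' hb]
  · intro y hy s hs p hp
    have h2 : (y + s • (((e : ℂ) * Complex.I, 0) : ℂ × ℝ)).2 = y.2 := by simp
    have h3 : (y + s • (((e : ℂ) * Complex.I, 0) : ℂ × ℝ)).1.re = y.1.re := by simp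
    rw [h2, h3, mul_sub, him]
    intro ha hre
    have := hy p hp ha hre
    rw [mul_sub] at this
    linarith
  · intro y
    change 1 ≤ e * (y + _ • (((e : ℂ) * Complex.I, 0) : ℂ × ℝ)).1.im
    rw [him]
    have := le_max_right 0 (1 - e * y.1.im)
    linarith

theorem nice_XX (o : ℕ) (w : Word) : Nice (XX o w) :=
  Nice.of_isOpenEmbedding (isClosed_link o w).isOpen_compl.isOpenEmbedding_subtypeVal
    (nice_normed (ℂ × ℝ))

theorem geoB_isClosed_act (w : Word) (p : ℕ) : IsClosed {t : ℝ | act w p t} := by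
  by_cases h : 6 ≤ p
  · have : {t : ℝ | act w p t} = univ := eq_univ_of_forall fun t => Or.inl h
    rw [this]
    exact isClosed_univ
  · have : {t : ℝ | act w p t} = Icc (-1 : ℝ) (w.length + 1) := by
      ext t
      simp [act, h]
    rw [this]
    exact isClosed_Icc

theorem geoB_isOpen_U (o : ℕ) (w : Word) (e : ℝ) : IsOpen (geoB_U o w e) := by
  have : geoB_U o w e = ⋂ p ∈ Finset.range (6 + o), ((Prod.snd ⁻¹' {t : ℝ | act w p t})ᶜ ∪
      ({y : ℂ × ℝ | (strand w p y.2).re ≠ y.1.re} ∪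
        {y : ℂ × ℝ | 0 < e * (y.1.im - (strand w p y.2).im)})) := by
    ext y
    simp only [geoB_U, mem_ofPred_eq, mem_iInter, mem_union, Finset.mem_range, mem_compl_iff,
      mem_preimage]
    exact forall₂_congr fun p _ => by tauto
  rw [this]
  refine isOpen_biInter_finset fun p _ => IsOpen.union ?_ (IsOpen.union ?_ ?_)
  · exact ((geoB_isClosed_act w p).preimage continuous_snd).isOpen_compl
  · have := continuous_strand w p
    exact isOpen_ne_fun (by fun_prop) (by fun_prop)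
  · have := continuous_strand w p
    exact isOpen_lt continuous_const (by fun_prop)

theorem isOpen_up (o : ℕ) (w : Word) {e : ℝ} (he : e = 1 ∨ e = -1) : IsOpen (Up o w e) := by
  have _ := he
  exact (geoB_isOpen_U o w e).preimage continuous_subtype_val

theorem null_up (o : ℕ) (w : Word) {e : ℝ} (he : e = 1 ∨ e = -1) : Null (Up o w e) := by
  have := geoB_contractible_U o w he
  have h := null_range (IsEmbedding.inclusion (geoB_U_subset o w e))
  rwa [range_inclusion] at h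

theorem geoB_isPathConnected_up (o : ℕ) (w : Word) {e : ℝ} (he : e = 1 ∨ e = -1) :
    IsPathConnected (Up o w e) := by
  have := geoB_contractible_U o w he
  exact (isPathConnected_iff_pathConnectedSpace.2 inferInstance).preimage_coe
    (geoB_U_subset o w e)

theorem joined_up {e : ℝ} (he : e = 1 ∨ e = -1) {x y : XX o w} (hx : x ∈ Up o w e)
    (hy : y ∈ Up o w e) : JoinedIn (Up o w e) x y :=
  (geoB_isPathConnected_up o w he).joinedIn x hx y hy

theorem mem_up_up {y : XX o w} : y ∈ Up o w 1 ∩ Up o w (-1) ↔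
    ∀ p < 6 + o, act w p y.1.2 → (strand w p y.1.2).re ≠ y.1.1.re := by
  constructor
  · rintro ⟨h1, h2⟩ p hp ha hre
    have h3 := h1 p hp ha hre
    have h4 := h2 p hp ha hre
    linarith
  · intro h
    exact ⟨fun p hp ha hre => absurd hre (h p hp ha), fun p hp ha hre => absurd hre (h p hp ha)⟩

theorem not_mem_link {y : ℂ × ℝ}
    (h : ∀ p < 6 + o, act w p y.2 → (strand w p y.2).re ≠ y.1.re) : y ∉ link o w := by
  rintro ⟨p, hp, ha, hy⟩
  exact h p hp ha (by rw [hy])

/-- the box in the ambient space -/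
def geoB_box (x : ℕ × Bool) (k : ℕ) : Set (ℂ × ℝ) :=
  {y | (x.1 : ℝ) < y.1.re ∧ y.1.re < x.1 + 1 ∧ |y.1.im| < (y.2 - k) * (1 - (y.2 - k))}

theorem geoB_vb_none {k : ℕ} (h : w[k]? = none) : Vb o w k = ∅ := by
  ext y
  simp [Vb, h]

theorem geoB_vb_some {k : ℕ} {x : ℕ × Bool} (h : w[k]? = some x) :
    Vb o w k = Subtype.val ⁻¹' geoB_box x k := by
  ext y
  constructor
  · rintro ⟨x', hx', hy⟩
    rw [h] at hx'
    cases hx'
    exact hy
  · intro hy
    exact ⟨x, h, hy⟩

theorem isOpen_vb (o : ℕ) (w : Word) (k : ℕ) : IsOpen (Vb o w k) := by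
  cases h : w[k]? with
  | none =>
    rw [geoB_vb_none h]
    exact isOpen_empty
  | some x =>
    rw [geoB_vb_some h]
    refine IsOpen.preimage continuous_subtype_val ?_
    have h1 : IsOpen {y : ℂ × ℝ | (x.1 : ℝ) < y.1.re} :=
      isOpen_lt continuous_const (by fun_prop)
    have h2 : IsOpen {y : ℂ × ℝ | y.1.re < x.1 + 1} :=
      isOpen_lt (by fun_prop) continuous_const
    have h3 : IsOpen {y : ℂ × ℝ | |y.1.im| < (y.2 - k) * (1 - (y.2 - k))} :=
      isOpen_lt (by fun_prop) (by fun_prop)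
    exact h1.inter (h2.inter h3)

theorem geoB_unit {a s : ℝ} (h : |a| < s * (1 - s)) : 0 < s ∧ s < 1 := by
  have h0 := abs_nonneg a
  constructor
  · by_contra hs
    nlinarith
  · by_contra hs
    nlinarith

theorem geoB_sg (e : Bool) : sg e = 1 ∨ sg e = -1 := by cases e <;> simp [sg]

/-- the three kinds of points in a crossing -/
theorem geoB_mv (x : ℕ × Bool) (q : ℕ) (s : ℝ) :
    (q = x.1 ∧ (mv x q s).re = x.1 + s ∧ (mv x q s).im = sg x.2 * (s * (1 - s))) ∨
    (q = x.1 + 1 ∧ (mv x q s).re = x.1 + 1 - s ∧ (mv x q s).im = -(sg x.2 * (s * (1 - s)))) ∨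
    (((q : ℝ) + 1 ≤ x.1 ∨ (x.1 : ℝ) + 2 ≤ q) ∧ (mv x q s).re = q ∧ (mv x q s).im = 0) := by
  by_cases h1 : q = x.1
  · left
    simp [mv, h1]
  · by_cases h2 : q = x.1 + 1
    · right; left
      simp [mv, h2]
    · right; right
      refine ⟨?_, by simp [mv, h1, h2], by simp [mv, h1, h2]⟩
      rcases (by omega : q + 1 ≤ x.1 ∨ x.1 + 2 ≤ q) with h | h
      · left; exact_mod_cast h
      · right; exact_mod_cast h

/-- the box is disjoint from the strands -/
theorem box_not_mem (ok : Ok o w) {k : ℕ} {x : ℕ × Bool} (h : w[k]? = some x) {y : ℂ × ℝ}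
    (h1 : (x.1 : ℝ) < y.1.re) (h2 : y.1.re < x.1 + 1)
    (h3 : |y.1.im| < (y.2 - k) * (1 - (y.2 - k))) : y ∉ link o w := by
  have _ := ok
  rintro ⟨p, -, -, hy⟩
  obtain ⟨h4, h5⟩ := geoB_unit h3
  rw [strand_mid h p (by linarith) (by linarith)] at hy
  have h6 := abs_lt.1 h3
  rcases geoB_mv x (pos w k p) (y.2 - k) with ⟨-, -, hi⟩ | ⟨-, -, hi⟩ | ⟨hq, hr, -⟩
  · rw [← hy] at hi
    rcases geoB_sg x.2 with hs | hs <;> rw [hs] at hi <;> linarith [h6.1, h6.2]
  · rw [← hy] at hi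
    rcases geoB_sg x.2 with hs | hs <;> rw [hs] at hi <;> linarith [h6.1, h6.2]
  · rw [← hy] at hr
    rcases hq with hq | hq <;> linarith

theorem geoB_convex_box (x : ℕ × Bool) (k : ℕ) : Convex ℝ (geoB_box x k) := by
  rintro u ⟨u1, u2, u3⟩ v ⟨v1, v2, v3⟩ a b ha hb hab
  have hre : (a • u + b • v).1.re = a * u.1.re + b * v.1.re := by simp
  have him : (a • u + b • v).1.im = a * u.1.im + b * v.1.im := by simp
  have ht : (a • u + b • v).2 = a * u.2 + b * v.2 := by simp
  have key : ∀ {c d : ℝ}, c < 0 → d < 0 → a * c + b * d < 0 := fun hc hd =>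
    convex_Iio (𝕜 := ℝ) (0 : ℝ) hc hd ha hb hab
  obtain rfl : b = 1 - a := by linarith
  have hsq := mul_nonneg (mul_nonneg ha hb) (sq_nonneg (u.2 - v.2))
  obtain ⟨u4, u5⟩ := abs_lt.1 u3
  obtain ⟨v4, v5⟩ := abs_lt.1 v3
  refine ⟨?_, ?_, ?_⟩
  · rw [hre]
    have := key (sub_neg.2 u1) (sub_neg.2 v1)
    linarith
  · rw [hre]
    have := key (sub_neg.2 u2) (sub_neg.2 v2)
    linarith
  · rw [him, ht, abs_lt]
    have k1 := key (sub_neg.2 u4) (sub_neg.2 v4)
    have k2 := key (sub_neg.2 u5) (sub_neg.2 v5)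
    constructor <;> nlinarith

theorem convex_vb (ok : Ok o w) (k : ℕ) : Convex ℝ (Subtype.val '' Vb o w k) := by
  cases h : w[k]? with
  | none =>
    rw [geoB_vb_none h, image_empty]
    exact convex_empty
  | some x =>
    rw [geoB_vb_some h, Subtype.image_preimage_coe, inter_eq_right.2]
    · exact geoB_convex_box x k
    · exact fun y hy => box_not_mem ok h hy.1 hy.2.1 hy.2.2

theorem vb_disjoint {k l : ℕ} {y : XX o w} (hk : y ∈ Vb o w k) (hl : y ∈ Vb o w l) : k = l := by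
  obtain ⟨-, -, -, -, h1⟩ := hk
  obtain ⟨-, -, -, -, h2⟩ := hl
  obtain ⟨h3, h4⟩ := geoB_unit h1
  obtain ⟨h5, h6⟩ := geoB_unit h2
  have h7 : (k : ℝ) < l + 1 := by linarith
  have h8 : (l : ℝ) < k + 1 := by linarith
  have h9 : k < l + 1 := by exact_mod_cast h7
  have h10 : l < k + 1 := by exact_mod_cast h8
  omega

theorem geoB_cap_im (q : ℕ) (s : ℝ) : (cap q s).im = 0 := by
  unfold cap
  split_ifs
  · exact Complex.ofReal_im _
  · simp

theorem cover (ok : Ok o w) (y : XX o w) :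
    y ∈ Up o w 1 ∨ y ∈ Up o w (-1) ∨ ∃ k, y ∈ Vb o w k := by
  have _ := ok
  by_cases h1 : y ∈ Up o w 1
  · exact Or.inl h1
  by_cases h2 : y ∈ Up o w (-1)
  · exact Or.inr (Or.inl h2)
  refine Or.inr (Or.inr ?_)
  simp only [Up, mem_ofPred_eq, not_forall, not_lt] at h1 h2
  obtain ⟨p, hp, hap, hrp, hip⟩ := h1
  obtain ⟨q, hq, haq, hrq, hiq⟩ := h2
  have hp' : y.1.1.im ≠ (strand w p y.1.2).im := fun h =>
    y.2 ⟨p, hp, hap, Complex.ext hrp.symm h⟩
  have hq' : y.1.1.im ≠ (strand w q y.1.2).im := fun h =>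
    y.2 ⟨q, hq, haq, Complex.ext hrq.symm h⟩
  have h3 : y.1.1.im < (strand w p y.1.2).im := lt_of_le_of_ne (by linarith) hp'
  have h4 : (strand w q y.1.2).im < y.1.1.im := lt_of_le_of_ne (by linarith) hq'.symm
  rcases slab w y.1.2 with ht | ht | ⟨k, x, hx, t1, t2⟩
  · rw [strand_bot w _ ht, geoB_cap_im] at h3 h4
    linarith
  · rw [strand_top _ ht, geoB_cap_im] at h3 h4
    linarith
  · rw [strand_mid hx p t1 t2] at h3 hrp
    rw [strand_mid hx q t1 t2] at h4 hrq
    refine ⟨k, x, hx, ?_⟩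
    have s0 : 0 ≤ y.1.2 - k := by linarith
    have s1 : y.1.2 - k ≤ 1 := by linarith
    generalize y.1.2 - k = s at *
    have hss : 0 ≤ s * (1 - s) := mul_nonneg s0 (by linarith)
    rw [abs_lt]
    rcases geoB_mv x (pos w k p) s with ⟨-, r1, i1⟩ | ⟨-, r1, i1⟩ | ⟨q1, r1, i1⟩ <;>
    rcases geoB_mv x (pos w k q) s with ⟨-, r2, i2⟩ | ⟨-, r2, i2⟩ | ⟨q2, r2, i2⟩ <;>
    rw [r1] at hrp <;> rw [r2] at hrq <;> rw [i1] at h3 <;> rw [i2] at h4
    · linarith
    · rcases geoB_sg x.2 with hs | hs <;> rw [hs] at h3 h4 <;>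
        refine ⟨?_, ?_, ?_, ?_⟩ <;> linarith
    · rcases q2 with q2 | q2 <;> linarith
    · rcases geoB_sg x.2 with hs | hs <;> rw [hs] at h3 h4 <;>
        refine ⟨?_, ?_, ?_, ?_⟩ <;> linarith
    · linarith
    · rcases q2 with q2 | q2 <;> linarith
    · rcases q1 with q1 | q1 <;> linarith
    · rcases q1 with q1 | q1 <;> linarith
    · linarith

/-- the real part of the strand above (`e = 1`) or below (`e = -1`) in the crossing `x` -/
noncomputable def ov (x : ℕ × Bool) (e s : ℝ) : ℝ := x.1 + 1 / 2 + e * sg x.2 * (s - 1 / 2)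

theorem vb_mem_up (ok : Ok o w) {k : ℕ} {x : ℕ × Bool} (h : w[k]? = some x) {e : ℝ}
    (he : e = 1 ∨ e = -1) {y : XX o w} (hy : y ∈ Vb o w k) :
    y ∈ Up o w e ↔ y.1.1.re ≠ ov x e (y.1.2 - k) := by
  rw [geoB_vb_some h] at hy
  obtain ⟨h1, h2, h3⟩ := hy
  obtain ⟨h4, h5⟩ := geoB_unit h3
  obtain ⟨h6, h7⟩ := abs_lt.1 h3
  have hst : ∀ p, strand w p y.1.2 = mv x (pos w k p) (y.1.2 - k) := fun p =>
    strand_mid h p (by linarith) (by linarith)
  have hk : k < w.length := (List.getElem?_eq_some_iff.1 h).1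
  have hk' : (k : ℝ) + 1 ≤ w.length := by exact_mod_cast hk
  have hk0 : (0 : ℝ) ≤ k := Nat.cast_nonneg k
  have hact : ∀ p, act w p y.1.2 := fun p => Or.inr ⟨by linarith, by linarith⟩
  have hx := ok.rng x (List.mem_of_getElem? h)
  unfold ov
  constructor
  · intro hu hre
    obtain ⟨p, hp, hpp⟩ := pos_surj ok.rng k (q := x.1) (by omega)
    obtain ⟨q, hq, hqq⟩ := pos_surj ok.rng k (q := x.1 + 1) hx
    have hup := hu p hp (hact p)
    have huq := hu q hq (hact q)
    rw [hst, hpp] at hup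
    rw [hst, hqq] at huq
    have e1 : mv x x.1 (y.1.2 - k) =
        ⟨x.1 + (y.1.2 - k), sg x.2 * ((y.1.2 - k) * (1 - (y.1.2 - k)))⟩ := by simp [mv]
    have e2 : mv x (x.1 + 1) (y.1.2 - k) =
        ⟨x.1 + 1 - (y.1.2 - k), -(sg x.2 * ((y.1.2 - k) * (1 - (y.1.2 - k))))⟩ := by simp [mv]
    rw [e1] at hup
    rw [e2] at huq
    dsimp only at hup huq
    rcases he with rfl | rfl <;> rcases geoB_sg x.2 with hs | hs <;> rw [hs] at hre hup huq
    · have := hup (by linarith)
      linarith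
    · have := huq (by linarith)
      linarith
    · have := huq (by linarith)
      linarith
    · have := hup (by linarith)
      linarith
  · intro hne p _ _ hre
    rw [hst] at hre ⊢
    rcases geoB_mv x (pos w k p) (y.1.2 - k) with ⟨-, hr, hi⟩ | ⟨-, hr, hi⟩ | ⟨hq, hr, -⟩
    · rw [hi]
      rcases he with rfl | rfl <;> rcases geoB_sg x.2 with hs | hs <;> rw [hs] at hne ⊢ <;>
        first | linarith | exact absurd (by linarith) hne
    · rw [hi]
      rcases he with rfl | rfl <;> rcases geoB_sg x.2 with hs | hs <;> rw [hs] at hne ⊢ <;>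
        first | linarith | exact absurd (by linarith) hne
    · rcases hq with hq | hq <;> linarith

theorem pathConnected_XX (ok : Ok o w) : PathConnectedSpace (XX o w) := by
  have hb : ∀ p < 6 + o, act w p (((-1 : ℂ), (0 : ℝ)) : ℂ × ℝ).2 →
      (strand w p (((-1 : ℂ), (0 : ℝ)) : ℂ × ℝ).2).re ≠ (((-1 : ℂ), (0 : ℝ)) : ℂ × ℝ).1.re := by
    intro p hp _ h
    have := (strand_re ok hp 0).1
    simp only [Complex.neg_re, Complex.one_re] at h
    linarith
  let b : XX o w := ⟨((-1 : ℂ), (0 : ℝ)), not_mem_link hb⟩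
  have hb' : b ∈ Up o w 1 ∩ Up o w (-1) := mem_up_up.2 hb
  have key : ∀ y : XX o w, Joined b y := by
    intro y
    rcases cover ok y with h | h | ⟨k, h⟩
    · exact (joined_up (Or.inl rfl) hb'.1 h).joined
    · exact (joined_up (Or.inr rfl) hb'.2 h).joined
    · obtain ⟨x, hx, -⟩ := id h
      have hc : ((((x.1 + 1 / 4 : ℝ) : ℂ), (k + 1 / 2 : ℝ)) : ℂ × ℝ) ∈ geoB_box x k := by
        refine ⟨?_, ?_, ?_⟩
        · simp only [Complex.ofReal_re]
          linarith
        · simp only [Complex.ofReal_re]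
          linarith
        · simp only [Complex.ofReal_im]
          norm_num
      let c : XX o w := ⟨_, box_not_mem ok hx hc.1 hc.2.1 hc.2.2⟩
      have hcv : c ∈ Vb o w k := ⟨x, hx, hc⟩
      have hcu : c ∈ Up o w 1 := by
        rw [vb_mem_up ok hx (Or.inl rfl) hcv]
        simp only [c, ov, Complex.ofReal_re]
        intro h
        linarith
      exact (joined_up (Or.inl rfl) hb'.1 hcu).joined.trans
        (joinedIn_of_convex (convex_vb ok k) hcv h).joined
  exact ⟨⟨b⟩, fun x y => (key x).symm.trans (key y)⟩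

theorem exists_mem_up (o : ℕ) (w : Word) : ∃ x0, x0 ∈ Up o w 1 :=
  (geoB_isPathConnected_up o w (Or.inl rfl)).nonempty

end Vale.Agent.N258
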