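import Vale.Agent.N258.G

/-! Block Geo: the geometry of the plat. -/

namespace Vale.Agent.N258

open Set Filter Topology
open Vale.Agent.P258.Braid (Word)
open Vale.Agent.P002Z

variable {o : ℕ} {w : Word} {G : Type} [Group G]

theorem pos_zero (w : Word) (p : ℕ) : pos w 0 p = p := rfl

theorem pos_succ {k : ℕ} {x : ℕ × Bool} (h : w[k]? = some x) (p : ℕ) :
    pos w (k + 1) p = sw x (pos w k p) := by
  simp only [pos, List.take_add_one, h, Option.toList_some, List.foldl_append, List.foldl_cons,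
    List.foldl_nil]

theorem GeoA_pos_none {k : ℕ} (h : w[k]? = none) (p : ℕ) : pos w (k + 1) p = pos w k p := by
  simp only [pos, List.take_add_one, h, Option.toList_none, List.append_nil]

theorem GeoA_sw_sw (x : ℕ × Bool) (q : ℕ) : sw x (sw x q) = q := by
  unfold sw; split_ifs <;> omega

theorem GeoA_sw_lt {x : ℕ × Bool} {m : ℕ} (h : x.1 + 1 < m) (q : ℕ) : sw x q < m ↔ q < m := by
  unfold sw; split_ifs <;> omega

theorem pos_inj (w : Word) (k : ℕ) : Function.Injective (pos w k) := by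
  induction k with
  | zero => exact fun _ _ h => h
  | succ k ih =>
    intro a b hab
    cases h : w[k]? with
    | none => rw [GeoA_pos_none h, GeoA_pos_none h] at hab; exact ih hab
    | some x =>
      rw [pos_succ h, pos_succ h] at hab
      have := congrArg (sw x) hab
      rw [GeoA_sw_sw, GeoA_sw_sw] at this
      exact ih this

theorem pos_lt {m : ℕ} (h : ∀ x ∈ w, x.1 + 1 < m) (k p : ℕ) : pos w k p < m ↔ p < m := by
  induction k with
  | zero => rfl
  | succ k ih =>
    cases hk : w[k]? with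
    | none => rw [GeoA_pos_none hk, ih]
    | some x => rw [pos_succ hk, GeoA_sw_lt (h x (List.mem_of_getElem? hk)), ih]

theorem pos_surj {m : ℕ} (h : ∀ x ∈ w, x.1 + 1 < m) (k : ℕ) {q : ℕ} (hq : q < m) :
    ∃ p < m, pos w k p = q := by
  induction k generalizing q with
  | zero => exact ⟨q, hq, rfl⟩
  | succ k ih =>
    cases hk : w[k]? with
    | none =>
      obtain ⟨p, hp, e⟩ := ih hq
      exact ⟨p, hp, by rw [GeoA_pos_none hk, e]⟩
    | some x =>
      obtain ⟨p, hp, e⟩ := ih ((GeoA_sw_lt (h x (List.mem_of_getElem? hk)) q).2 hq)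
      exact ⟨p, hp, by rw [pos_succ hk, e, GeoA_sw_sw]⟩

theorem reg_zero (w : Word) (P : ℕ → G) : reg w P 0 = P := rfl

theorem reg_succ {k : ℕ} {x : ℕ × Bool} (h : w[k]? = some x) (P : ℕ → G) :
    reg w P (k + 1) = stepP x (reg w P k) := by
  simp only [reg, List.take_add_one, h, Option.toList_some, List.foldl_append, List.foldl_cons,
    List.foldl_nil]

theorem GeoA_reg_none {k : ℕ} (h : w[k]? = none) (P : ℕ → G) : reg w P (k + 1) = reg w P k := by
  simp only [reg, List.take_add_one, h, Option.toList_none, List.append_nil]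

theorem reg_left (w : Word) (P : ℕ → G) (k : ℕ) : reg w P k 0 = P 0 := by
  induction k with
  | zero => rfl
  | succ k ih =>
    cases hk : w[k]? with
    | none => rw [GeoA_reg_none hk, ih]
    | some x => rw [reg_succ hk, stepP, Function.update_of_ne (by omega), ih]

theorem reg_right {m : ℕ} (h : ∀ x ∈ w, x.1 + 1 < m) (P : ℕ → G) (k : ℕ) :
    reg w P k m = P m := by
  induction k with
  | zero => rfl
  | succ k ih =>
    cases hk : w[k]? with
    | none => rw [GeoA_reg_none hk, ih]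
    | some x =>
      have := h x (List.mem_of_getElem? hk)
      rw [reg_succ hk, stepP, Function.update_of_ne (by omega), ih]

theorem reg_congr {m : ℕ} (h : ∀ x ∈ w, x.1 + 1 < m) {P P' : ℕ → G} (e : ∀ j ≤ m, P j = P' j)
    (k : ℕ) : ∀ j ≤ m, reg w P k j = reg w P' k j := by
  induction k with
  | zero => exact e
  | succ k ih =>
    cases hk : w[k]? with
    | none => rw [GeoA_reg_none hk, GeoA_reg_none hk]; exact ih
    | some x =>
      have := h x (List.mem_of_getElem? hk)
      intro j hj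
      rw [reg_succ hk, reg_succ hk, stepP, stepP]
      by_cases hjx : j = x.1 + 1
      · rw [hjx, Function.update_self, Function.update_self, ih x.1 (by omega),
          ih (x.1 + 1) (by omega), ih (x.1 + 2) (by omega)]
      · rw [Function.update_of_ne hjx, Function.update_of_ne hjx, ih j hj]

theorem trP_congr {m : ℕ} (h : ∀ x ∈ w, x.1 + 1 < m) {P P' : ℕ → G} (e : ∀ j ≤ m, P j = P' j)
    (p k : ℕ) : trP w P p k = trP w P' p k := by
  induction k with
  | zero => rfl
  | succ k ih =>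
    rw [trP, trP, ih]
    cases hk : w[k]? with
    | none => rfl
    | some x =>
      have := h x (List.mem_of_getElem? hk)
      have r := reg_congr h e k
      simp only [under]
      rw [r x.1 (by omega), r (x.1 + 1) (by omega), r (x.1 + 2) (by omega)]

theorem reg_one (w : Word) (k j : ℕ) : reg w (fun _ => (1 : G)) k j = 1 := by
  induction k generalizing j with
  | zero => rfl
  | succ k ih =>
    cases hk : w[k]? with
    | none => rw [GeoA_reg_none hk, ih]
    | some x =>
      rw [reg_succ hk, stepP]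
      by_cases hjx : j = x.1 + 1
      · rw [hjx, Function.update_self]
        simp [ih]
      · rw [Function.update_of_ne hjx, ih]

theorem trP_one (w : Word) (p k : ℕ) : trP w (fun _ => (1 : G)) p k = 1 := by
  induction k with
  | zero => rfl
  | succ k ih =>
    rw [trP, ih]
    cases hk : w[k]? with
    | none => simp
    | some x => simp [under, reg_one]

theorem GeoA_cap_zero (q : ℕ) : cap q 0 = q := by
  unfold cap; split_ifs <;> simp

theorem GeoA_mv_zero (x : ℕ × Bool) (q : ℕ) : mv x q 0 = q := by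
  unfold mv; split_ifs <;> apply Complex.ext <;> simp

theorem GeoA_mv_one (x : ℕ × Bool) (q : ℕ) : mv x q 1 = (sw x q : ℕ) := by
  unfold mv sw
  split_ifs with h1 h2
  · apply Complex.ext <;> simp
  · apply Complex.ext <;> simp [h2]
  · rfl

theorem GeoA_up_zero (w : Word) (q : ℕ) : up w q 0 = q := by
  cases w with
  | nil => exact GeoA_cap_zero q
  | cons x w => rw [up, if_pos zero_le_one, GeoA_mv_zero]

theorem GeoA_up_cons (x : ℕ × Bool) (w : Word) (q : ℕ) {t : ℝ} (h : 1 ≤ t) :
    up (x :: w) q t = up w (sw x q) (t - 1) := by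
  rw [up]
  split_ifs with h1
  · obtain rfl : t = 1 := le_antisymm h1 h
    rw [GeoA_mv_one, sub_self, GeoA_up_zero]
  · rfl

theorem GeoA_strand_nonneg (w : Word) (p : ℕ) {t : ℝ} (h : 0 ≤ t) : strand w p t = up w p t := by
  rw [strand]
  split_ifs with h1
  · obtain rfl : t = 0 := le_antisymm h1 h
    rw [neg_zero, GeoA_cap_zero, GeoA_up_zero]
  · rfl

theorem GeoA_cont_cap (q : ℕ) : Continuous (cap q) := by
  unfold cap
  split_ifs <;> fun_prop

theorem GeoA_cont_mv (x : ℕ × Bool) (q : ℕ) : Continuous (mv x q) := by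
  unfold mv
  split_ifs
  · simp only [Complex.mk_eq_add_mul_I]; fun_prop
  · simp only [Complex.mk_eq_add_mul_I]; fun_prop
  · fun_prop

theorem GeoA_cont_up (w : Word) (q : ℕ) : Continuous (up w q) := by
  induction w generalizing q with
  | nil => exact GeoA_cont_cap q
  | cons x w ih =>
    have : up (x :: w) q = fun t => if t ≤ 1 then mv x q t else up w (sw x q) (t - 1) := rfl
    rw [this]
    refine Continuous.if_le (GeoA_cont_mv x q) ((ih _).comp (by fun_prop)) continuous_id
      continuous_const ?_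
    rintro t rfl
    rw [GeoA_mv_one, sub_self, GeoA_up_zero]

theorem continuous_strand (w : Word) (p : ℕ) : Continuous (strand w p) := by
  unfold strand
  refine Continuous.if_le ((GeoA_cont_cap p).comp continuous_neg) (GeoA_cont_up w p) continuous_id
    continuous_const ?_
  rintro t rfl
  rw [neg_zero, GeoA_cap_zero, GeoA_up_zero]

theorem GeoA_up_mid (w : Word) : ∀ {k : ℕ} {x : ℕ × Bool} (_ : w[k]? = some x) (p : ℕ) {t : ℝ}
    (_ : (k : ℝ) ≤ t) (_ : t ≤ k + 1), up w p t = mv x (pos w k p) (t - k) := by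
  induction w with
  | nil => intro k x h; simp at h
  | cons y w ih =>
    intro k x h p t h1 h2
    cases k with
    | zero =>
      obtain rfl : y = x := by simpa using h
      rw [up, if_pos (by simpa using h2), pos_zero, Nat.cast_zero, sub_zero]
    | succ k =>
      push_cast at h1 h2 ⊢
      have hk : (0 : ℝ) ≤ k := Nat.cast_nonneg k
      rw [GeoA_up_cons y w p (by linarith), ih (k := k) (x := x) (by simpa using h) (sw y p)
        (by linarith) (by linarith), sub_sub, add_comm (1 : ℝ)]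
      rfl

theorem GeoA_up_top (w : Word) : ∀ (p : ℕ) {t : ℝ} (_ : (w.length : ℝ) ≤ t),
    up w p t = cap (pos w w.length p) (t - w.length) := by
  induction w with
  | nil => intro p t _; simp [up, pos]
  | cons y w ih =>
    intro p t h
    rw [List.length_cons] at h ⊢
    push_cast at h ⊢
    have hk : (0 : ℝ) ≤ w.length := Nat.cast_nonneg _
    rw [GeoA_up_cons y w p (by linarith), ih (sw y p) (by linarith), sub_sub, add_comm (1 : ℝ)]
    rfl

theorem strand_mid {k : ℕ} {x : ℕ × Bool} (h : w[k]? = some x) (p : ℕ) {t : ℝ} (h1 : k ≤ t)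
    (h2 : t ≤ k + 1) : strand w p t = mv x (pos w k p) (t - k) := by
  rw [GeoA_strand_nonneg w p ((Nat.cast_nonneg k).trans h1), GeoA_up_mid w h p h1 h2]

theorem strand_top (p : ℕ) {t : ℝ} (h : w.length ≤ t) :
    strand w p t = cap (pos w w.length p) (t - w.length) := by
  rw [GeoA_strand_nonneg w p ((Nat.cast_nonneg _).trans h), GeoA_up_top w p h]

theorem strand_bot (w : Word) (p : ℕ) {t : ℝ} (h : t ≤ 0) : strand w p t = cap p (-t) :=
  if_pos h

theorem strand_int (p : ℕ) {k : ℕ} (h : k ≤ w.length) : strand w p k = (pos w k p : ℂ) := by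
  rcases h.lt_or_eq with h | rfl
  · rw [strand_mid (List.getElem?_eq_getElem h) p le_rfl (by linarith), sub_self, GeoA_mv_zero]
  · rw [strand_top p le_rfl, sub_self, GeoA_cap_zero]

/-- every height is below, above, or in the slab of a letter -/
theorem slab (w : Word) (t : ℝ) : t ≤ 0 ∨ w.length ≤ t ∨
    ∃ (k : ℕ) (x : ℕ × Bool), w[k]? = some x ∧ (k : ℝ) ≤ t ∧ t ≤ k + 1 := by
  rcases le_total t 0 with h | h
  · exact Or.inl h
  rcases le_or_gt (w.length : ℝ) t with h' | h'
  · exact Or.inr (Or.inl h')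
  have hk : ⌊t⌋₊ < w.length := (Nat.floor_lt h).2 h'
  exact Or.inr (Or.inr ⟨⌊t⌋₊, _, List.getElem?_eq_getElem hk, Nat.floor_le h,
    (Nat.lt_floor_add_one t).le⟩)

theorem GeoA_cap_im (q : ℕ) (s : ℝ) : (cap q s).im = 0 := by
  unfold cap
  split_ifs
  · exact Complex.ofReal_im _
  · exact Complex.natCast_im _

theorem GeoA_abs_sg (e : Bool) (u : ℝ) : |sg e * u| = |u| := by
  cases e <;> simp [sg]

theorem GeoA_mv_im (x : ℕ × Bool) (q : ℕ) {s : ℝ} (h0 : 0 ≤ s) (h1 : s ≤ 1) :
    |(mv x q s).im| ≤ 1 / 4 := by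
  have h2 : |s * (1 - s)| ≤ 1 / 4 := by
    rw [abs_of_nonneg (by nlinarith)]
    nlinarith [sq_nonneg (s - 1 / 2)]
  unfold mv
  split_ifs
  · rwa [GeoA_abs_sg]
  · rwa [abs_neg, GeoA_abs_sg]
  · simp

theorem strand_im (w : Word) (p : ℕ) (t : ℝ) : |(strand w p t).im| ≤ 1 / 4 := by
  rcases slab w t with h | h | ⟨k, x, hx, h1, h2⟩
  · rw [strand_bot w p h, GeoA_cap_im]; norm_num
  · rw [strand_top p h, GeoA_cap_im]; norm_num
  · rw [strand_mid hx p h1 h2]
    exact GeoA_mv_im _ _ (by linarith) (by linarith)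

theorem GeoA_cap_re_lt {q : ℕ} (hq : q < 6) (s : ℝ) :
    (cap q s).re = q + (-1) ^ q * min s 1 / 2 := by
  rw [cap, if_pos hq, Complex.ofReal_re]

theorem GeoA_cap_re_ge {q : ℕ} (hq : 6 ≤ q) (s : ℝ) : (cap q s).re = q := by
  rw [cap, if_neg (by omega), Complex.natCast_re]

theorem GeoA_cap_small {q : ℕ} (hq : q < 6) {s : ℝ} (hs : 0 ≤ s) :
    0 ≤ (cap q s).re ∧ (cap q s).re ≤ 5 := by
  have h1 : 0 ≤ min s 1 := le_min hs zero_le_one
  have h2 : min s 1 ≤ 1 := min_le_right _ _
  rw [GeoA_cap_re_lt hq]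
  interval_cases q <;> constructor <;> norm_num <;> linarith

theorem GeoA_cap_near (q : ℕ) {s : ℝ} (hs : 0 ≤ s) (hs' : s ≤ 3 / 4) :
    (q : ℝ) - 3 / 8 ≤ (cap q s).re ∧ (cap q s).re ≤ q + 3 / 8 := by
  rcases lt_or_ge q 6 with hq | hq
  · have h1 : 0 ≤ min s 1 := le_min hs zero_le_one
    have h2 : min s 1 ≤ 3 / 4 := (min_le_left _ _).trans hs'
    rw [GeoA_cap_re_lt hq]
    rcases neg_one_pow_eq_or ℝ q with h | h <;> rw [h] <;> constructor <;> linarith
  · rw [GeoA_cap_re_ge hq]; constructor <;> linarith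

theorem GeoA_cap_re {q : ℕ} (hq : q < 6 + o) {s : ℝ} (hs : 0 ≤ s) :
    0 ≤ (cap q s).re ∧ (cap q s).re ≤ (6 + o : ℝ) - 1 := by
  have ho : (0 : ℝ) ≤ o := Nat.cast_nonneg o
  rcases lt_or_ge q 6 with h | h
  · obtain ⟨h1, h2⟩ := GeoA_cap_small h hs
    exact ⟨h1, by linarith⟩
  · rw [GeoA_cap_re_ge h]
    have : (q : ℝ) + 1 ≤ 6 + o := by exact_mod_cast hq
    exact ⟨Nat.cast_nonneg q, by linarith⟩

theorem strand_re (ok : Ok o w) {p : ℕ} (hp : p < 6 + o) (t : ℝ) :
    0 ≤ (strand w p t).re ∧ (strand w p t).re ≤ (6 + o : ℝ) - 1 := by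
  rcases slab w t with h | h | ⟨k, x, hx, h1, h2⟩
  · rw [strand_bot w p h]
    exact GeoA_cap_re hp (by linarith)
  · rw [strand_top p h]
    exact GeoA_cap_re ((pos_lt ok.rng _ p).2 hp) (by linarith)
  · rw [strand_mid hx p h1 h2]
    have hq := (pos_lt ok.rng k p).2 hp
    have hx' := ok.rng x (List.mem_of_getElem? hx)
    generalize pos w k p = q at hq
    have a1 : (q : ℝ) + 1 ≤ 6 + o := by exact_mod_cast hq
    have a2 : (x.1 : ℝ) + 1 + 1 ≤ 6 + o := by exact_mod_cast hx'
    have a3 : (0 : ℝ) ≤ x.1 := Nat.cast_nonneg _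
    have a4 : (0 : ℝ) ≤ q := Nat.cast_nonneg _
    unfold mv
    split_ifs with e1 e2
    · subst e1
      constructor <;> simp only <;> linarith
    · have a5 : (q : ℝ) = x.1 + 1 := by exact_mod_cast e2
      constructor <;> simp only <;> linarith
    · rw [Complex.natCast_re]
      constructor <;> linarith

theorem GeoA_of_re {z z' : ℂ} (h : z.re + 1 / 4 ≤ z'.re ∨ z'.re + 1 / 4 ≤ z.re) :
    1 / 4 ≤ ‖z - z'‖ := by
  refine le_trans ?_ (Complex.abs_re_le_norm _)
  rw [Complex.sub_re, le_abs]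
  rcases h with h | h
  · right; linarith
  · left; linarith

theorem GeoA_cast_ne {a b : ℕ} (h : a ≠ b) : (a : ℝ) + 1 ≤ b ∨ (b : ℝ) + 1 ≤ a := by
  rcases lt_or_gt_of_ne h with h | h
  · left; exact_mod_cast h
  · right; exact_mod_cast h

theorem GeoA_cap_sep {a b : ℕ} (hab : a ≠ b) {s : ℝ} (hs : 0 ≤ s) (h : 6 ≤ a ∨ s ≤ 3 / 4) :
    1 / 4 ≤ ‖cap a s - cap b s‖ := by
  apply GeoA_of_re
  rcases h with h | h
  · rw [GeoA_cap_re_ge h]
    rcases lt_or_ge b 6 with hb | hb
    · have h1 := (GeoA_cap_small hb hs).2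
      have h2 : (6 : ℝ) ≤ a := by exact_mod_cast h
      right; linarith
    · rw [GeoA_cap_re_ge hb]
      rcases GeoA_cast_ne hab with h1 | h1
      · left; linarith
      · right; linarith
  · obtain ⟨a1, a2⟩ := GeoA_cap_near a hs h
    obtain ⟨b1, b2⟩ := GeoA_cap_near b hs h
    rcases GeoA_cast_ne hab with h1 | h1
    · left; linarith
    · right; linarith

theorem GeoA_cross (x : ℕ × Bool) {s : ℝ} :
    1 / 4 ≤ ‖mv x x.1 s - mv x (x.1 + 1) s‖ := by
  have e1 : mv x x.1 s = ⟨x.1 + s, sg x.2 * (s * (1 - s))⟩ := by rw [mv, if_pos rfl]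
  have e2 : mv x (x.1 + 1) s = ⟨((x.1 + 1 : ℕ) : ℝ) - s, -(sg x.2 * (s * (1 - s)))⟩ := by
    rw [mv, if_neg (by omega), if_pos rfl]
  rw [e1, e2]
  rcases le_or_gt s (3 / 8) with h | h
  · apply GeoA_of_re; left; push_cast; linarith
  rcases le_or_gt (5 / 8) s with h' | h'
  · apply GeoA_of_re; right; push_cast; linarith
  refine le_trans ?_ (Complex.abs_im_le_norm _)
  have : sg x.2 * (s * (1 - s)) - -(sg x.2 * (s * (1 - s))) = sg x.2 * (2 * (s * (1 - s))) := by
    ring
  rw [Complex.sub_im, this, GeoA_abs_sg]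
  refine le_trans ?_ (le_abs_self _)
  nlinarith

theorem GeoA_other (x : ℕ × Bool) {a b : ℕ} (hab : a ≠ b) (h1 : b ≠ x.1) (h2 : b ≠ x.1 + 1) {s : ℝ}
    (s0 : 0 ≤ s) (s1 : s ≤ 1) : 1 / 4 ≤ ‖mv x a s - mv x b s‖ := by
  apply GeoA_of_re
  have e : (mv x b s).re = b := by rw [mv, if_neg h1, if_neg h2, Complex.natCast_re]
  rw [e]
  have hb : (b : ℝ) + 1 ≤ x.1 ∨ (x.1 : ℝ) + 2 ≤ b := by
    rcases (by omega : b + 1 ≤ x.1 ∨ x.1 + 2 ≤ b) with h | h
    · left; exact_mod_cast h
    · right; exact_mod_cast h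
  unfold mv
  split_ifs with e1 e2
  · subst e1
    rcases hb with h | h
    · right; simp only; linarith
    · left; simp only; linarith
  · have a5 : (a : ℝ) = x.1 + 1 := by exact_mod_cast e2
    rcases hb with h | h
    · right; simp only; linarith
    · left; simp only; linarith
  · rw [Complex.natCast_re]
    rcases GeoA_cast_ne hab with h | h
    · left; linarith
    · right; linarith

theorem GeoA_mv_sep (x : ℕ × Bool) {a b : ℕ} (hab : a ≠ b) {s : ℝ} (s0 : 0 ≤ s) (s1 : s ≤ 1) :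
    1 / 4 ≤ ‖mv x a s - mv x b s‖ := by
  by_cases hb : b ≠ x.1 ∧ b ≠ x.1 + 1
  · exact GeoA_other x hab hb.1 hb.2 s0 s1
  by_cases ha : a ≠ x.1 ∧ a ≠ x.1 + 1
  · rw [norm_sub_rev]
    exact GeoA_other x hab.symm ha.1 ha.2 s0 s1
  rcases (by omega : (a = x.1 ∧ b = x.1 + 1) ∨ (b = x.1 ∧ a = x.1 + 1)) with ⟨rfl, rfl⟩ | ⟨rfl, rfl⟩
  · exact GeoA_cross x
  · rw [norm_sub_rev]
    exact GeoA_cross x

theorem GeoA_perm {p : ℕ} (h : 6 ≤ p) : perm p = p := by
  obtain ⟨q, rfl⟩ := Nat.exists_eq_add_of_le' h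
  rfl

/-- different strands are far apart, except near the tips of the caps -/
theorem strand_sep (ok : Ok o w) {p q : ℕ} (hpq : p ≠ q) {t : ℝ}
    (h : 6 ≤ p ∨ (-(3 / 4 : ℝ) ≤ t ∧ t ≤ w.length + 3 / 4)) :
    1 / 4 ≤ ‖strand w p t - strand w q t‖ := by
  rcases slab w t with ht | ht | ⟨k, x, hx, h1, h2⟩
  · rw [strand_bot w p ht, strand_bot w q ht]
    exact GeoA_cap_sep hpq (by linarith) (h.imp_right fun h => by linarith [h.1])
  · rw [strand_top p ht, strand_top q ht]
    refine GeoA_cap_sep ((pos_inj w _).ne hpq) (by linarith)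
      (h.imp (fun h => ?_) fun h => by linarith [h.2])
    rwa [ok.top, GeoA_perm h]
  · rw [strand_mid hx p h1 h2, strand_mid hx q h1 h2]
    exact GeoA_mv_sep x ((pos_inj w _).ne hpq) (by linarith) (by linarith)

theorem link_eq (o : ℕ) (w : Word) : link o w = knot w ∪ (pattern o w)ᶜ := by
  ext y
  constructor
  · rintro ⟨p, hp, ha, e⟩
    rcases lt_or_ge p 6 with h | h
    · have := ha.resolve_left (by omega)
      exact Or.inl ⟨p, h, this.1, this.2, e⟩
    · exact Or.inr fun hy => hy p h hp e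
  · rintro (⟨p, hp, h1, h2, e⟩ | hy)
    · exact ⟨p, by omega, Or.inr ⟨h1, h2⟩, e⟩
    · by_contra hn
      exact hy fun p h hp e => hn ⟨p, hp, Or.inl h, e⟩

theorem knot_subset (ok : Ok o w) : knot w ⊆ pattern o w := by
  rintro y ⟨p, hp, -, -, e⟩ q hq _ e'
  have := strand_sep ok (p := q) (q := p) (by omega) (t := y.2) (Or.inl hq)
  rw [← e, ← e', sub_self, norm_zero] at this
  linarith

theorem isCompact_knot (w : Word) : IsCompact (knot w) := by
  have : knot w = ⋃ p ∈ Iio 6, (fun t : ℝ => (strand w p t, t)) '' Icc (-1) (w.length + 1) := by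
    ext y
    simp only [mem_iUnion, mem_image, mem_Icc, mem_Iio, exists_prop]
    constructor
    · rintro ⟨p, hp, h1, h2, e⟩
      exact ⟨p, hp, y.2, ⟨h1, h2⟩, by rw [← e]⟩
    · rintro ⟨p, hp, t, ⟨h1, h2⟩, rfl⟩
      exact ⟨p, hp, h1, h2, rfl⟩
  rw [this]
  exact (finite_Iio 6).isCompact_biUnion fun p _ =>
    isCompact_Icc.image ((continuous_strand w p).prodMk continuous_id)

theorem isOpen_pattern (o : ℕ) (w : Word) : IsOpen (pattern o w) := by
  have : pattern o w = ⋂ p ∈ Ico 6 (6 + o), {y : ℂ × ℝ | y.1 ≠ strand w p y.2} := by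
    ext y
    simp only [pattern, mem_ofPred_eq, mem_iInter, mem_Ico, and_imp]
  rw [this]
  exact (finite_Ico _ _).isOpen_biInter fun p _ =>
    isOpen_ne_fun continuous_fst ((continuous_strand w p).comp continuous_snd)

theorem isClosed_link (o : ℕ) (w : Word) : IsClosed (link o w) := by
  rw [link_eq]
  exact (isCompact_knot w).isClosed.union (isOpen_pattern o w).isClosed_compl

end Vale.Agent.N258
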