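import Vale.Agent.N258.R2
import Vale.Agent.N258.A

/-! The number of homomorphisms of the group of the surgery. -/

namespace Vale.Agent.N258

open Set Filter Topology
open Vale.Agent.P258.Braid
open Vale.Agent.P002Z

variable {o : ℕ} {w : Word} {ν : Circle × ℂ → S3} {e : ↥(pattern o w) → S3}
  {eX : C(XX o w, ↥(core ν)ᶜ)} {G : Type} [Group G]

theorem card_eq_of_rel {A B : Type} (R : A → B → Prop) (h1 : ∀ a, ∃ b, R a b)
    (h2 : ∀ b, ∃ a, R a b) (h3 : ∀ a b b', R a b → R a b' → b = b')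
    (h4 : ∀ a a' b, R a b → R a' b → a = a') : Nat.card A = Nat.card B := by
  choose f hf using h1
  refine Nat.card_congr (Equiv.ofBijective f ⟨fun a a' h => h4 a a' (f a) (hf a) (h ▸ hf a'),
    fun b => ?_⟩)
  obtain ⟨a, ha⟩ := h2 b
  exact ⟨a, h3 a _ _ (hf a) ha⟩

/-- the slope condition in terms of the Wirtinger meridian and longitude -/
theorem slope_iff {M Λ c R g : G} {i d k x p : ℤ} {N : ℕ} (hN : ∀ g : G, g ^ N = 1)
    (hi : i = 1 ∨ i = -1) (hd : d = 1 ∨ d = -1) (hc : Commute M Λ) (h1 : c = g⁻¹ * M ^ i * g)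
    (h2 : R⁻¹ = g⁻¹ * (M ^ k * Λ ^ d) * g) (hk : (N : ℤ) ∣ k * i - -x) :
    M ^ p * Λ = 1 ↔ c ^ (-(i * d) * p) * (R * c ^ (-x)) ^ (1 : ℤ) = 1 := by
  have hii : i * i = 1 := by rcases hi with rfl | rfl <;> rfl
  have hcz : ∀ n : ℤ, c ^ n = g⁻¹ * M ^ (i * n) * g := by
    intro n
    rw [h1, zpow_mul]
    have := conj_zpow (a := g⁻¹) (b := M ^ i) (i := n)
    rwa [inv_inv] at this
  have hR : R = g⁻¹ * (Λ ^ (-d) * M ^ (-k)) * g := by
    rw [← inv_inv R, h2]; group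
  have h3 : c ^ (-x) = g⁻¹ * M ^ k * g := by
    rw [← zpow_congr' hN c hk, hcz, show i * (k * i) = k by linear_combination k * hii]
  have h4 : c ^ (-(i * d) * p) * (R * c ^ (-x)) ^ (1 : ℤ) =
      g⁻¹ * (M ^ p * Λ) ^ (-d) * g := by
    rw [h3, hcz, hR, (hc.zpow_left p).mul_zpow, ← zpow_mul,
      show i * (-(i * d) * p) = p * -d by linear_combination (-d * p) * hii]
    group
  rw [h4]
  constructor
  · intro h
    rw [h]; group
  · intro h
    have h5 : (M ^ p * Λ) ^ (-d) = 1 := by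
      calc (M ^ p * Λ) ^ (-d) = g * (g⁻¹ * (M ^ p * Λ) ^ (-d) * g) * g⁻¹ := by group
        _ = 1 := by rw [h]; group
    rcases hd with rfl | rfl
    · rwa [zpow_neg_one, inv_eq_one] at h5
    · rwa [neg_neg, zpow_one] at h5

theorem count (E : Emb o w ν e eX) (hpref : Preferred ν) {a : ℤ} (ha : Odd a) {N : ℕ}
    (hN : ∀ g : G, g ^ N = 1) (hE : Equiv (6 + o) G N (fam a ++ turn) w) :
    ∃ ε : ℤ, (ε = 1 ∨ ε = -1) ∧ ∀ (p : ℤ) (z : Surgery ν p),
      Nat.card (FundamentalGroup (Surgery ν p) z →* G) = caps6.homCount G (fam a) (ε * p) 1 := by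
  have hw := E.ok.rng
  have hZ := exists_int E.ok
  have hS := split_of_same hw hE.1
  obtain ⟨x0, hx⟩ := exists_mem_up o w
  obtain ⟨b, mu, lam, -, hmu, hlam, -, -⟩ := exists_loops E.hν 0
  obtain ⟨i, d, k, hi, hd, hper⟩ := peripheral E hZ mu lam hmu hlam
  -- the exponent `k`
  have hk : (N : ℤ) ∣ k * i - -(caps6.expo (fam a)) := by
    obtain ⟨c, c1, c2, c3⟩ := col_ori ha N
    have hP := (capd_iff ha hw hE.2 c).2 c1
    obtain ⟨β, hβ⟩ := exists_ext E (split_of_same hw hE.2) x0 hP (Pc_flat hP)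
    obtain ⟨g, g1, g2⟩ := hper _ β _ x0 hP hβ
    rw [Pc_one, c2, mul_comm g⁻¹, mul_assoc, inv_mul_cancel, mul_one] at g1
    rw [raw_eq ha hw hE.2, c3, hpref.v_eq_one lam hlam β, one_zpow, mul_one, mul_comm g⁻¹,
      mul_assoc, inv_mul_cancel, mul_one] at g2
    have hii : i * i = 1 := by rcases hi with rfl | rfl <;> rfl
    have g3 : β.v mu ^ k = Multiplicative.ofAdd (1 : ZMod N) ^ (k * i) := by
      rw [g1, ← zpow_mul, show i * (k * i) = k by linear_combination k * hii]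
    have g4 := congrArg Multiplicative.toAdd (g2.trans g3)
    simp only [toAdd_inv, toAdd_ofAdd, toAdd_zpow, zsmul_eq_mul, mul_one] at g4
    refine (ZMod.intCast_eq_intCast_iff_dvd_sub _ _ _).1 ?_
    rw [← g4, Int.cast_neg]
  refine ⟨-(i * d), by rcases hi with rfl | rfl <;> rcases hd with rfl | rfl <;> simp, ?_⟩
  intro p z
  obtain ⟨b', mu', lam', sl, hmu', hlam', hsl, hv⟩ := exists_loops E.hν p
  have := pathConnected_compl E.hν
  rw [card_surgery E.hν p sl hsl (eX x0) (PathConnectedSpace.somePath _ _) z G, homCount_eq]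
  have hiff : ∀ (β : PF (↥(core ν)ᶜ) G) (c : Fin 6 → G), Col a c →
      HasReg (β.comap eX) x0 (Pc c) →
      (β.toHom (eX x0) (conjLoop (PathConnectedSpace.somePath _ _) sl) = 1 ↔
        c caps6.base ^ (-(i * d) * p) * caps6.lon (fam a) c ^ (1 : ℤ) = 1) := by
    intro β c hc h
    obtain ⟨g, g1, g2⟩ := hper G β _ x0 ((capd_iff ha hw hE.1 c).2 hc) h
    rw [Pc_one, β.congr (p := mu) (q := mu') fun t => Subtype.ext ((hmu t).trans (hmu' t).symm)]
      at g1
    rw [raw_eq ha hw hE.1,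
      β.congr (p := mu) (q := mu') fun t => Subtype.ext ((hmu t).trans (hmu' t).symm),
      β.congr (p := lam) (q := lam') fun t => Subtype.ext ((hlam t).trans (hlam' t).symm)] at g2
    refine Iff.trans ?_ (slope_iff hN hi hd (hv G β).1 g1 g2 hk)
    rw [PF.toHom_conjLoop, ← (hv G β).2]
    constructor
    · intro h
      calc β.v sl = β.v (PathConnectedSpace.somePath (eX x0) b') *
            ((β.v (PathConnectedSpace.somePath (eX x0) b'))⁻¹ * β.v sl *
              β.v (PathConnectedSpace.somePath (eX x0) b')) *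
            (β.v (PathConnectedSpace.somePath (eX x0) b'))⁻¹ := by group
        _ = 1 := by rw [h]; group
    · intro h
      rw [h]; group
  refine card_eq_of_rel (fun f c => ∃ β : PF (↥(core ν)ᶜ) G, β.toHom (eX x0) = f.1 ∧
    HasReg (β.comap eX) x0 (Pc c.1)) ?_ ?_ ?_ ?_
  · rintro ⟨f, hf⟩
    obtain ⟨β, rfl⟩ := exists_pf (eX x0) f
    obtain ⟨P, p1, p2, p3⟩ := exists_flat E hZ hS hx β
    obtain ⟨c, hc⟩ := Pc_surj (capd_zero p1) p2
    have q1 := (capd_iff ha hw hE.1 c).1 (capd_congr E.ok p1 hc)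
    have q2 := hasReg_congr E.ok p3 hc
    exact ⟨⟨c, q1.1, q1.2, (hiff β c q1 q2).1 hf⟩, β, rfl, q2⟩
  · rintro ⟨c, hc⟩
    have q1 : Col a c := ⟨hc.bot, hc.top⟩
    have hP := (capd_iff ha hw hE.1 c).2 q1
    obtain ⟨β, hβ⟩ := exists_ext E hS x0 hP (Pc_flat hP)
    exact ⟨⟨β.toHom (eX x0), (hiff β c q1 hβ).2 hc.slope⟩, β, rfl, hβ⟩
  · rintro f c c' ⟨β, h1, h2⟩ ⟨β', h1', h2'⟩
    refine Subtype.ext (Pc_inj fun j hj => ?_)
    exact lab_unique E.ok hx h2 h2' (Pc_zero _) (Pc_zero _)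
      (toHom_comap eX x0 (h1.trans h1'.symm)) j (by omega)
  · rintro f f' c ⟨β, h1, h2⟩ ⟨β', h1', h2'⟩
    have hP := (capd_iff ha hw hE.1 c.1).2 ⟨c.2.bot, c.2.top⟩
    refine Subtype.ext ?_
    rw [← h1, ← h1']
    exact toHom_eq_of_flat E hZ hS hx hP (Pc_flat hP) h2 h2'

end Vale.Agent.N258
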