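import Vale.Agent.N258.P1a
import Mathlib.Analysis.Convex.PathConnected

/-! Block P1: a small meridian and the knot pushed upwards. -/

namespace Vale.Agent.N258

open Set Filter Topology
open Vale.Agent.P258.Braid (Word)
open Vale.Agent.P002Z

variable {o : ℕ} {w : Word}

/-- The path `γ0` in the knot can be pushed upwards, with the value `A`. -/
def P1bGood (o : ℕ) (w : Word) {x y : ↥(knot w)} (γ0 : Path x y)
    (A : ∀ (G : Type) [Group G], (ℕ → G) → G) : Prop :=
  ∀ δ : ℝ, 0 < δ → δ ≤ 1 / 8 → ∃ (b b' : XX o w) (γ : Path b b'),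
    (∀ t, (γ t).1 = (γ0 t).1 + ((δ * Complex.I : ℂ), (0 : ℝ))) ∧
    ∀ (G : Type) [Group G] (φ : PF (XX o w) G) (P : ℕ → G) (τp τm : XX o w → G),
      Reg φ P τp τm → φ.v γ = (τp b')⁻¹ * A G P * τp b

theorem p1b_trans {x y z : ↥(knot w)} {γ0 : Path x y} {γ1 : Path y z}
    {A B : ∀ (G : Type) [Group G], (ℕ → G) → G} (h0 : P1bGood o w γ0 A)
    (h1 : P1bGood o w γ1 B) : P1bGood o w (γ0.trans γ1) fun G _ P => B G P * A G P := by
  intro δ hδ hδ'
  obtain ⟨b, b', γ, hγ, hv⟩ := h0 δ hδ hδ'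
  obtain ⟨c, c', γ', hγ', hv'⟩ := h1 δ hδ hδ'
  obtain rfl : b' = c := by
    apply Subtype.ext
    have e1 := hγ 1
    have e2 := hγ' 0
    rw [γ.target, γ0.target] at e1
    rw [γ'.source, γ1.source] at e2
    rw [e1, e2]
  refine ⟨b, c', γ.trans γ', fun t => ?_, fun G _ φ P τp τm h => ?_⟩
  · rw [Path.trans_apply, Path.trans_apply]
    split_ifs
    · exact hγ _
    · exact hγ' _
  · rw [φ.trans, hv G φ P τp τm h, hv' G φ P τp τm h]
    group

theorem p1b_symm {x y : ↥(knot w)} {γ0 : Path x y}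
    {A : ∀ (G : Type) [Group G], (ℕ → G) → G} (h0 : P1bGood o w γ0 A) :
    P1bGood o w γ0.symm fun G _ P => (A G P)⁻¹ := by
  intro δ hδ hδ'
  obtain ⟨b, b', γ, hγ, hv⟩ := h0 δ hδ hδ'
  refine ⟨b', b, γ.symm, fun t => hγ _, fun G _ φ P τp τm h => ?_⟩
  rw [φ.symm, hv G φ P τp τm h]
  group

/-- a piece of a strand -/
theorem p1b_piece (ok : Ok o w) {p : ℕ} (hp : p < 6) {a b : ℝ} (ha : -1 ≤ a) (hab : a ≤ b)
    (hb : b ≤ w.length + 1) (x y : ↥(knot w)) (hx : x.1 = (strand w p a, a))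
    (hy : y.1 = (strand w p b, b)) :
    ∃ γ0 : Path x y, (∀ t, ∃ s, a ≤ s ∧ s ≤ b ∧ (γ0 t).1 = (strand w p s, s)) ∧
      (a ≤ 0 → w.length ≤ b → P1bGood o w γ0 fun _ _ P => (trP w P p w.length)⁻¹) ∧
      (b ≤ 0 → P1bGood o w γ0 fun _ _ _ => 1) := by
  let q : Path a b := Path.segment a b
  have hq : ∀ t, a ≤ q t ∧ q t ≤ b := fun t => by
    have : q t ∈ segment ℝ a b := by
      rw [← Path.range_segment]
      exact ⟨t, rfl⟩
    rwa [segment_eq_Icc hab] at this
  let γ0 : Path x y :=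
    { toFun := fun t => ⟨(strand w p (q t), q t), p, hp, ha.trans (hq t).1, (hq t).2.trans hb, rfl⟩
      continuous_toFun := by
        refine Continuous.subtype_mk ?_ _
        exact ((continuous_strand w p).comp q.continuous).prodMk q.continuous
      source' := Subtype.ext (by rw [hx]; simp only [q.source])
      target' := Subtype.ext (by rw [hy]; simp only [q.target]) }
  have hpush : ∀ (δ : ℝ) (f : C(ℝ, XX o w)),
      (∀ t, (f t).1 = (strand w p t + δ * Complex.I, t)) →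
      ∀ t, ((q.map f.continuous) t).1 = (γ0 t).1 + ((δ * Complex.I : ℂ), (0 : ℝ)) := by
    intro δ f hf t
    change (f (q t)).1 = (strand w p (q t), q t) + _
    rw [hf, Prod.mk_add_mk, add_zero]
  refine ⟨γ0, fun t => ⟨q t, (hq t).1, (hq t).2, rfl⟩, fun ha0 hb0 δ hδ hδ' => ?_,
    fun hb0 δ hδ hδ' => ?_⟩
  · obtain ⟨f, hf⟩ := exists_push ok (p := p) (by omega) hδ hδ'
    exact ⟨f a, f b, q.map f.continuous, hpush δ f hf, fun G _ φ P τp τm h =>
      arc ok h (by omega) hδ hδ' f hf ha0 hb0 q⟩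
  · obtain ⟨f, hf⟩ := exists_push ok (p := p) (by omega) hδ hδ'
    refine ⟨f a, f b, q.map f.continuous, hpush δ f hf, fun G _ φ P τp τm h => ?_⟩
    rw [mul_one]
    exact h.up _ _ _ fun t => push_mem_up ok hδ (hf (q t)) (Or.inl ((hq t).2.trans hb0))

theorem p1b_re (w : Word) {p : ℕ} (hp : p < 6) {t : ℝ} (h0 : -1 ≤ t) (h1 : t ≤ 0) :
    (strand w p t).re = p + (-1) ^ p * (-t) / 2 := by
  rw [strand_bot w p h1, cap, if_pos hp, Complex.ofReal_re, min_eq_left (by linarith)]

theorem p1b_bot (w : Word) {p q : ℕ} (hp : p < 6) (hq : q < 6)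
    (h : (p : ℝ) + (-1) ^ p / 2 = q + (-1) ^ q / 2) : strand w p (-1) = strand w q (-1) := by
  rw [strand_bot w p (by norm_num), strand_bot w q (by norm_num), cap, cap, if_pos hp, if_pos hq]
  simp only [neg_neg, min_self, mul_one, h]

theorem p1b_top (ok : Ok o w) {p q : ℕ} (hp : perm p < 6) (hq : perm q < 6)
    (h : (perm p : ℝ) + (-1) ^ perm p / 2 = perm q + (-1) ^ perm q / 2) :
    strand w p (w.length + 1) = strand w q (w.length + 1) := by
  rw [strand_top p (by linarith), strand_top q (by linarith), ok.top, ok.top, cap, cap,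
    if_pos hp, if_pos hq]
  simp only [add_sub_cancel_left, min_self, mul_one, h]

/-- The function on the knot that counts the passages through a point. -/
theorem p1b_chi (w : Word) :
    ∃ (χ : PF (↥(knot w)) (Multiplicative ℤ)) (τ : ↥(knot w) → Multiplicative ℤ),
      χ.Pot {y | 1 / 4 < y.1.1.re ∨ y.1.2 ≠ -(1 / 4)} τ ∧
      ∀ (x y : ↥(knot w)) (p : Path x y), (∀ t, (p t).1.1.re < 1 / 2) → x.1.2 < -(1 / 4) →
        -(1 / 4) < y.1.2 → χ.v p = (τ y)⁻¹ * Multiplicative.ofAdd 1 * τ x := by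
  classical
  let U : Bool → Set ↥(knot w) := fun i =>
    if i then {y | y.1.1.re < 1 / 2} else {y | 1 / 4 < y.1.1.re ∨ y.1.2 ≠ -(1 / 4)}
  let a : ↥(knot w) → Multiplicative ℤ := fun y =>
    if -(1 / 4) < y.1.2 then (Multiplicative.ofAdd 1)⁻¹ else 1
  let A : Bool → ↥(knot w) → Multiplicative ℤ := fun i y => if i then a y else 1
  have c1 : Continuous fun y : ↥(knot w) => y.1.1.re := by fun_prop
  have c2 : Continuous fun y : ↥(knot w) => y.1.2 := by fun_prop
  have ha : ∀ x ∈ U true ∩ U false, ∀ᶠ y in 𝓝 x, a y = a x := by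
    rintro x ⟨h1, h2⟩
    have h1' : x.1.1.re < 1 / 2 := h1
    have h2' : 1 / 4 < x.1.1.re ∨ x.1.2 ≠ -(1 / 4) := h2
    have h3 : x.1.2 ≠ -(1 / 4) := by
      intro h3
      rcases h2' with h2' | h2'
      · obtain ⟨p, hp, -, -, h4⟩ := x.2
        rw [h4, h3, p1b_re w hp (by norm_num) (by norm_num)] at h1' h2'
        rcases Nat.eq_zero_or_pos p with rfl | hp0
        · norm_num at h2'
        · interval_cases p <;> norm_num at h1'
      · exact h2' h3
    rcases h3.lt_or_gt with h3 | h3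
    · filter_upwards [(isOpen_lt c2 continuous_const).mem_nhds h3] with y hy
      have hy' : y.1.2 < -(1 / 4) := hy
      simp only [a, if_neg h3.not_gt, if_neg hy'.not_gt]
    · filter_upwards [(isOpen_lt continuous_const c2).mem_nhds h3] with y hy
      have hy' : -(1 / 4) < y.1.2 := hy
      simp only [a, if_pos h3, if_pos hy']
  obtain ⟨χ, t, ht, hg⟩ := exists_holonomy U (by
      intro i
      cases i
      · exact (isOpen_lt continuous_const c1).union (isOpen_ne_fun c2 continuous_const)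
      · exact isOpen_lt c1 continuous_const) (by
      intro x
      by_cases h : x.1.1.re < 1 / 2
      · exact ⟨true, h⟩
      · exact ⟨false, Or.inl (by linarith [not_lt.1 h])⟩)
    (fun i j y => A j y * (A i y)⁻¹) (by
      intro i j x hx
      cases i <;> cases j
      · exact Eventually.of_forall fun y => rfl
      · filter_upwards [ha x ⟨hx.2, hx.1⟩] with y hy
        simp only [A, if_true, hy, Bool.false_eq_true, if_false]
      · filter_upwards [ha x hx] with y hy
        simp only [A, if_true, hy, Bool.false_eq_true, if_false]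
      · exact Eventually.of_forall fun y => by simp only [mul_inv_cancel]) (by
      intro i j k x _
      group)
  refine ⟨χ, t false, ht false, fun x y p hp hx hy => ?_⟩
  have hx1 : x ∈ U false ∩ U true := ⟨Or.inr hx.ne, p.source ▸ hp 0⟩
  have hy1 : y ∈ U false ∩ U true := ⟨Or.inr hy.ne', p.target ▸ hp 1⟩
  rw [ht true x y p hp, hg false true x hx1, hg false true y hy1]
  simp only [A, a, if_true, Bool.false_eq_true, if_false, if_pos hy, if_neg hx.not_gt]
  group

theorem push_off (ok : Ok o w) :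
    ∃ (γ0 : Path (⟨k0, k0_mem w⟩ : ↥(knot w)) ⟨k0, k0_mem w⟩)
      (χ : PF (↥(knot w)) (Multiplicative ℤ)), χ.v γ0 = Multiplicative.ofAdd 1 ∧
      ∀ δ : ℝ, 0 < δ → δ ≤ 1 / 8 → ∃ (b : XX o w) (γ : Path b b),
        (∀ t, (γ t).1 = (γ0 t).1 + ((δ * Complex.I : ℂ), (0 : ℝ))) ∧
        ∀ (G : Type) [Group G] (φ : PF (XX o w) G) (P : ℕ → G) (τp τm : XX o w → G),
          Reg φ P τp τm → φ.v γ = (τp b)⁻¹ * (Raw w P)⁻¹ * τp b := by
  obtain ⟨χ, τ, hτ, hχ⟩ := p1b_chi w
  have hL : (0 : ℝ) ≤ w.length := Nat.cast_nonneg _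
  let pt : ∀ p, p < 6 → ∀ t : ℝ, -1 ≤ t → t ≤ w.length + 1 → ↥(knot w) :=
    fun p hp t h1 h2 => ⟨(strand w p t, t), p, hp, h1, h2, rfl⟩
  let top : ∀ p, p < 6 → ↥(knot w) := fun p hp => pt p hp (w.length + 1) (by linarith) le_rfl
  let bot : ∀ p, p < 6 → ↥(knot w) := fun p hp => pt p hp (-1) le_rfl (by linarith)
  let z : ↥(knot w) := pt 0 (by norm_num) 0 (by norm_num) (by linarith)
  let k : ↥(knot w) := ⟨k0, k0_mem w⟩
  have hk : k.1 = (strand w 0 (-(1 / 2)), -(1 / 2)) := by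
    change k0 = _
    rw [strand_bot w 0 (by norm_num), k0, cap, if_pos (by norm_num), neg_neg,
      min_eq_left (by norm_num)]
    congr 1
    push_cast
    norm_num
  -- a whole strand other than the first
  have whole : ∀ p, 1 ≤ p → p < 6 → ∀ x y : ↥(knot w), x.1 = (strand w p (-1), -1) →
      y.1 = (strand w p (w.length + 1), (w.length + 1 : ℝ)) →
      ∃ γ0 : Path x y, χ.v γ0 = (τ y)⁻¹ * τ x ∧
        P1bGood o w γ0 fun _ _ P => (trP w P p w.length)⁻¹ := by
    intro p h1 hp x y hx hy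
    obtain ⟨γ0, h2, h3, -⟩ := p1b_piece ok hp le_rfl (by linarith) le_rfl x y hx hy
    refine ⟨γ0, hτ _ _ _ fun t => ?_, h3 (by norm_num) (by linarith)⟩
    obtain ⟨s, -, -, hs⟩ := h2 t
    change 1 / 4 < (γ0 t).1.1.re ∨ (γ0 t).1.2 ≠ -(1 / 4)
    rw [hs]
    by_cases h : s = -(1 / 4)
    · left
      change 1 / 4 < (strand w p s).re
      rw [h, p1b_re w hp (by norm_num) (by norm_num)]
      interval_cases p <;> norm_num
    · exact Or.inr h
  obtain ⟨gA, a1, -, a2⟩ := p1b_piece ok (p := 0) (by norm_num) (a := -(1 / 2)) (b := 0)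
    (by norm_num) (by norm_num) (by linarith) k z hk rfl
  obtain ⟨gB, b1, b2, -⟩ := p1b_piece ok (p := 0) (by norm_num) (a := 0) (b := w.length + 1)
    (by norm_num) (by linarith) le_rfl z (top 0 (by norm_num)) rfl rfl
  obtain ⟨gC, c1, -, c2⟩ := p1b_piece ok (p := 0) (by norm_num) (a := -1) (b := -(1 / 2))
    le_rfl (by norm_num) (by linarith) (bot 0 (by norm_num)) k rfl hk
  obtain ⟨g4, x4, y4⟩ := whole 4 (by norm_num) (by norm_num) (bot 4 (by norm_num))
    (top 0 (by norm_num)) rfl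
    (Prod.ext (p1b_top ok (by decide) (by decide) (by norm_num [perm])) rfl)
  obtain ⟨g5, x5, y5⟩ := whole 5 (by norm_num) (by norm_num) (bot 4 (by norm_num))
    (top 5 (by norm_num))
    (Prod.ext (p1b_bot w (by norm_num) (by norm_num) (by norm_num)) rfl) rfl
  obtain ⟨g2, x2, y2⟩ := whole 2 (by norm_num) (by norm_num) (bot 2 (by norm_num))
    (top 5 (by norm_num)) rfl
    (Prod.ext (p1b_top ok (by decide) (by decide) (by norm_num [perm])) rfl)
  obtain ⟨g3, x3, y3⟩ := whole 3 (by norm_num) (by norm_num) (bot 2 (by norm_num))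
    (top 3 (by norm_num))
    (Prod.ext (p1b_bot w (by norm_num) (by norm_num) (by norm_num)) rfl) rfl
  obtain ⟨g1, x1, y1⟩ := whole 1 (by norm_num) (by norm_num) (bot 0 (by norm_num))
    (top 3 (by norm_num))
    (Prod.ext (p1b_bot w (by norm_num) (by norm_num) (by norm_num)) rfl)
    (Prod.ext (p1b_top ok (by decide) (by decide) (by norm_num [perm])) rfl)
  have xA : χ.v gA = (τ z)⁻¹ * Multiplicative.ofAdd 1 * τ k := by
    refine hχ _ _ _ (fun t => ?_) (by rw [hk]; norm_num) (by norm_num [z, pt])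
    obtain ⟨s, h1, h2, hs⟩ := a1 t
    rw [hs]
    change (strand w 0 s).re < 1 / 2
    rw [p1b_re w (by norm_num) (by linarith) h2]
    norm_num
    linarith
  have xB : χ.v gB = (τ _)⁻¹ * τ _ := hτ _ _ _ fun t => by
    obtain ⟨s, h1, -, hs⟩ := b1 t
    refine Or.inr ?_
    rw [hs]
    intro h
    have : s = -(1 / 4) := h
    linarith
  have xC : χ.v gC = (τ _)⁻¹ * τ _ := hτ _ _ _ fun t => by
    obtain ⟨s, -, h1, hs⟩ := c1 t
    refine Or.inr ?_
    rw [hs]
    intro h
    have : s = -(1 / 4) := h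
    linarith
  have good := p1b_trans (p1b_trans (p1b_trans (p1b_trans (p1b_trans (p1b_trans (p1b_trans
    (a2 le_rfl) (b2 le_rfl (by linarith))) (p1b_symm y4)) y5) (p1b_symm y2)) y3) (p1b_symm y1))
    (c2 (by norm_num))
  refine ⟨((((((gA.trans gB).trans g4.symm).trans g5).trans g2.symm).trans g3).trans
    g1.symm).trans gC, χ, ?_, fun δ hδ hδ' => ?_⟩
  · simp only [χ.trans, χ.symm, xA, xB, xC, x1, x2, x3, x4, x5]
    calc _ = (τ k)⁻¹ * Multiplicative.ofAdd 1 * τ k := by
          simp only [mul_inv_rev, inv_inv, mul_assoc, mul_inv_cancel_left]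
      _ = _ := by rw [mul_right_comm, inv_mul_cancel, one_mul]
  · obtain ⟨b, b', γ, hγ, hv⟩ := good δ hδ hδ'
    obtain rfl : b = b' := by
      apply Subtype.ext
      have e1 := hγ 1
      have e2 := hγ 0
      rw [γ.target, Path.target] at e1
      rw [γ.source, Path.source] at e2
      rw [e1, e2]
    refine ⟨b, γ, hγ, fun G _ φ P τp τm h => ?_⟩
    rw [hv G φ P τp τm h, Raw]
    group

end Vale.Agent.N258
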