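import Vale.Agent.N258.P1
import Vale.Agent.N258.W1
import Vale.Agent.N258.T
import Mathlib.Analysis.Convex.Contractible

/-! Block P2: the peripheral system. -/

namespace Vale.Agent.N258

open Set Filter Topology
open Vale.Agent.P258.Braid (Word)
open Vale.Agent.P002Z

/-- lifting of a continuous map through an embedding -/
theorem P2_lift {A B C : Type} [TopologicalSpace A] [TopologicalSpace B] [TopologicalSpace C]
    {e : B → C} (he : IsEmbedding e) {f : A → C} (hf : Continuous f)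
    (h : ∀ a, f a ∈ range e) : ∃ g : C(A, B), ∀ a, e (g a) = f a := by
  choose g hg using h
  refine ⟨⟨g, he.continuous_iff.2 ?_⟩, hg⟩
  rw [show e ∘ g = f from funext hg]
  exact hf

/-- freely homotopic loops have conjugate values -/
theorem P2_free {X G : Type} [TopologicalSpace X] [Group G] (φ : PF X G) (H : C(ℝ × ℝ, X))
    (hH : ∀ s, H (s, 0) = H (s, 1)) {x y : X} (p : Path x x) (q : Path y y)
    (hp : ∀ t, p t = H (0, t)) (hq : ∀ t, q t = H (1, t)) : ∃ c, φ.v q = c * φ.v p * c⁻¹ := by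
  have : ContractibleSpace (ℝ × ℝ) := RealTopologicalVectorSpace.contractibleSpace
  obtain ⟨τ, hτ⟩ := exists_pot_univ (φ.comap H)
  let v : ∀ s : ℝ, Path ((s, 0) : ℝ × ℝ) (s, 1) := fun s =>
    ⟨⟨fun t => (s, (t : ℝ)), by fun_prop⟩, rfl, rfl⟩
  let h : ∀ t : ℝ, Path ((0, t) : ℝ × ℝ) (1, t) := fun t =>
    ⟨⟨fun s => ((s : ℝ), t), by fun_prop⟩, rfl, rfl⟩
  have e0 : φ.v p = (τ (0, 1))⁻¹ * τ (0, 0) :=
    (φ.congr (q := (v 0).map H.continuous) hp).trans (hτ _ _ (v 0) fun _ => mem_univ _)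
  have e1 : φ.v q = (τ (1, 1))⁻¹ * τ (1, 0) :=
    (φ.congr (q := (v 1).map H.continuous) hq).trans (hτ _ _ (v 1) fun _ => mem_univ _)
  have e2 : (τ (1, 0))⁻¹ * τ (0, 0) = (τ (1, 1))⁻¹ * τ (0, 1) :=
    (hτ _ _ (h 0) fun _ => mem_univ _).symm.trans
      ((φ.congr (p := (h 0).map H.continuous) (q := (h 1).map H.continuous)
        fun s => hH s).trans (hτ _ _ (h 1) fun _ => mem_univ _))
  refine ⟨(τ (1, 1))⁻¹ * τ (0, 1), ?_⟩
  rw [e0, e1]
  calc (τ (1, 1))⁻¹ * τ (1, 0)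
      = (τ (1, 1))⁻¹ * τ (0, 0) * ((τ (1, 0))⁻¹ * τ (0, 0))⁻¹ := by group
    _ = _ := by rw [e2]; group

theorem P2_unit {A : Multiplicative ℤ} {n c : ℤ} (hc : c = 1 ∨ c = -1)
    (h : Multiplicative.ofAdd c = A ^ n) : n = 1 ∨ n = -1 := by
  have h1 : c = n * Multiplicative.toAdd A := by
    have := congrArg Multiplicative.toAdd h
    simpa using this
  rcases hc with rfl | rfl
  · exact Int.eq_one_or_neg_one_of_mul_eq_one h1.symm
  · exact Int.eq_one_or_neg_one_of_mul_eq_neg_one h1.symm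

variable {o : ℕ} {w : Word} {ν : Circle × ℂ → S3} {e : ↥(pattern o w) → S3}
  {eX : C(XX o w, ↥(core ν)ᶜ)}

theorem P2_mem (y : XX o w) : y.1 ∈ pattern o w := by
  by_contra h'
  exact y.2 ((link_eq o w).ge (Or.inr h'))

theorem P2_nmem (y : XX o w) : y.1 ∉ knot w := by
  exact fun h' => y.2 ((link_eq o w).ge (Or.inl h'))

/-- a thin tube lies in the image of the pattern space -/
theorem P2_rho (E : Emb o w ν e eX) :
    ∃ ρ : ℝ, 0 < ρ ∧ ∀ x : Circle × ℂ, ‖x.2‖ < ρ → ν x ∈ range e := by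
  have ho : IsOpen (ν ⁻¹' range e) := E.he.isOpen_range.preimage E.hν.continuous
  have hs : (univ : Set Circle) ×ˢ ({0} : Set ℂ) ⊆ ν ⁻¹' range e := by
    rintro ⟨u, z⟩ ⟨-, rfl⟩
    have : ν (u, 0) ∈ core ν := ⟨u, rfl⟩
    rw [E.hcore] at this
    exact image_subset_range _ _ this
  obtain ⟨U, V, -, hV, hU, h0, hUV⟩ :=
    generalized_tube_lemma isCompact_univ isCompact_singleton ho hs
  obtain ⟨ρ, hρ, hb⟩ := Metric.isOpen_iff.1 hV 0 (h0 rfl)
  exact ⟨ρ, hρ, fun x hx => hUV ⟨hU (mem_univ _), hb (mem_ball_zero_iff.2 hx)⟩⟩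

/-- a small neighbourhood of the knot lies in the thin tube -/
theorem P2_delta (E : Emb o w ν e eX) {ρ : ℝ} (hρ : 0 < ρ) :
    ∃ δ : ℝ, 0 < δ ∧ δ ≤ 1 / 8 ∧
      ∃ (hN : Metric.cthickening δ (knot w) ⊆ pattern o w)
        (f : C(↥(Metric.cthickening δ (knot w)), Circle × ℂ)),
        ∀ y, ν (f y) = e ⟨y.1, hN y.2⟩ ∧ ‖(f y).2‖ < ρ := by
  let T : Set (Circle × ℂ) := {x | ‖x.2‖ < ρ}
  have hT : IsOpen T := isOpen_lt (by fun_prop) continuous_const
  have ho : IsOpen (Subtype.val '' (e ⁻¹' (ν '' T))) :=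
    (isOpen_pattern o w).isOpenMap_subtype_val _
      ((E.hν.isOpenMap _ hT).preimage E.he.continuous)
  have hs : knot w ⊆ Subtype.val '' (e ⁻¹' (ν '' T)) := by
    intro y hy
    have : e ⟨y, knot_subset E.ok hy⟩ ∈ core ν := by
      rw [E.hcore]
      exact ⟨_, hy, rfl⟩
    obtain ⟨u, hu⟩ := this
    exact ⟨⟨y, knot_subset E.ok hy⟩, ⟨(u, 0), by simpa [T] using hρ, hu⟩, rfl⟩
  obtain ⟨δ, hδ, hc⟩ := (isCompact_knot w).exists_cthickening_subset_open ho hs
  have hc' := (Metric.cthickening_mono (min_le_left δ (1 / 8)) (knot w)).trans hc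
  have hN : Metric.cthickening (min δ (1 / 8)) (knot w) ⊆ pattern o w := by
    intro y hy
    obtain ⟨z, -, rfl⟩ := hc' hy
    exact z.2
  have hm : ∀ y : ↥(Metric.cthickening (min δ (1 / 8)) (knot w)),
      e ⟨y.1, hN y.2⟩ ∈ ν '' T := by
    intro y
    obtain ⟨z, hz, hzy⟩ := hc' y.2
    rwa [show (⟨y.1, hN y.2⟩ : ↥(pattern o w)) = z from Subtype.ext hzy.symm]
  obtain ⟨f, hf⟩ := P2_lift E.hν.isEmbedding
    (f := fun y : ↥(Metric.cthickening (min δ (1 / 8)) (knot w)) => e ⟨y.1, hN y.2⟩)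
    (E.he.continuous.comp (continuous_subtype_val.subtype_mk _))
    fun y => image_subset_range _ _ (hm y)
  refine ⟨min δ (1 / 8), lt_min hδ (by norm_num), min_le_right _ _, hN, f, fun y => ⟨hf y, ?_⟩⟩
  obtain ⟨x, hx, hxy⟩ := hm y
  rw [show f y = x from E.hν.injective ((hf y).trans hxy.symm)]
  exact hx

theorem P2_core (E : Emb o w ν e eX) {x : Circle × ℂ} {y : ↥(pattern o w)} (h : ν x = e y) :
    x.2 = 0 ↔ y.1 ∈ knot w := by
  constructor
  · intro h0
    have : e y ∈ core ν := ⟨x.1, by rw [← h, ← h0]⟩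
    rw [E.hcore] at this
    obtain ⟨z, hz, hzy⟩ := this
    rwa [← E.he.injective hzy]
  · intro hy
    have : e y ∈ core ν := by
      rw [E.hcore]
      exact ⟨y, hy, rfl⟩
    obtain ⟨u, hu⟩ := this
    rw [← E.hν.injective (hu.trans h.symm)]

theorem peripheral (E : Emb o w ν e eX)
    (hZ : ∃ P : ℕ → Multiplicative ℤ, Capd w P ∧ P 1 = Multiplicative.ofAdd 1)
    {a : ↥(core ν)ᶜ} (mu lam : Path a a) (hmu : ∀ t, (mu t).1 = ν (1, ex t))
    (hlam : ∀ t, (lam t).1 = ν (ex t, 1)) :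
    ∃ i d k : ℤ, (i = 1 ∨ i = -1) ∧ (d = 1 ∨ d = -1) ∧
      ∀ (G : Type) [Group G] (β : PF (↥(core ν)ᶜ) G) (P : ℕ → G) (x0 : XX o w), Capd w P →
        HasReg (β.comap eX) x0 P → ∃ g, (P 1)⁻¹ = g⁻¹ * β.v mu ^ i * g ∧
          (Raw w P)⁻¹ = g⁻¹ * (β.v mu ^ k * β.v lam ^ d) * g := by
  obtain ⟨ρ, hρ, hr⟩ := P2_rho E
  obtain ⟨δ, hδ, hδ1, hN, f, hf⟩ := P2_delta E hρ
  obtain ⟨γ0, χ, hχ, hpush⟩ := push_off E.ok
  obtain ⟨b, γ, hγ, hγv⟩ := hpush δ hδ hδ1
  have hb : b.1 = k0 + ((δ * Complex.I : ℂ), (0 : ℝ)) := by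
    have := hγ 0
    rwa [γ.source, γ0.source] at this
  obtain ⟨m0, hm0, hm0v⟩ := small_meridian E.ok hδ hδ1 b hb
  have hnear : ∀ (z : ↥(knot w)) (s : ℝ), 0 ≤ s → s ≤ 1 →
      z.1 + (((s * δ : ℝ) * Complex.I : ℂ), (0 : ℝ)) ∈ Metric.cthickening δ (knot w) := by
    intro z s h0 h1
    refine Metric.mem_cthickening_of_dist_le _ z.1 δ _ z.2 ?_
    rw [dist_eq_norm, add_sub_cancel_left, Prod.norm_mk, norm_mul, Complex.norm_I,
      Complex.norm_real, norm_zero, mul_one, Real.norm_of_nonneg (by positivity)]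
    exact max_le (by nlinarith) hδ.le
  have hγN : ∀ t, (γ t).1 ∈ Metric.cthickening δ (knot w) := fun t => by
    have := hnear (γ0 t) 1 zero_le_one le_rfl
    rwa [one_mul, ← hγ] at this
  have hmN : ∀ t, (m0 t).1 ∈ Metric.cthickening δ (knot w) := fun t =>
    Metric.mem_cthickening_of_dist_le _ k0 δ _ (k0_mem w) (hm0 t)
  have hbN : b.1 ∈ Metric.cthickening δ (knot w) := m0.source ▸ hmN 0
  have hJ : ∀ (y : XX o w) (h : y.1 ∈ Metric.cthickening δ (knot w)),
      ‖(f ⟨y.1, h⟩).2‖ ∈ Ioo 0 ρ := fun y h =>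
    ⟨norm_pos_iff.2 fun h0 => P2_nmem y ((P2_core E (hf ⟨y.1, h⟩).1).1 h0), (hf _).2⟩
  -- lifts of loops near the knot
  let b1 : TJ (Ioo 0 ρ) := ⟨f ⟨b.1, hbN⟩, hJ b hbN⟩
  let lf : ∀ p : Path b b, (∀ t, (p t).1 ∈ Metric.cthickening δ (knot w)) → Path b1 b1 :=
    fun p hp =>
      { toFun := fun t => ⟨f ⟨(p t).1, hp t⟩, hJ _ (hp t)⟩
        continuous_toFun := (f.continuous.comp
          ((continuous_subtype_val.comp p.continuous).subtype_mk _)).subtype_mk _
        source' := by simp only [b1, p.source]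
        target' := by simp only [b1, p.target] }
  have hlf : ∀ p hp t, (lf p hp t).1 = f ⟨(p t).1, hp t⟩ := fun _ _ _ => rfl
  let inc : C(TJ (Ioo 0 ρ), TJ (Ioi 0)) :=
    ⟨fun x => ⟨x.1, x.2.1⟩, continuous_subtype_val.subtype_mk _⟩
  obtain ⟨ar, har⟩ := exists_argC (Ioi 0) subset_rfl
  obtain ⟨j, -, hj⟩ := exists_tube E.hν (J := Ioi 0) subset_rfl
  obtain ⟨c, m, l, hm, hl⟩ := exists_torus_loops (J := Ioi 0) one_pos (mem_Ioi.2 one_pos)
  -- the meridian does not turn along the knot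
  have h0 : (dg.comap (fstC (Ioo 0 ρ))).v (lf m0 hmN) = 1 := by
    let V : Set ↥(Metric.cthickening δ (knot w)) := {y | y.1 ∈ Metric.closedBall k0 δ}
    have hV : Convex ℝ (Subtype.val '' V) := by
      have : Subtype.val '' V = Metric.closedBall k0 δ := by
        ext y
        constructor
        · rintro ⟨z, hz, rfl⟩
          exact hz
        · intro hy
          exact ⟨⟨y, Metric.mem_cthickening_of_dist_le _ k0 δ _ (k0_mem w) hy⟩, hy, rfl⟩
      rw [this]
      exact convex_closedBall _ _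
    let q : Path (⟨b.1, hbN⟩ : ↥(Metric.cthickening δ (knot w))) ⟨b.1, hbN⟩ :=
      { toFun := fun t => ⟨(m0 t).1, hmN t⟩
        continuous_toFun := (continuous_subtype_val.comp m0.continuous).subtype_mk _
        source' := by simp only [m0.source]
        target' := by simp only [m0.target] }
    let φ := dg.comap (ContinuousMap.fst.comp f)
    have h1 : φ.v q = 1 := by
      rw [φ.hom (null_of_convex hV _ q fun t => hm0 t), φ.refl]
    exact (dg.congr fun _ => rfl).trans h1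
  refine ⟨Multiplicative.toAdd ((dg.comap (ar.comp inc)).v (lf m0 hmN)),
    Multiplicative.toAdd ((dg.comap (fstC (Ioo 0 ρ))).v (lf γ hγN)),
    Multiplicative.toAdd ((dg.comap (ar.comp inc)).v (lf γ hγN)), ?_, ?_, ?_⟩
  · obtain ⟨P, hP, hP1⟩ := hZ
    obtain ⟨φ, τp, τm, hφ, -⟩ := exists_hasReg E.ok hP b
    obtain ⟨g, hg⟩ := P2_lift E.he.isEmbedding (f := fun x : TJ (Ioo 0 ρ) => ν x.1)
      (E.hν.continuous.comp continuous_subtype_val) fun x => hr x.1 x.2.2
    have hgl : ∀ x, (g x).1 ∈ (link o w)ᶜ := by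
      intro x hx
      rw [link_eq] at hx
      rcases hx with hx | hx
      · exact (norm_pos_iff.1 x.2.1) ((P2_core E (hg x).symm).2 hx)
      · exact hx (g x).2
    let jX : C(TJ (Ioo 0 ρ), XX o w) :=
      ⟨fun x => ⟨(g x).1, hgl x⟩, (continuous_subtype_val.comp g.continuous).subtype_mk _⟩
    obtain ⟨c', m', l', hm', hl'⟩ := exists_torus_loops (J := Ioo 0 ρ) (half_pos hρ)
      ⟨half_pos hρ, half_lt_self hρ⟩
    obtain ⟨u, hu⟩ := (torus_pow (J := Ioo 0 ρ) Ioo_subset_Ioi_self ordConnected_Ioo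
      (ar.comp inc) (fun x => har (inc x)) (φ.comap jX) (half_pos hρ) m' l' hm' hl').2 b1
    have h1 := hu (lf m0 hmN)
    have h2 : (φ.comap jX).v (lf m0 hmN) = φ.v m0 := φ.congr fun t => by
      refine Subtype.ext ?_
      have h3 := (hg (lf m0 hmN t)).trans (hf ⟨(m0 t).1, hmN t⟩).1
      exact congrArg (fun y : ↥(pattern o w) => y.1) (E.he.injective h3)
    rw [h2, hm0v _ φ P τp τm hφ, h0, (hP 0 (Nat.zero_le _)).1, hP1] at h1
    refine P2_unit (c := -1) (A := (φ.comap jX).v m') (Or.inr rfl) ?_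
    have h4 : ∀ x y : Multiplicative ℤ, x⁻¹ * y * x = y := fun x y => by
      rw [mul_comm x⁻¹, inv_mul_cancel_right]
    rw [h4, h4, mul_one, toAdd_one, zpow_zero, mul_one] at h1
    exact h1
  · have hK : ∀ z : ↥(knot w), z.1 ∈ Metric.cthickening δ (knot w) := fun z =>
      Metric.self_subset_cthickening _ z.2
    let cl : C(↥(knot w), Circle) :=
      ⟨fun z => (f ⟨z.1, hK z⟩).1,
        continuous_fst.comp (f.continuous.comp (continuous_subtype_val.subtype_mk _))⟩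
    obtain ⟨g, hg⟩ := P2_lift E.he.isEmbedding (f := fun u : Circle => ν (u, 0))
      (E.hν.continuous.comp (by fun_prop)) fun u => hr (u, 0) (by simpa using hρ)
    let κ : C(Circle, ↥(knot w)) :=
      ⟨fun u => ⟨(g u).1, (P2_core E (hg u).symm).1 rfl⟩,
        (continuous_subtype_val.comp g.continuous).subtype_mk _⟩
    have hκ : ∀ z, κ (cl z) = z := by
      intro z
      refine Subtype.ext ?_
      have h1 := (hf ⟨z.1, hK z⟩).1
      have h2 : (f ⟨z.1, hK z⟩).2 = 0 := (P2_core E h1).2 z.2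
      have h3 : e (g (cl z)) = e ⟨z.1, hN (hK z)⟩ := by
        rw [hg, ← h1, ← h2]
        rfl
      exact congrArg (fun y : ↥(pattern o w) => y.1) (E.he.injective h3)
    obtain ⟨u, hu⟩ := circle_pow (χ.comap κ) (cl ⟨k0, k0_mem w⟩)
    have h1 := hu (γ0.map cl.continuous)
    have h2 : (χ.comap κ).v (γ0.map cl.continuous) = χ.v γ0 := χ.congr fun t => hκ _
    have h4 : ∀ x y : Multiplicative ℤ, x⁻¹ * y * x = y := fun x y => by
      rw [mul_comm x⁻¹, inv_mul_cancel_right]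
    rw [h2, hχ, h4] at h1
    let H : C(ℝ × ℝ, ↥(Metric.cthickening δ (knot w))) :=
      ⟨fun x => ⟨(γ0.extend x.2).1 +
          ((((projIcc 0 1 zero_le_one x.1 : ℝ) * δ : ℝ) * Complex.I : ℂ), (0 : ℝ)),
          hnear _ _ (projIcc 0 1 zero_le_one x.1).2.1 (projIcc 0 1 zero_le_one x.1).2.2⟩, by
        refine Continuous.subtype_mk ?_ _
        have c1 : Continuous fun x : ℝ × ℝ => (γ0.extend x.2).1 :=
          continuous_subtype_val.comp (γ0.continuous_extend.comp continuous_snd)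
        have c2 : Continuous fun x : ℝ × ℝ => (projIcc (0 : ℝ) 1 zero_le_one x.1 : ℝ) :=
          continuous_subtype_val.comp (continuous_projIcc.comp continuous_fst)
        fun_prop⟩
    let F : C(ℝ × ℝ, Circle) := (ContinuousMap.fst.comp f).comp H
    obtain ⟨c2, hc2⟩ := P2_free dg F (fun s => by
        refine congrArg (fun y => (f y).1) (Subtype.ext ?_)
        simp only [H, ContinuousMap.coe_mk, Path.extend_zero, Path.extend_one])
      (γ0.map cl.continuous) ((lf γ hγN).map (fstC (Ioo 0 ρ)).continuous)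
      (fun t => by
        refine congrArg (fun y => (f y).1) (Subtype.ext ?_)
        simp [H])
      (fun t => by
        refine congrArg (fun y => (f y).1) (Subtype.ext ?_)
        simp [H, hγ])
    rw [mul_comm c2, mul_inv_cancel_right] at hc2
    refine P2_unit (c := 1) (A := (χ.comap κ).v exLoop) (Or.inl rfl) ?_
    rw [h1]
    exact congrArg (fun x => (χ.comap κ).v exLoop ^ Multiplicative.toAdd x) hc2.symm
  · rintro G _ β P x0 hP ⟨τp, τm, hφ, -⟩
    obtain ⟨u, hu⟩ := (torus_pow (J := Ioi 0) subset_rfl ordConnected_Ioi ar har (β.comap j)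
      one_pos m l hm hl).2 (inc b1)
    have e1 : (β.comap j).v m = β.v mu := β.congr fun t => Subtype.ext (by
      change (j (m t)).1 = _
      rw [hj, hm, hmu]
      simp)
    have e2 : (β.comap j).v l = β.v lam := β.congr fun t => Subtype.ext (by
      change (j (l t)).1 = _
      rw [hj, hl, hlam]
      simp)
    have e3 : ∀ p hp, (β.comap j).v ((lf p hp).map inc.continuous) = (β.comap eX).v p :=
      fun p hp => β.congr fun t => Subtype.ext (by
        change (j (inc (lf p hp t))).1 = (eX (p t)).1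
        rw [hj, E.heX _ (P2_mem _)]
        exact (hf ⟨(p t).1, hp t⟩).1)
    have e4 : ∀ p : Path b1 b1,
        (dg.comap ar).v (p.map inc.continuous) = (dg.comap (ar.comp inc)).v p :=
      fun p => dg.congr fun _ => rfl
    have e5 : ∀ p : Path b1 b1,
        (dg.comap (fstC (Ioi 0))).v (p.map inc.continuous) = (dg.comap (fstC (Ioo 0 ρ))).v p :=
      fun p => dg.congr fun _ => rfl
    have h1 := hu ((lf m0 hmN).map inc.continuous)
    have h2 := hu ((lf γ hγN).map inc.continuous)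
    rw [e3, e4, e5, e1, e2] at h1 h2
    rw [hm0v _ _ P τp τm hφ, h0, (hP 0 (Nat.zero_le _)).1, toAdd_one, zpow_zero, mul_one,
      mul_one] at h1
    rw [hγv _ _ P τp τm hφ] at h2
    refine ⟨u * (τp b)⁻¹, ?_, ?_⟩
    · calc (P 1)⁻¹ = τp b * ((τp b)⁻¹ * (P 1)⁻¹ * τp b) * (τp b)⁻¹ := by group
        _ = _ := by rw [h1]; group
    · calc (Raw w P)⁻¹ = τp b * ((τp b)⁻¹ * (Raw w P)⁻¹ * τp b) * (τp b)⁻¹ := by group
        _ = _ := by rw [h2]; group

end Vale.Agent.N258
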