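import Vale.Agent.N258.Geo

/-! Block Q: the labels of the regions of the diagram. -/

namespace Vale.Agent.N258

open Set Filter Topology
open Vale.Agent.P258.Braid (Word)
open Vale.Agent.P002Z

variable {o : ℕ} {w : Word} {G : Type} [Group G]

/-- the label of the region of the point -/
noncomputable def QQ (o : ℕ) (w : Word) (P : ℕ → G) (y : ℂ × ℝ) : G :=
  reg w P (stage w y.2) (idx o w y)

theorem idx_le (o : ℕ) (w : Word) (y : ℂ × ℝ) : idx o w y ≤ 6 + o := by
  unfold idx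
  exact (Finset.card_filter_le _ _).trans (Finset.card_range _).le

theorem idx_of_pos (ok : Ok o w) (k : ℕ) {j : ℕ} (hj : j ≤ 6 + o) {y : ℂ × ℝ}
    (h : ∀ p < 6 + o, (strand w p y.2).re < y.1.re ↔ pos w k p < j) : idx o w y = j := by
  unfold idx
  rw [← Finset.card_range j]
  refine Finset.card_bij (fun p _ => pos w k p) (fun p hp => ?_)
    (fun p _ q _ e => pos_inj w k e) fun q hq => ?_
  · rw [Finset.mem_filter, Finset.mem_range] at hp
    exact Finset.mem_range.2 ((h p hp.1).1 hp.2)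
  · rw [Finset.mem_range] at hq
    obtain ⟨p, hp, rfl⟩ := pos_surj ok.rng k (hq.trans_le hj)
    exact ⟨p, Finset.mem_filter.2 ⟨Finset.mem_range.2 hp, (h p hp).2 hq⟩, rfl⟩

theorem QA_ceil (a : ℝ) :
    ∀ᶠ b in 𝓝 a, ⌈b⌉₊ = ⌈a⌉₊ ∨ (a = ⌈a⌉₊ ∧ ⌈b⌉₊ = ⌈a⌉₊ + 1) := by
  have h1 : ∀ᶠ b in 𝓝 a, ⌈a⌉₊ ≤ ⌈b⌉₊ := by
    rcases hn : ⌈a⌉₊ with _ | n
    · exact Eventually.of_forall fun _ => Nat.zero_le _
    · have : (n : ℝ) < a := Nat.lt_ceil.1 (by omega)
      filter_upwards [eventually_gt_nhds this] with b hb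
      exact Nat.lt_ceil.2 hb
  rcases (Nat.le_ceil a).lt_or_eq with h | h
  · filter_upwards [h1, eventually_lt_nhds h] with b hb hb'
    exact Or.inl (le_antisymm (Nat.ceil_le.2 hb'.le) hb)
  · have h2 : a < ((⌈a⌉₊ + 1 : ℕ) : ℝ) := by
      push_cast
      linarith
    filter_upwards [h1, eventually_lt_nhds h2] with b hb hb'
    have := Nat.ceil_le.2 hb'.le
    rcases hb.lt_or_eq with h3 | h3
    · exact Or.inr ⟨h, by omega⟩
    · exact Or.inl h3.symm

theorem QA_mv_re (x : ℕ × Bool) (q : ℕ) (s : ℝ) : (mv x q s).re =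
    if q = x.1 then (x.1 : ℝ) + s else if q = x.1 + 1 then (x.1 : ℝ) + 1 - s else q := by
  unfold mv
  split_ifs with h1 h2
  · rw [h1]
  · rw [h2]
    push_cast
    rfl
  · rfl

theorem QA_cap_re (q : ℕ) (s : ℝ) : (cap q s).re =
    if q < 6 then (q : ℝ) + (-1) ^ q * min s 1 / 2 else q := by
  unfold cap
  split_ifs
  · exact Complex.ofReal_re _
  · rfl

theorem QA_lt {k : ℕ} {x : ℕ × Bool} (h : w[k]? = some x) : k < w.length :=
  (List.getElem?_eq_some_iff.1 h).1

theorem QA_step {k : ℕ} {x : ℕ × Bool} (h : w[k]? = some x) (P : ℕ → G) {j : ℕ}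
    (hj : j ≠ x.1 + 1) : reg w P (k + 1) j = reg w P k j := by
  rw [reg_succ h, stepP, Function.update_of_ne hj]

theorem QA_stage {k : ℕ} (hk : k ≤ w.length) {t : ℝ} (h1 : (k : ℝ) - 1 / 2 < t)
    (h2 : t ≤ k + 1 / 2) : stage w t = k := by
  have : ⌈t - 1 / 2⌉₊ = k := by
    refine le_antisymm (Nat.ceil_le.2 (by linarith)) ?_
    rcases k with _ | k
    · exact Nat.zero_le _
    · refine Nat.lt_ceil.2 ?_
      push_cast at h1
      linarith
  rw [stage, this, min_eq_right hk]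

theorem QA_stage_bot {t : ℝ} (h : t ≤ 1 / 2) : stage w t = 0 := by
  rw [stage, Nat.ceil_eq_zero.2 (by linarith), Nat.min_zero]

theorem QA_stage_top {t : ℝ} (h : (w.length : ℝ) + 1 / 2 ≤ t) : stage w t = w.length :=
  min_eq_left (by
    have := Nat.le_ceil (t - 1 / 2)
    exact_mod_cast (show (w.length : ℝ) ≤ ⌈t - 1 / 2⌉₊ by linarith))

/-- the index of the region outside the caps -/
noncomputable def QA_J (o : ℕ) (r : ℝ) : ℕ := max 6 (min (6 + o) ⌈r⌉₊)

theorem QA_cap_one (o : ℕ) {s : ℝ} (hs : 1 ≤ s) (r : ℝ) :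
    ∃ j ≤ 6 + o, (j = QA_J o r ∨ ((∃ i ≤ 3, j = 2 * i) ∧ QA_J o r = 6)) ∧
      ∀ q < 6 + o, (cap q s).re < r ↔ q < j := by
  have hm : min s 1 = 1 := min_eq_right hs
  have big : ∀ q : ℕ, ¬ q < 6 → (6 : ℝ) ≤ q := fun q hq => by exact_mod_cast not_lt.1 hq
  have hJ : r ≤ 6 → QA_J o r = 6 := fun h => by
    have : ⌈r⌉₊ ≤ 6 := Nat.ceil_le.2 (by exact_mod_cast h)
    unfold QA_J
    omega
  have small : ∀ i ≤ 2, r ≤ 2 * (i : ℕ) + 1 / 2 → (i = 0 ∨ 2 * (i : ℝ) - 3 / 2 < r) →
      ∃ j ≤ 6 + o, (j = QA_J o r ∨ ((∃ i ≤ 3, j = 2 * i) ∧ QA_J o r = 6)) ∧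
        ∀ q < 6 + o, (cap q s).re < r ↔ q < j := by
    intro i hi h1 h2
    have hi' : (i : ℝ) ≤ 2 := by exact_mod_cast hi
    refine ⟨2 * i, by omega, Or.inr ⟨⟨i, by omega, rfl⟩, hJ (by linarith)⟩, fun q _ => ?_⟩
    rw [QA_cap_re, hm]
    split_ifs with hq
    · interval_cases i <;> interval_cases q <;> norm_num at h1 h2 ⊢ <;> linarith
    · have := big q hq
      constructor
      · intro h
        linarith
      · omega
  by_cases h0 : r ≤ 1 / 2
  · exact small 0 (by norm_num) (by simpa using h0) (Or.inl rfl)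
  by_cases h1 : r ≤ 5 / 2
  · exact small 1 (by norm_num) (by norm_num; linarith) (Or.inr (by norm_num; linarith))
  by_cases h2 : r ≤ 9 / 2
  · exact small 2 (by norm_num) (by norm_num; linarith) (Or.inr (by norm_num; linarith))
  refine ⟨QA_J o r, by unfold QA_J; omega, Or.inl rfl, fun q hq => ?_⟩
  rw [QA_cap_re, hm]
  unfold QA_J
  split_ifs with hq6
  · refine iff_of_true ?_ (by omega)
    interval_cases q <;> norm_num <;> linarith
  · rw [← Nat.lt_ceil]
    omega

theorem QA_below (ok : Ok o w) {P : ℕ → G} (hP : Capd w P) {y : ℂ × ℝ} (h : y.2 ≤ -1) :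
    QQ o w P y = P (QA_J o y.1.re) := by
  obtain ⟨j, hj, h1, h2⟩ := QA_cap_one o (s := -y.2) (by linarith) y.1.re
  have : idx o w y = j := idx_of_pos ok 0 hj fun p hp => by
    rw [strand_bot w p (by linarith), pos_zero]
    exact h2 p hp
  rw [QQ, this, QA_stage_bot (by linarith), reg_zero]
  rcases h1 with h1 | ⟨⟨i, hi, rfl⟩, h1⟩
  · rw [h1]
  · rw [h1, (hP i hi).1, ← (hP 3 le_rfl).1]

theorem QA_above (ok : Ok o w) {P : ℕ → G} (hP : Capd w P) {y : ℂ × ℝ}
    (h : w.length + 1 ≤ y.2) : QQ o w P y = reg w P w.length (QA_J o y.1.re) := by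
  obtain ⟨j, hj, h1, h2⟩ := QA_cap_one o (s := y.2 - w.length) (by linarith) y.1.re
  have : idx o w y = j := idx_of_pos ok w.length hj fun p hp => by
    rw [strand_top p (by linarith)]
    exact h2 _ ((pos_lt ok.rng _ _).2 hp)
  rw [QQ, this, QA_stage_top (by linarith)]
  rcases h1 with h1 | ⟨⟨i, hi, rfl⟩, h1⟩
  · rw [h1]
  · rw [h1, (hP i hi).2, ← (hP 3 le_rfl).2]

theorem QA_J_lc {r : ℝ} (h : ∀ p, 6 ≤ p → p < 6 + o → ((p : ℕ) : ℝ) ≠ r) :
    ∀ᶠ b in 𝓝 r, QA_J o b = QA_J o r := by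
  filter_upwards [QA_ceil r] with b hb
  unfold QA_J
  rcases hb with hb | ⟨h1, hb⟩
  · rw [hb]
  · have : ¬ (6 ≤ ⌈r⌉₊ ∧ ⌈r⌉₊ < 6 + o) := fun h2 => h _ h2.1 h2.2 h1.symm
    omega

theorem QA_idx_lc {y : ℂ × ℝ} (h : ∀ p < 6 + o, (strand w p y.2).re ≠ y.1.re) :
    ∀ᶠ z in 𝓝 y, idx o w z = idx o w y := by
  have h1 : ∀ᶠ z in 𝓝 y, ∀ p ∈ Finset.range (6 + o),
      ((strand w p z.2).re < z.1.re ↔ (strand w p y.2).re < y.1.re) := by
    rw [Filter.eventually_all_finset]
    intro p hp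
    have c1 : ContinuousAt (fun z : ℂ × ℝ => (strand w p z.2).re) y :=
      (Complex.continuous_re.comp ((continuous_strand w p).comp continuous_snd)).continuousAt
    have c2 : ContinuousAt (fun z : ℂ × ℝ => z.1.re) y :=
      (Complex.continuous_re.comp continuous_fst).continuousAt
    rcases (h p (Finset.mem_range.1 hp)).lt_or_gt with h2 | h2
    · filter_upwards [c1.eventually_lt c2 h2] with z hz
      exact iff_of_true hz h2
    · filter_upwards [c2.eventually_lt c1 h2] with z hz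
      exact iff_of_false hz.not_gt h2.not_gt
  filter_upwards [h1] with z hz
  unfold idx
  exact congrArg Finset.card (Finset.filter_congr hz)

theorem QA_idx_half (ok : Ok o w) {k : ℕ} {x : ℕ × Bool} (h : w[k]? = some x) {y : ℂ × ℝ}
    (hy : y.2 - 1 / 2 = k) : idx o w y ≠ x.1 + 1 := by
  have hx := ok.rng x (List.mem_of_getElem? h)
  have hre : ∀ p, (strand w p y.2).re = (mv x (pos w k p) (1 / 2)).re := fun p => by
    rw [strand_mid h p (by linarith) (by linarith), show y.2 - k = 1 / 2 by linarith]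
  by_cases hr : y.1.re ≤ x.1 + 1 / 2
  · rw [idx_of_pos ok k (j := min x.1 ⌈y.1.re⌉₊) (by omega) fun p _ => ?_]
    · omega
    rw [hre, QA_mv_re]
    generalize pos w k p = q
    split_ifs with h1 h2
    · exact iff_of_false (by linarith) (by omega)
    · exact iff_of_false (by linarith) (by omega)
    · rw [lt_min_iff, Nat.lt_ceil]
      refine ⟨fun h3 => ⟨?_, h3⟩, fun h3 => h3.2⟩
      have : (q : ℝ) < (x.1 + 1 : ℕ) := by
        push_cast
        linarith
      have := Nat.cast_lt.1 this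
      omega
  · rw [idx_of_pos ok k (j := max (x.1 + 2) (min (6 + o) ⌈y.1.re⌉₊)) (by omega) fun p hp => ?_]
    · omega
    rw [hre, QA_mv_re]
    have hq := (pos_lt ok.rng k p).2 hp
    generalize pos w k p = q at hq ⊢
    split_ifs with h1 h2
    · exact iff_of_true (by linarith) (by omega)
    · exact iff_of_true (by linarith) (by omega)
    · rw [← Nat.lt_ceil]
      have : x.1 < ⌈y.1.re⌉₊ := Nat.lt_ceil.2 (by linarith)
      omega

/-- the labels are locally constant -/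
theorem QQ_lc (ok : Ok o w) {P : ℕ → G} (hP : Capd w P) {y : ℂ × ℝ}
    (h : ∀ p < 6 + o, act w p y.2 → (strand w p y.2).re ≠ y.1.re) :
    ∀ᶠ z in 𝓝 y, QQ o w P z = QQ o w P y := by
  have c2 : ContinuousAt (fun z : ℂ × ℝ => z.1.re) y :=
    (Complex.continuous_re.comp continuous_fst).continuousAt
  have c3 : ContinuousAt (fun z : ℂ × ℝ => z.2) y := continuous_snd.continuousAt
  by_cases hb : y.2 < -1
  · have hJ := QA_J_lc (o := o) (r := y.1.re) fun p h1 h2 => by
      have := h p h2 (Or.inl h1)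
      rwa [strand_bot w p (by linarith), QA_cap_re, if_neg (by omega)] at this
    filter_upwards [c2.eventually hJ, c3.eventually (eventually_lt_nhds hb)] with z h1 h2
    rw [QA_below ok hP h2.le, QA_below ok hP hb.le, h1]
  by_cases ht : (w.length : ℝ) + 1 < y.2
  · have hJ := QA_J_lc (o := o) (r := y.1.re) fun p h1 h2 => by
      have := h p h2 (Or.inl h1)
      obtain ⟨p, rfl⟩ := Nat.exists_eq_add_of_le' h1
      rwa [strand_top _ (by linarith), ok.top, perm, QA_cap_re, if_neg (by omega)] at this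
    filter_upwards [c2.eventually hJ, c3.eventually (eventually_gt_nhds ht)] with z h1 h2
    rw [QA_above ok hP h2.le, QA_above ok hP ht.le, h1]
  have c4 : ContinuousAt (fun z : ℂ × ℝ => z.2 - 1 / 2) y := c3.sub continuousAt_const
  filter_upwards [QA_idx_lc fun p hp => h p hp (Or.inr ⟨not_lt.1 hb, not_lt.1 ht⟩),
    c4.eventually (QA_ceil _)] with z h1 h2
  rw [QQ, QQ, h1, stage, stage]
  rcases h2 with h2 | ⟨h3, h2⟩
  · rw [h2]
  · rw [h2]
    rcases lt_or_ge ⌈y.2 - 1 / 2⌉₊ w.length with h4 | h4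
    · have h5 := List.getElem?_eq_getElem h4
      rw [min_eq_right h4.le, min_eq_right (Nat.succ_le_of_lt h4),
        QA_step h5 P (QA_idx_half ok h5 h3)]
    · rw [min_eq_left h4, min_eq_left (Nat.le_succ_of_le h4)]

/-- the labels in the box of a crossing -/
theorem QQ_box (ok : Ok o w) (P : ℕ → G) {k : ℕ} {x : ℕ × Bool} (h : w[k]? = some x)
    {y : ℂ × ℝ} (h1 : (x.1 : ℝ) < y.1.re) (h2 : y.1.re < x.1 + 1) (h3 : k < y.2)
    (h4 : y.2 < k + 1) :
    (y.1.re < x.1 + (y.2 - k) → y.1.re < x.1 + 1 - (y.2 - k) → QQ o w P y = reg w P k x.1) ∧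
    (x.1 + (y.2 - k) < y.1.re → x.1 + 1 - (y.2 - k) < y.1.re →
      QQ o w P y = reg w P k (x.1 + 2)) ∧
    (x.1 + (y.2 - k) < y.1.re → y.1.re < x.1 + 1 - (y.2 - k) →
      QQ o w P y = reg w P k (x.1 + 1)) ∧
    (y.1.re < x.1 + (y.2 - k) → x.1 + 1 - (y.2 - k) < y.1.re →
      QQ o w P y = reg w P (k + 1) (x.1 + 1)) := by
  have hx := ok.rng x (List.mem_of_getElem? h)
  have hk := QA_lt h
  have hre : ∀ p, (strand w p y.2).re = (mv x (pos w k p) (y.2 - k)).re := fun p => by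
    rw [strand_mid h p h3.le h4.le]
  have oth : ∀ q : ℕ, q ≠ x.1 → q ≠ x.1 + 1 → ((q : ℝ) < y.1.re ↔ q < x.1) := by
    intro q q1 q2
    constructor
    · intro h5
      have : (q : ℝ) < (x.1 + 1 : ℕ) := by
        push_cast
        linarith
      have := Nat.cast_lt.1 this
      omega
    · intro h5
      exact (Nat.cast_lt.2 h5).trans h1
  have early : y.2 ≤ k + 1 / 2 → stage w y.2 = k := fun h5 => QA_stage hk.le (by linarith) h5
  have late : k + 1 / 2 < y.2 → stage w y.2 = k + 1 := fun h5 =>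
    QA_stage hk (by push_cast; linarith) (by push_cast; linarith)
  have both : ∀ j, j ≠ x.1 + 1 → reg w P (stage w y.2) j = reg w P k j := by
    intro j hj
    rcases le_or_gt y.2 (k + 1 / 2) with h5 | h5
    · rw [early h5]
    · rw [late h5, QA_step h P hj]
  refine ⟨fun a b => ?_, fun a b => ?_, fun a b => ?_, fun a b => ?_⟩
  · rw [QQ, idx_of_pos ok k (j := x.1) (by omega) fun p _ => ?_, both _ (by omega)]
    rw [hre, QA_mv_re]
    split_ifs with q1 q2
    · exact iff_of_false a.not_gt (by omega)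
    · exact iff_of_false b.not_gt (by omega)
    · exact oth _ q1 q2
  · rw [QQ, idx_of_pos ok k (j := x.1 + 2) (by omega) fun p _ => ?_, both _ (by omega)]
    rw [hre, QA_mv_re]
    split_ifs with q1 q2
    · exact iff_of_true a (by omega)
    · exact iff_of_true b (by omega)
    · rw [oth _ q1 q2]
      omega
  · rw [QQ, idx_of_pos ok k (j := x.1 + 1) (by omega) fun p _ => ?_, early (by linarith)]
    rw [hre, QA_mv_re]
    split_ifs with q1 q2
    · exact iff_of_true a (by omega)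
    · exact iff_of_false b.not_gt (by omega)
    · rw [oth _ q1 q2]
      omega
  · rw [QQ, idx_of_pos ok (k + 1) (j := x.1 + 1) (by omega) fun p _ => ?_, late (by linarith)]
    rw [hre, QA_mv_re, pos_succ h, sw]
    split_ifs with q1 q2
    · exact iff_of_false a.not_gt (by omega)
    · exact iff_of_true b (by omega)
    · rw [oth _ q1 q2]
      omega

/-- the labels at the reference points -/
theorem QQ_ref (ok : Ok o w) (P : ℕ → G) {k j : ℕ} (hk : k ≤ w.length) (hj : j ≤ 6 + o)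
    {y : ℂ × ℝ} (h1 : (j : ℝ) - 1 < y.1.re) (h2 : y.1.re < j) (h3 : y.2 = k) :
    QQ o w P y = reg w P k j := by
  rw [QQ, idx_of_pos ok k hj fun p _ => ?_, QA_stage hk (by linarith) (by linarith)]
  rw [h3, strand_int p hk, Complex.natCast_re]
  constructor
  · intro h4
    exact Nat.cast_lt.1 (h4.trans h2)
  · intro h4
    have : ((pos w k p + 1 : ℕ) : ℝ) ≤ j := Nat.cast_le.2 h4
    push_cast at this
    linarith

theorem QQ_left (ok : Ok o w) (P : ℕ → G) {y : ℂ × ℝ} (h : y.1.re < 0) : QQ o w P y = P 0 := by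
  rw [QQ, idx_of_pos ok 0 (Nat.zero_le _) fun p hp => ?_, reg_left]
  have := (strand_re ok hp y.2).1
  exact iff_of_false (by linarith) (Nat.not_lt_zero _)

theorem QQ_right (ok : Ok o w) (P : ℕ → G) {y : ℂ × ℝ} (h : (6 + o : ℝ) - 1 < y.1.re) :
    QQ o w P y = P (6 + o) := by
  rw [QQ, idx_of_pos ok 0 le_rfl fun p hp => ?_, reg_right ok.rng]
  have := (strand_re ok hp y.2).2
  exact iff_of_true (by linarith) ((pos_lt ok.rng _ _).2 hp)

/-- below the caps only the labels `P j`, `j ≥ 6`, are seen -/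
theorem QQ_below (ok : Ok o w) {y : ℂ × ℝ} (h : y.2 ≤ -1) :
    ∃ j, 6 ≤ j ∧ j ≤ 6 + o ∧ ∀ (G : Type) [Group G] (P : ℕ → G), Capd w P → QQ o w P y = P j :=
  ⟨QA_J o y.1.re, by unfold QA_J; omega, by unfold QA_J; omega,
    fun _ _ _ hP => QA_below ok hP h⟩

theorem QQ_above (ok : Ok o w) {y : ℂ × ℝ} (h : w.length + 1 ≤ y.2) :
    ∃ j, 6 ≤ j ∧ j ≤ 6 + o ∧ ∀ (G : Type) [Group G] (P : ℕ → G), Capd w P →
      QQ o w P y = reg w P w.length j :=
  ⟨QA_J o y.1.re, by unfold QA_J; omega, by unfold QA_J; omega,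
    fun _ _ _ hP => QA_above ok hP h⟩

/-- next to the first strand, on its bottom cap -/
theorem QQ_cap0 (ok : Ok o w) (P : ℕ → G) {y : ℂ × ℝ} (h : y.2 = -(1 / 2)) :
    (y.1.re < 1 / 4 → QQ o w P y = P 0) ∧
      (1 / 4 < y.1.re → y.1.re < 3 / 4 → QQ o w P y = P 1) := by
  have hre : ∀ p, (strand w p y.2).re =
      if p < 6 then (p : ℝ) + (-1) ^ p * (1 / 2) / 2 else p := fun p => by
    rw [strand_bot w p (by linarith), QA_cap_re, h, neg_neg, min_eq_left (by norm_num)]
  have big : ∀ q : ℕ, ¬ q < 6 → (6 : ℝ) ≤ q := fun q hq => by exact_mod_cast not_lt.1 hq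
  refine ⟨fun a => ?_, fun a b => ?_⟩
  · rw [QQ, idx_of_pos ok 0 (Nat.zero_le _) fun p _ => ?_, reg_left]
    refine iff_of_false ?_ (Nat.not_lt_zero _)
    rw [hre]
    split_ifs with hp
    · interval_cases p <;> norm_num <;> linarith
    · have := big p hp
      linarith
  · rw [QQ, idx_of_pos ok 0 (j := 1) (by omega) fun p _ => ?_, QA_stage_bot (by linarith),
      reg_zero]
    rw [hre, pos_zero]
    split_ifs with hp
    · interval_cases p <;> norm_num <;> linarith
    · have := big p hp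
      exact iff_of_false (by linarith) (by omega)

end Vale.Agent.N258
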