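import Vale.Agent.N258.W4
import Mathlib.Analysis.Convex.Contractible

/-! Block R1: the end of the pattern space. -/

namespace Vale.Agent.N258

open Set Filter Topology
open Vale.Agent.P258.Braid (Word)
open Vale.Agent.P002Z

section generic

variable {X Y : Type} [TopologicalSpace X] [TopologicalSpace Y] {G : Type} [Group G]

/-- compatible gauge transformations on open sets can be glued -/
theorem R1_glue {ι : Type} {φ ψ : PF X G} (U : ι → Set X) (hU : ∀ i, IsOpen (U i))
    (s : ι → X → G) (h : ∀ i, Par φ ψ (U i) (s i))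
    (hc : ∀ i j, ∀ x ∈ U i, x ∈ U j → s i x = s j x) :
    ∃ r, Par φ ψ (⋃ i, U i) r ∧ ∀ i, ∀ x ∈ U i, r x = s i x := by
  classical
  let r : X → G := fun x => if hx : ∃ i, x ∈ U i then s hx.choose x else 1
  have hr : ∀ i, ∀ x ∈ U i, r x = s i x := by
    intro i x hx
    have hx' : ∃ i, x ∈ U i := ⟨i, hx⟩
    simp only [r, dif_pos hx']
    exact hc _ _ x hx'.choose_spec hx
  exact ⟨r, Par.glue U hU Subset.rfl fun i => ((h i).congr (hr i)).mono inter_subset_right, hr⟩

/-- a gauge transformation is pushed forward by an embedding -/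
theorem R1_push {γ γ' : PF Y G} (e : C(X, Y)) (he : IsEmbedding e) {s : X → G}
    (hp : Par (γ.comap e) (γ'.comap e) univ s) :
    ∃ r : Y → G, Par γ γ' (range e) r ∧ ∀ x, r (e x) = s x := by
  have hr : ∀ x, Function.extend e s (fun _ => 1) (e x) = s x := fun x =>
    he.injective.extend_apply _ _ _
  refine ⟨Function.extend e s fun _ => 1, fun x y p hq => ?_, hr⟩
  obtain ⟨x1, y1, q, -, hq2⟩ := G2_lift he p p.continuous (V := univ)
    fun t => by rw [image_univ]; exact hq t
  have b0 : e x1 = x := by rw [← q.source, ← p.source]; exact hq2 0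
  have b1 : e y1 = y := by rw [← q.target, ← p.target]; exact hq2 1
  have c := hp _ _ q fun _ => mem_univ _
  have c1 : (γ.comap e).v q = γ.v p := γ.congr hq2
  have c2 : (γ'.comap e).v q = γ'.v p := γ'.congr hq2
  rw [c1, c2, ← hr, ← hr, b0, b1] at c
  exact c

/-- the vertical path to the level `c` -/
noncomputable def R1_vert (c : ℝ) (x : X × ℝ) : Path x (x.1, c) where
  toFun u := (x.1, Path.segment x.2 c u)
  continuous_toFun := continuous_const.prodMk (Path.segment x.2 c).continuous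
  source' := by simp
  target' := by simp

/-- the projection of a path to the level `c` -/
def R1_flat (c : ℝ) {x y : X × ℝ} (q : Path x y) : Path (x.1, c) (y.1, c) where
  toFun u := ((q u).1, c)
  continuous_toFun := q.continuous.fst.prodMk continuous_const
  source' := by simp
  target' := by simp

theorem R1_square (χ : PF (X × ℝ) G) (c : ℝ) {x y : X × ℝ} (q : Path x y) :
    χ.v q = (χ.v (R1_vert c y))⁻¹ * χ.v (R1_flat c q) * χ.v (R1_vert c x) := by
  let H : C(ℝ × ℝ, X × ℝ) := ⟨fun z => ((q.extend z.1).1, z.2),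
    ((q.continuous_extend.comp continuous_fst).fst).prodMk continuous_snd⟩
  obtain ⟨τ, hτ⟩ := exists_pot_univ (χ.comap H)
  let q1 : Path ((0 : ℝ), x.2) ((1 : ℝ), y.2) :=
    ⟨⟨fun u => ((u : ℝ), (q u).2), continuous_subtype_val.prodMk q.continuous.snd⟩,
      by simp, by simp⟩
  let q2 : Path ((0 : ℝ), c) ((1 : ℝ), c) :=
    ⟨⟨fun u => ((u : ℝ), c), continuous_subtype_val.prodMk continuous_const⟩, by simp, by simp⟩
  have e1 : χ.v q = (χ.comap H).v q1 := χ.congr fun u => by
    change q u = ((q.extend u).1, (q u).2)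
    rw [Path.extend_extends']
  have e2 : χ.v (R1_flat c q) = (χ.comap H).v q2 := χ.congr fun u => by
    change ((q u).1, c) = ((q.extend u).1, c)
    rw [Path.extend_extends']
  have e3 : χ.v (R1_vert c x) = (χ.comap H).v (R1_vert c ((0 : ℝ), x.2)) := χ.congr fun u => by
    change (x.1, Path.segment x.2 c u) = ((q.extend 0).1, Path.segment x.2 c u)
    rw [Path.extend_zero]
  have e4 : χ.v (R1_vert c y) = (χ.comap H).v (R1_vert c ((1 : ℝ), y.2)) := χ.congr fun u => by
    change (y.1, Path.segment y.2 c u) = ((q.extend 1).1, Path.segment y.2 c u)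
    rw [Path.extend_one]
  rw [e1, e2, e3, e4, hτ _ _ q1 fun _ => mem_univ _, hτ _ _ q2 fun _ => mem_univ _,
    hτ _ _ (R1_vert c _) fun _ => mem_univ _, hτ _ _ (R1_vert c _) fun _ => mem_univ _]
  group

/-- a gauge transformation on one level extends to the cylinder -/
theorem R1_prod {φ ψ : PF (X × ℝ) G} (c : ℝ) {s0 : X × ℝ → G} (h : Par φ ψ {y | y.2 = c} s0) :
    ∃ s, Par φ ψ univ s ∧ ∀ a, s (a, c) = s0 (a, c) := by
  refine ⟨fun x => (φ.v (R1_vert c x))⁻¹ * s0 (x.1, c) * ψ.v (R1_vert c x), fun x y q _ => ?_,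
    fun a => ?_⟩
  · rw [R1_square φ c q, R1_square ψ c q, h _ _ (R1_flat c q) fun _ => rfl]
    group
  · have e : ∀ χ : PF (X × ℝ) G, χ.v (R1_vert c (a, c)) = 1 := fun χ => by
      rw [χ.congr (q := Path.refl (a, c)) fun u => by
        change (a, Path.segment c c u) = (a, c)
        simp]
      exact χ.refl _
    simp only [e]
    simp

end generic

/-- the small punctured disc -/
abbrev R1D : Type := {z : ℂ // 0 < ‖z‖ ∧ ‖z‖ < 1 / 16}

theorem R1D_path : PathConnectedSpace R1D := by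
  have h : IsPathConnected ((fun x : ℝ × ℝ => (x.1 : ℂ) * Complex.exp (x.2 * Complex.I)) ''
      (Ioo (0 : ℝ) (1 / 16) ×ˢ (univ : Set ℝ))) :=
    (((convex_Ioo _ _).prod convex_univ).isPathConnected
      ⟨(1 / 32, 0), mk_mem_prod (by norm_num) (mem_univ _)⟩).image (by fun_prop)
  have e : ((fun x : ℝ × ℝ => (x.1 : ℂ) * Complex.exp (x.2 * Complex.I)) ''
      (Ioo (0 : ℝ) (1 / 16) ×ˢ (univ : Set ℝ))) = {z : ℂ | 0 < ‖z‖ ∧ ‖z‖ < 1 / 16} := by
    ext z
    constructor
    · rintro ⟨⟨r, t⟩, ⟨hr, -⟩, rfl⟩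
      have : ‖(r : ℂ) * Complex.exp (t * Complex.I)‖ = r := by
        rw [norm_mul, Complex.norm_exp_ofReal_mul_I, mul_one, Complex.norm_real,
          Real.norm_of_nonneg hr.1.le]
      change 0 < ‖(r : ℂ) * Complex.exp (t * Complex.I)‖ ∧
        ‖(r : ℂ) * Complex.exp (t * Complex.I)‖ < 1 / 16
      rw [this]
      exact hr
    · intro hz
      exact ⟨(‖z‖, z.arg), ⟨hz, mem_univ _⟩, Complex.norm_mul_exp_arg_mul_I z⟩
  rw [e] at h
  exact isPathConnected_iff_pathConnectedSpace.1 h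

variable {o : ℕ} {w : Word}

/-- the tube around a strand -/
def R1T (o : ℕ) (w : Word) (p : ℕ) : Set (XX o w) := {y | ‖y.1.1 - strand w p y.1.2‖ < 1 / 16}

theorem R1T_open (p : ℕ) : IsOpen (R1T o w p) :=
  isOpen_lt (((continuous_fst.comp continuous_subtype_val).sub
    ((continuous_strand w p).comp (continuous_snd.comp continuous_subtype_val))).norm)
    continuous_const

theorem R1_param (ok : Ok o w) {p : ℕ} (h6 : 6 ≤ p) (hp : p < 6 + o) :
    ∃ F : C(R1D × ℝ, XX o w), IsEmbedding F ∧ range F = R1T o w p ∧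
      ∀ x, (F x).1 = (strand w p x.2 + x.1.1, x.2) := by
  have hm : ∀ x : R1D × ℝ, (strand w p x.2 + x.1.1, x.2) ∈ (link o w)ᶜ := by
    rintro ⟨a, t⟩ ⟨q, -, -, h⟩
    change strand w p t + a.1 = strand w q t at h
    by_cases hpq : p = q
    · subst hpq
      have : a.1 = 0 := by simpa using h
      have h2 := a.2.1
      rw [this] at h2
      simp at h2
    · have h1 := strand_sep ok hpq (t := t) (Or.inl h6)
      have h2 : strand w p t - strand w q t = -a.1 := by rw [← h]; ring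
      rw [h2, norm_neg] at h1
      linarith [a.2.2]
  have hc : Continuous fun x : R1D × ℝ => (strand w p x.2 + x.1.1, x.2) :=
    (((continuous_strand w p).comp continuous_snd).add
      (continuous_subtype_val.comp continuous_fst)).prodMk continuous_snd
  let F : C(R1D × ℝ, XX o w) := ⟨fun x => ⟨_, hm x⟩, hc.subtype_mk _⟩
  refine ⟨F, ?_, ?_, fun _ => rfl⟩
  · have hg : Continuous fun y : XX o w => (y.1.1 - strand w p y.1.2, y.1.2) :=
      ((continuous_fst.comp continuous_subtype_val).sub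
        ((continuous_strand w p).comp (continuous_snd.comp continuous_subtype_val))).prodMk
        (continuous_snd.comp continuous_subtype_val)
    refine IsEmbedding.of_comp F.continuous hg ?_
    have : (fun y : XX o w => (y.1.1 - strand w p y.1.2, y.1.2)) ∘ F =
        Prod.map (Subtype.val : R1D → ℂ) id := by
      funext x
      change (strand w p x.2 + x.1.1 - strand w p x.2, x.2) = (x.1.1, x.2)
      rw [add_sub_cancel_left]
    rw [this]
    exact IsEmbedding.subtypeVal.prodMap IsEmbedding.id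
  · ext y
    constructor
    · rintro ⟨x, rfl⟩
      change ‖strand w p x.2 + x.1.1 - strand w p x.2‖ < 1 / 16
      rw [add_sub_cancel_left]
      exact x.1.2.2
    · intro hy
      have h0 : 0 < ‖y.1.1 - strand w p y.1.2‖ := by
        rw [norm_pos_iff, sub_ne_zero]
        exact fun h => y.2 ⟨p, hp, Or.inl h6, h⟩
      refine ⟨(⟨y.1.1 - strand w p y.1.2, h0, hy⟩, y.1.2), Subtype.ext ?_⟩
      change (strand w p y.1.2 + (y.1.1 - strand w p y.1.2), y.1.2) = y.1
      rw [add_sub_cancel]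

/-- the points beside, below or above the diagram -/
def R1S (o : ℕ) (w : Word) : Set (XX o w) :=
  {y | y.1.1.re < -1 ∨ (6 + o : ℝ) < y.1.1.re ∨ y.1.2 < -2 ∨ (w.length : ℝ) + 2 < y.1.2}

theorem R1S_open : IsOpen (R1S o w) := by
  have h1 : Continuous fun y : XX o w => y.1.1.re := by fun_prop
  have h2 : Continuous fun y : XX o w => y.1.2 := by fun_prop
  exact (isOpen_lt h1 continuous_const).union ((isOpen_lt continuous_const h1).union
    ((isOpen_lt h2 continuous_const).union (isOpen_lt continuous_const h2)))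

theorem R1S_sub (ok : Ok o w) {y : XX o w} (hy : y ∈ R1S o w) :
    y ∈ Up o w 1 ∨ y ∈ Up o w (-1) := by
  rcases cover ok y with h | h | ⟨k, x, hx, h1, h2, h3⟩
  · exact Or.inl h
  · exact Or.inr h
  exfalso
  have hk : k < w.length := (List.getElem?_eq_some_iff.1 hx).1
  have hk' : (k : ℝ) + 1 ≤ w.length := by exact_mod_cast hk
  have hr : ((x.1 + 1 : ℕ) : ℝ) < ((6 + o : ℕ) : ℝ) :=
    Nat.cast_lt.2 (ok.rng x (List.mem_of_getElem? hx))
  push_cast at hr
  have h4 : 0 < (y.1.2 - k) * (1 - (y.1.2 - k)) := (abs_nonneg _).trans_lt h3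
  have h5 : (0 : ℝ) ≤ x.1 := Nat.cast_nonneg _
  have h6 : (0 : ℝ) ≤ k := Nat.cast_nonneg _
  rcases hy with h | h | h | h
  · linarith
  · linarith
  · nlinarith
  · nlinarith

theorem R1_far {e : ℝ} (he : e = 1 ∨ e = -1) {y : XX o w} (h : 1 < e * y.1.1.im) :
    y ∈ Up o w e := by
  intro p _ _ _
  have := abs_le.1 (strand_im w p y.1.2)
  rcases he with rfl | rfl <;> linarith [this.1, this.2]

/-- the box that contains the diagram -/
def R1B (o : ℕ) (w : Word) : Set (ℂ × ℝ) :=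
  {y | (-1 ≤ y.1.re ∧ y.1.re ≤ 6 + o) ∧ (-1 ≤ y.1.im ∧ y.1.im ≤ 1) ∧
    (-2 ≤ y.2 ∧ y.2 ≤ (w.length : ℝ) + 2)}

theorem R1B_closed : IsClosed (R1B o w) := by
  have h1 : Continuous fun y : ℂ × ℝ => y.1.re := by fun_prop
  have h2 : Continuous fun y : ℂ × ℝ => y.1.im := by fun_prop
  exact ((isClosed_le continuous_const h1).inter (isClosed_le h1 continuous_const)).inter
    (((isClosed_le continuous_const h2).inter (isClosed_le h2 continuous_const)).inter
      ((isClosed_le continuous_const continuous_snd).inter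
        (isClosed_le continuous_snd continuous_const)))

theorem R1B_compact : IsCompact (R1B o w) := by
  refine Metric.isCompact_of_isClosed_isBounded R1B_closed
    (isBounded_iff_forall_norm_le.2 ⟨(7 + o : ℝ) + w.length, ?_⟩)
  rintro y ⟨⟨h1, h2⟩, ⟨h3, h4⟩, h5, h6⟩
  have ho : (0 : ℝ) ≤ o := Nat.cast_nonneg _
  have hl : (0 : ℝ) ≤ w.length := Nat.cast_nonneg _
  rw [Prod.norm_def, max_le_iff]
  constructor
  · have a1 : |y.1.re| ≤ 6 + o := abs_le.2 ⟨by linarith, h2⟩
    have a2 : |y.1.im| ≤ 1 := abs_le.2 ⟨h3, h4⟩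
    linarith [Complex.norm_le_abs_re_add_abs_im y.1]
  · rw [Real.norm_eq_abs]
    exact abs_le.2 ⟨by linarith, by linarith⟩

section gauge

variable {G : Type} [Group G] {φ φ' : PF (XX o w) G} {P P' : ℕ → G}
  {τp τm τp' τm' : XX o w → G}

theorem R1_QQ (ok : Ok o w) (hP : Capd w P) (hP' : Capd w P')
    (hj : ∀ j, 6 ≤ j → j ≤ 6 + o → P j = P' j ∧ reg w P w.length j = reg w P' w.length j)
    {y : XX o w} (hy : y ∈ R1S o w) : QQ o w P y.1 = QQ o w P' y.1 := by
  rcases hy with h | h | h | h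
  · rw [QQ_left ok P (by linarith), QQ_left ok P' (by linarith), (hP 0 (by norm_num)).1,
      (hP' 0 (by norm_num)).1]
  · rw [QQ_right ok P (by linarith), QQ_right ok P' (by linarith)]
    exact (hj _ (by omega) le_rfl).1
  · obtain ⟨j, h1, h2, h3⟩ := QQ_below ok (y := y.1) (by linarith)
    rw [h3 G P hP, h3 G P' hP']
    exact (hj j h1 h2).1
  · obtain ⟨j, h1, h2, h3⟩ := QQ_above ok (y := y.1) (by linarith)
    rw [h3 G P hP, h3 G P' hP']
    exact (hj j h1 h2).2

/-- the gauge transformation outside of the box -/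
theorem R1_out (ok : Ok o w) (h : Reg φ P τp τm) (h' : Reg φ' P' τp' τm') (hP : Capd w P)
    (hP' : Capd w P')
    (hj : ∀ j, 6 ≤ j → j ≤ 6 + o → P j = P' j ∧ reg w P w.length j = reg w P' w.length j) :
    ∃ s, Par φ φ' {y | y.1 ∉ R1B o w} s ∧
      ∀ y ∈ R1S o w, y ∈ Up o w 1 → s y = (τp y)⁻¹ * τp' y := by
  let A : ℝ → Set (XX o w) := fun e => {y | 1 < e * y.1.1.im} ∪ (R1S o w ∩ Up o w e)
  have hAo : ∀ e, e = 1 ∨ e = -1 → IsOpen (A e) := fun e he =>
    (isOpen_lt continuous_const (by fun_prop)).union (R1S_open.inter (isOpen_up o w he))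
  have hAU : ∀ e, e = 1 ∨ e = -1 → A e ⊆ Up o w e := by
    rintro e he y (hy | hy)
    · exact R1_far he hy
    · exact hy.2
  have hc : ∀ y ∈ A 1, y ∈ A (-1) → (τp y)⁻¹ * τp' y = (τm y)⁻¹ * τm' y := by
    intro y h1 h2
    have hS : y ∈ R1S o w := by
      rcases h1 with h1 | h1
      · rcases h2 with h2 | h2
        · exfalso
          change 1 < 1 * y.1.1.im at h1
          change 1 < -1 * y.1.1.im at h2
          linarith
        · exact h2.1
      · exact h1.1
    have hU : y ∈ Up o w 1 ∩ Up o w (-1) := ⟨hAU 1 (Or.inl rfl) h1, hAU (-1) (Or.inr rfl) h2⟩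
    have e1 : τm y = QQ o w P y.1 * τp y := h.lab y hU
    have e2 : τm' y = QQ o w P' y.1 * τp' y := h'.lab y hU
    rw [e1, e2, R1_QQ ok hP hP' hj hS]
    group
  obtain ⟨r, hr, hr'⟩ := R1_glue (φ := φ) (ψ := φ') (fun b : Bool => if b then A 1 else A (-1))
    (by
      rintro (_ | _)
      · exact hAo _ (Or.inr rfl)
      · exact hAo _ (Or.inl rfl))
    (fun b y => if b then (τp y)⁻¹ * τp' y else (τm y)⁻¹ * τm' y)
    (by
      rintro (_ | _)
      · exact (par_of_pot h.dn h'.dn).mono (hAU _ (Or.inr rfl))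
      · exact (par_of_pot h.up h'.up).mono (hAU _ (Or.inl rfl)))
    (by
      rintro (_ | _) (_ | _) y h1 h2
      · rfl
      · exact (hc y h2 h1).symm
      · exact hc y h1 h2
      · rfl)
  refine ⟨r, hr.mono fun y hy => ?_, fun y h1 h2 => hr' true y (Or.inr ⟨h1, h2⟩)⟩
  by_cases hS : y ∈ R1S o w
  · rcases R1S_sub ok hS with h1 | h1
    · exact mem_iUnion.2 ⟨true, Or.inr ⟨hS, h1⟩⟩
    · exact mem_iUnion.2 ⟨false, Or.inr ⟨hS, h1⟩⟩
  · simp only [R1S, mem_ofPred_eq, not_or, not_lt] at hS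
    obtain ⟨a1, a2, a3, a4⟩ := hS
    rcases lt_or_ge 1 y.1.1.im with b | b
    · exact mem_iUnion.2 ⟨true, Or.inl (show 1 < 1 * y.1.1.im by linarith)⟩
    rcases lt_or_ge y.1.1.im (-1) with b' | b'
    · exact mem_iUnion.2 ⟨false, Or.inl (show 1 < -1 * y.1.1.im by linarith)⟩
    exact absurd ⟨⟨a1, a2⟩, ⟨b', b⟩, a3, a4⟩ hy

/-- the gauge transformation in a tube -/
theorem R1_tube (ok : Ok o w) (h : Reg φ P τp τm) (h' : Reg φ' P' τp' τm') {p : ℕ} (h6 : 6 ≤ p)
    (hp : p < 6 + o) (htr : trP w P p w.length = trP w P' p w.length) {s0 : XX o w → G}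
    (h0 : Par φ φ' {y | y.1 ∉ R1B o w} s0)
    (h1 : ∀ y ∈ R1S o w, y ∈ Up o w 1 → s0 y = (τp y)⁻¹ * τp' y) :
    ∃ s, Par φ φ' (R1T o w p) s ∧ ∀ y ∈ R1T o w p, y.1 ∉ R1B o w → s y = s0 y := by
  obtain ⟨F, hF, hrange, hval⟩ := R1_param ok h6 hp
  have := R1D_path
  have hl : (0 : ℝ) ≤ w.length := Nat.cast_nonneg _
  have hB : ∀ x : R1D × ℝ, x.2 < -2 ∨ (w.length : ℝ) + 2 < x.2 → (F x).1 ∉ R1B o w := by
    intro x hx hb
    rw [hval] at hb
    obtain ⟨-, -, b1, b2⟩ := hb
    rcases hx with hx | hx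
    · exact absurd b1 (not_le.2 hx)
    · exact absurd b2 (not_le.2 hx)
  have h0' := h0.comap F
  obtain ⟨s, hs, hs0⟩ := R1_prod (-3) (h0'.mono (V' := {y | y.2 = -3}) fun x hx =>
    hB x (Or.inl (by rw [show x.2 = -3 from hx]; norm_num)))
  have hbot : ∀ x : R1D × ℝ, x.2 < -2 → s x = s0 (F x) := by
    intro x hx
    refine Par.unique (V := {y : R1D × ℝ | y.2 < -2}) (hs.mono (subset_univ _))
      (h0'.mono fun y hy => hB y (Or.inl hy)) (x := (x.1, -3)) ?_ (hs0 _)
    refine JoinedIn.symm ⟨R1_vert (-3) x, fun u => ?_⟩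
    have : Path.segment x.2 (-3) u ∈ segment ℝ x.2 (-3) := by
      rw [← Path.range_segment]
      exact mem_range_self _
    exact (convex_Iio (-2 : ℝ)).segment_subset hx (by norm_num) this
  let a : R1D := ⟨((1 / 32 : ℝ) : ℂ) * Complex.I, by
    rw [norm_mul, Complex.norm_I, Complex.norm_real]
    norm_num⟩
  let ι : C(ℝ, R1D × ℝ) := ⟨fun t => (a, t), continuous_const.prodMk continuous_id⟩
  have hf : ∀ t, ((F.comp ι) t).1 = (strand w p t + ((1 / 32 : ℝ) : ℂ) * Complex.I, t) :=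
    fun t => hval _
  have htop0 : s (a, w.length + 3) = s0 (F (a, w.length + 3)) := by
    let q : Path (-3 : ℝ) (w.length + 3) := Path.segment _ _
    have c1 := arc ok h hp (δ := 1 / 32) (by norm_num) (by norm_num) (F.comp ι) hf
      (by norm_num) (by linarith) q
    have c2 := arc ok h' hp (δ := 1 / 32) (by norm_num) (by norm_num) (F.comp ι) hf
      (by norm_num) (by linarith) q
    have c3 : (φ'.comap (F.comp ι)).v q =
        (s (a, w.length + 3))⁻¹ * (φ.comap (F.comp ι)).v q * s (a, -3) :=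
      hs _ _ (q.map ι.continuous) fun _ => mem_univ _
    have u0 : (F.comp ι) (-3) ∈ Up o w 1 :=
      push_mem_up ok (δ := 1 / 32) (by norm_num) (hf _) (Or.inl (by norm_num))
    have u1 : (F.comp ι) (w.length + 3) ∈ Up o w 1 :=
      push_mem_up ok (δ := 1 / 32) (by norm_num) (hf _) (Or.inr (by linarith))
    have v0 : (F.comp ι) (-3) ∈ R1S o w := Or.inr (Or.inr (Or.inl (by rw [hf]; norm_num)))
    have v1 : (F.comp ι) (w.length + 3) ∈ R1S o w :=
      Or.inr (Or.inr (Or.inr (by rw [hf]; change _ < (w.length : ℝ) + 3; linarith)))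
    have d0 : s (a, -3) = (τp ((F.comp ι) (-3)))⁻¹ * τp' ((F.comp ι) (-3)) :=
      (hs0 a).trans (h1 _ v0 u0)
    have d1 : s0 (F (a, w.length + 3)) =
        (τp ((F.comp ι) (w.length + 3)))⁻¹ * τp' ((F.comp ι) (w.length + 3)) := h1 _ v1 u1
    rw [c1, c2, d0, htr] at c3
    rw [d1]
    calc s (a, w.length + 3) = (τp ((F.comp ι) (w.length + 3)))⁻¹ *
          (trP w P' p w.length)⁻¹ * τp' ((F.comp ι) (-3)) *
          ((s (a, w.length + 3))⁻¹ * ((τp ((F.comp ι) (w.length + 3)))⁻¹ *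
            (trP w P' p w.length)⁻¹ * τp ((F.comp ι) (-3))) *
            ((τp ((F.comp ι) (-3)))⁻¹ * τp' ((F.comp ι) (-3))))⁻¹ := by group
      _ = _ := by rw [← c3]; group
  have htop : ∀ x : R1D × ℝ, (w.length : ℝ) + 2 < x.2 → s x = s0 (F x) := by
    intro x hx
    refine Par.unique (V := {y : R1D × ℝ | (w.length : ℝ) + 2 < y.2}) (hs.mono (subset_univ _))
      (h0'.mono fun y hy => hB y (Or.inr hy)) (x := (a, w.length + 3)) ?_ htop0
    have hc : IsPathConnected ((univ : Set R1D) ×ˢ Ioi ((w.length : ℝ) + 2)) :=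
      isPathConnected_univ.prod ((convex_Ioi _).isPathConnected nonempty_Ioi)
    exact (hc.joinedIn (a, w.length + 3)
      ⟨mem_univ _, show (w.length : ℝ) + 2 < w.length + 3 by linarith⟩ x
      ⟨mem_univ _, hx⟩).mono fun y hy => hy.2
  obtain ⟨r, hr, hr'⟩ := R1_push F hF hs
  refine ⟨r, hrange ▸ hr, fun y hy hb => ?_⟩
  rw [← hrange] at hy
  obtain ⟨x, rfl⟩ := hy
  rw [hr']
  rcases lt_or_ge x.2 (-2) with b1 | b1
  · exact hbot x b1
  rcases lt_or_ge ((w.length : ℝ) + 2) x.2 with b2 | b2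
  · exact htop x b2
  exfalso
  refine hb ?_
  rw [hval]
  have r1 := strand_re ok hp x.2
  have r2 := abs_le.1 (strand_im w p x.2)
  have r3 := abs_le.1 ((Complex.abs_re_le_norm x.1.1).trans x.1.2.2.le)
  have r4 := abs_le.1 ((Complex.abs_im_le_norm x.1.1).trans x.1.2.2.le)
  refine ⟨⟨?_, ?_⟩, ⟨?_, ?_⟩, b1, b2⟩ <;> simp only [Complex.add_re, Complex.add_im] <;>
    linarith [r1.1, r1.2, r2.1, r2.2, r3.1, r3.2, r4.1, r4.2]

end gauge

theorem exists_end (ok : Ok o w) :
    ∃ C : Set (ℂ × ℝ), IsCompact C ∧ knot w ⊆ C ∧ C ⊆ pattern o w ∧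
      ∀ (G : Type) [Group G] (φ φ' : PF (XX o w) G) (P P' : ℕ → G)
        (τp τm τp' τm' : XX o w → G), Reg φ P τp τm → Reg φ' P' τp' τm' → Capd w P → Capd w P' →
        (∀ j, 6 ≤ j → j ≤ 6 + o → P j = P' j ∧ reg w P w.length j = reg w P' w.length j) →
        (∀ p, 6 ≤ p → p < 6 + o → trP w P p w.length = trP w P' p w.length) →
        ∃ s, Par φ φ' {y | y.1 ∉ C} s := by
  refine ⟨R1B o w ∩ ⋂ p, ⋂ _ : 6 ≤ p ∧ p < 6 + o, {y | 1 / 16 ≤ ‖y.1 - strand w p y.2‖},
    R1B_compact.inter_right ?_, ?_, ?_, ?_⟩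
  · exact isClosed_iInter fun p => isClosed_iInter fun _ => isClosed_le continuous_const
      (continuous_fst.sub ((continuous_strand w p).comp continuous_snd)).norm
  · rintro ⟨z, t⟩ ⟨q, hq, h1, h2, h3⟩
    change z = strand w q t at h3
    change -1 ≤ t at h1
    change t ≤ w.length + 1 at h2
    subst h3
    have r1 := strand_re ok (show q < 6 + o by omega) t
    have r2 := abs_le.1 (strand_im w q t)
    refine ⟨⟨⟨?_, ?_⟩, ⟨?_, ?_⟩, ?_, ?_⟩, mem_iInter.2 fun p => mem_iInter.2 fun hp => ?_⟩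
    · change -1 ≤ (strand w q t).re
      linarith [r1.1]
    · change (strand w q t).re ≤ _
      linarith [r1.2]
    · change -1 ≤ (strand w q t).im
      linarith [r2.1]
    · change (strand w q t).im ≤ 1
      linarith [r2.2]
    · change -2 ≤ t
      linarith
    · change t ≤ _
      linarith
    · have := strand_sep ok (show p ≠ q by omega) (t := t) (Or.inl hp.1)
      change 1 / 16 ≤ ‖strand w q t - strand w p t‖
      rw [norm_sub_rev]
      linarith
  · rintro y ⟨-, hy⟩ p h6 hp h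
    have : 1 / 16 ≤ ‖y.1 - strand w p y.2‖ := mem_iInter.1 (mem_iInter.1 hy p) ⟨h6, hp⟩
    rw [h, sub_self, norm_zero] at this
    norm_num at this
  intro G _ φ φ' P P' τp τm τp' τm' h h' hP hP' hj htr
  obtain ⟨s0, h0, h1⟩ := R1_out ok h h' hP hP' hj
  choose st hst hst' using fun p : {p : ℕ // 6 ≤ p ∧ p < 6 + o} =>
    R1_tube ok h h' p.2.1 p.2.2 (htr p p.2.1 p.2.2) h0 h1
  obtain ⟨r, hr, -⟩ := R1_glue (φ := φ) (ψ := φ')
    (fun i : Option {p : ℕ // 6 ≤ p ∧ p < 6 + o} =>
      i.elim {y | y.1 ∉ R1B o w} fun p => R1T o w p.1)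
    (by
      rintro (_ | p)
      · exact R1B_closed.isOpen_compl.preimage continuous_subtype_val
      · exact R1T_open _)
    (fun i => i.elim s0 st)
    (by
      rintro (_ | p)
      · exact h0
      · exact hst p)
    (by
      rintro (_ | p) (_ | q) y a1 a2
      · rfl
      · exact (hst' q y a2 a1).symm
      · exact hst' p y a1 a2
      · by_cases hpq : p = q
        · rw [hpq]
        · exfalso
          have b := strand_sep ok (fun e => hpq (Subtype.ext e)) (t := y.1.2) (Or.inl p.2.1)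
          have b1 : ‖y.1.1 - strand w p y.1.2‖ < 1 / 16 := a1
          have b2 : ‖y.1.1 - strand w q y.1.2‖ < 1 / 16 := a2
          have b3 := norm_sub_le_norm_sub_add_norm_sub (strand w p y.1.2) y.1.1
            (strand w q y.1.2)
          rw [norm_sub_rev (strand w p y.1.2) y.1.1] at b3
          linarith)
  refine ⟨r, hr.mono fun y hy => ?_⟩
  by_cases hb : y.1 ∈ R1B o w
  · by_contra hn
    refine hy ⟨hb, mem_iInter.2 fun p => mem_iInter.2 fun hp => ?_⟩
    by_contra hlt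
    have hlt' : ‖y.1.1 - strand w p y.1.2‖ < 1 / 16 := lt_of_not_ge hlt
    exact hn (mem_iUnion.2 ⟨some ⟨p, hp⟩, hlt'⟩)
  · exact mem_iUnion.2 ⟨none, hb⟩

end Vale.Agent.N258
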