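import Vale.Agent.N258.S1

/-! Block S: the surgered space. -/

namespace Vale.Agent.N258

open Set Filter Topology
open Vale.Agent.P258.Braid (Word)
open Vale.Agent.P002Z

section generic

variable {A B : Type} {ρ : A → B → Prop} {R : A ⊕ B → A ⊕ B → Prop}

/-- the equivalence relation generated by a one-to-one relation -/
def S2_E (ρ : A → B → Prop) : A ⊕ B → A ⊕ B → Prop
  | Sum.inl x, Sum.inl x' => x = x'
  | Sum.inl x, Sum.inr y => ρ x y
  | Sum.inr y, Sum.inl x => ρ x y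
  | Sum.inr y, Sum.inr y' => y = y'

theorem S2_eq (hR : ∀ a b, R a b ↔ ∃ x y, a = Sum.inl x ∧ b = Sum.inr y ∧ ρ x y)
    (h1 : ∀ x x' y, ρ x y → ρ x' y → x = x') (h2 : ∀ x y y', ρ x y → ρ x y' → y = y')
    (a b : A ⊕ B) : Quot.mk R a = Quot.mk R b ↔ S2_E ρ a b := by
  constructor
  · intro h0
    have h := Quot.eqvGen_exact h0
    clear h0
    induction h with
    | rel a b h =>
      obtain ⟨x, y, rfl, rfl, h3⟩ := (hR a b).1 h
      exact h3
    | refl a => cases a <;> exact rfl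
    | symm a b h this =>
      rcases a with a | a <;> rcases b with b | b
      · exact Eq.symm this
      · exact this
      · exact this
      · exact Eq.symm this
    | trans a b c h h' e e' =>
      rcases a with a | a <;> rcases b with b | b <;> rcases c with c | c
      · exact Eq.trans e e'
      · exact (show a = b from e) ▸ e'
      · exact h1 _ _ _ e e'
      · exact (show b = c from e') ▸ e
      · exact (show b = c from e') ▸ e
      · exact h2 _ _ _ e e'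
      · exact (show a = b from e) ▸ e'
      · exact Eq.trans e e'
  · intro h
    rcases a with a | a <;> rcases b with b | b
    · exact congrArg (fun x => Quot.mk R (Sum.inl x)) h
    · exact Quot.sound ((hR _ _).2 ⟨a, b, rfl, rfl, h⟩)
    · exact (Quot.sound ((hR _ _).2 ⟨b, a, rfl, rfl, h⟩)).symm
    · exact congrArg (fun x => Quot.mk R (Sum.inr x)) h

variable [TopologicalSpace A] [TopologicalSpace B]

theorem S2_inl (hE : ∀ a b, Quot.mk R a = Quot.mk R b ↔ S2_E ρ a b)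
    (ho : ∀ U, IsOpen U → IsOpen {y | ∃ x ∈ U, ρ x y}) :
    IsOpenEmbedding fun x : A => Quot.mk R (Sum.inl x) := by
  refine IsOpenEmbedding.of_continuous_injective_isOpenMap
    (continuous_quot_mk.comp continuous_inl) (fun x x' h => (hE _ _).1 h) fun U hU => ?_
  rw [← isQuotientMap_quot_mk.isOpen_preimage, isOpen_sum_iff]
  constructor
  · convert hU using 1
    ext x
    exact ⟨fun ⟨x', h, e⟩ => (show x' = x from (hE _ _).1 e) ▸ h, fun h => ⟨x, h, rfl⟩⟩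
  · convert ho U hU using 1
    ext y
    exact ⟨fun ⟨x, h, e⟩ => ⟨x, h, (hE _ _).1 e⟩, fun ⟨x, h, e⟩ => ⟨x, h, (hE _ _).2 e⟩⟩

theorem S2_inr (hE : ∀ a b, Quot.mk R a = Quot.mk R b ↔ S2_E ρ a b)
    (ho : ∀ V, IsOpen V → IsOpen {x | ∃ y ∈ V, ρ x y}) :
    IsOpenEmbedding fun y : B => Quot.mk R (Sum.inr y) := by
  refine IsOpenEmbedding.of_continuous_injective_isOpenMap
    (continuous_quot_mk.comp continuous_inr) (fun x x' h => (hE _ _).1 h) fun U hU => ?_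
  rw [← isQuotientMap_quot_mk.isOpen_preimage, isOpen_sum_iff]
  constructor
  · convert ho U hU using 1
    ext y
    exact ⟨fun ⟨x, h, e⟩ => ⟨x, h, (hE _ _).1 e⟩, fun ⟨x, h, e⟩ => ⟨x, h, (hE _ _).2 e⟩⟩
  · convert hU using 1
    ext x
    exact ⟨fun ⟨x', h, e⟩ => (show x' = x from (hE _ _).1 e) ▸ h, fun h => ⟨x, h, rfl⟩⟩

end generic

theorem S2_norm {r : ℝ} (h : 0 < r) (u : Circle) : ‖(r : ℂ) * u‖ = r := by
  rw [norm_mul, Circle.norm_coe, mul_one, Complex.norm_real, Real.norm_of_nonneg h.le]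

theorem S2_polar {r r' : ℝ} (h : 0 < r) (h' : 0 < r') {u u' : Circle}
    (e : (r : ℂ) * u = (r' : ℂ) * u') : r = r' ∧ u = u' := by
  have e1 : r = r' := by rw [← S2_norm h u, e, S2_norm h']
  subst e1
  exact ⟨rfl, Circle.ext (mul_left_cancel₀ (Complex.ofReal_ne_zero.2 h.ne') e)⟩

/-- the gluing relation -/
def S2_rho (ν : Circle × ℂ → S3) (p : ℤ) (x : ↥(core ν)ᶜ) (y : Circle × ℂ) : Prop :=
  ∃ (u v : Circle) (r : ℝ), 0 < r ∧ y = (v, (r : ℂ) * u) ∧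
    x.1 = ν (u, (r : ℂ) * (u : ℂ) ^ p * v)

theorem S2_assoc (r : ℝ) (u v : Circle) (p : ℤ) :
    (r : ℂ) * (u : ℂ) ^ p * v = (r : ℂ) * (u ^ p * v : Circle) := by
  rw [Circle.coe_mul, Circle.coe_zpow, mul_assoc]

theorem fill_surgery {ν : Circle × ℂ → S3} (hν : IsOpenEmbedding ν) (p : ℤ) :
    ∃ (h : C(↥(core ν)ᶜ, Surgery ν p)) (ν' : Circle × ℂ → Surgery ν p), Fill h ν' ∧
      ∀ (x : ↥(core ν)ᶜ) (u v : Circle) (r : ℝ), 0 < r →
        x.1 = ν (u, (r : ℂ) * (u : ℂ) ^ p * v) → h x = ν' (v, (r : ℂ) * u) := by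
  have hE := S2_eq (ρ := S2_rho ν p)
    (R := fun a b : ↥(core ν)ᶜ ⊕ Circle × ℂ => ∃ (x : ↥(core ν)ᶜ) (u v : Circle) (r : ℝ),
      0 < r ∧ a = Sum.inl x ∧ b = Sum.inr (v, (r : ℂ) * u) ∧
        x.1 = ν (u, (r : ℂ) * (u : ℂ) ^ p * v))
    (fun a b => ⟨fun ⟨x, u, v, r, h0, h1, h2, h3⟩ => ⟨x, _, h1, h2, u, v, r, h0, rfl, h3⟩,
      fun ⟨x, y, h1, h2, u, v, r, h0, h3, h4⟩ => ⟨x, u, v, r, h0, h1, h3 ▸ h2, h4⟩⟩)
    (by
      rintro x x' y ⟨u, v, r, h0, rfl, h1⟩ ⟨u', v', r', h0', h2, h3⟩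
      obtain ⟨rfl, h4⟩ := Prod.mk.inj h2
      obtain ⟨rfl, rfl⟩ := S2_polar h0 h0' h4
      exact Subtype.ext (h1.trans h3.symm))
    (by
      rintro x y y' ⟨u, v, r, h0, rfl, h1⟩ ⟨u', v', r', h0', rfl, h3⟩
      obtain ⟨rfl, h4⟩ := Prod.mk.inj (hν.injective (h1.symm.trans h3))
      rw [S2_assoc, S2_assoc] at h4
      obtain ⟨rfl, h5⟩ := S2_polar h0 h0' h4
      rw [mul_left_cancel h5])
  obtain ⟨a, ha⟩ := exists_argC (Ioi 0) Subset.rfl
  have hT : IsOpenMap (Subtype.val : TJ (Ioi 0) → Circle × ℂ) :=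
    (isOpen_Ioi.preimage (continuous_norm.comp continuous_snd)).isOpenMap_subtype_val
  have harg : ∀ (v u : Circle) (r : ℝ) (h0 : 0 < r) (h : ‖(r : ℂ) * u‖ ∈ Ioi (0 : ℝ)),
      a ⟨(v, (r : ℂ) * u), h⟩ = u := by
    intro v u r h0 h
    exact (S2_polar h0 h (ha ⟨(v, (r : ℂ) * u), h⟩)).2.symm
  have hA := isOpen_compl_core hν
  have hnc : ∀ (u : Circle) (z : ℂ), z ≠ 0 → ν (u, z) ∈ (core ν)ᶜ := by
    rintro u z hz ⟨u', h⟩
    exact hz (Prod.mk.inj (hν.injective h)).2.symm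
  have hne : ∀ (r : ℝ) (u : Circle), 0 < r → (r : ℂ) * u ≠ 0 := fun r u h =>
    mul_ne_zero (Complex.ofReal_ne_zero.2 h.ne') u.coe_ne_zero
  have c1 : Continuous fun x : TJ (Ioi 0) => x.1.1 := continuous_subtype_val.fst
  have cn : Continuous fun x : TJ (Ioi 0) => (‖x.1.2‖ : ℂ) :=
    Complex.continuous_ofReal.comp continuous_subtype_val.snd.norm
  have e1 := S2_inl hE fun U hU => by
    let g : TJ (Ioi 0) → Circle × ℂ := fun x =>
      (a x, (‖x.1.2‖ : ℂ) * (a x ^ p * x.1.1 : Circle))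
    have hg : Continuous g := a.continuous.prodMk (cn.mul
      (continuous_subtype_val.comp ((a.continuous.zpow p).mul c1)))
    convert hT _ (((hA.isOpenMap_subtype_val U hU).preimage hν.continuous).preimage hg) using 1
    ext y
    constructor
    · rintro ⟨x, hx, u, v, r, h0, rfl, h1⟩
      have h : ‖(r : ℂ) * u‖ ∈ Ioi (0 : ℝ) := by rwa [S2_norm h0]
      refine ⟨⟨(v, (r : ℂ) * u), h⟩, ⟨x, hx, ?_⟩, rfl⟩
      simp only [g, harg v u r h0 h, S2_norm h0, h1, S2_assoc]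
    · rintro ⟨y, ⟨x, hx, h1⟩, rfl⟩
      refine ⟨x, hx, a y, y.1.1, ‖y.1.2‖, y.2, Prod.ext rfl (ha y), ?_⟩
      rw [h1, S2_assoc]
  have e2 := S2_inr hE fun V hV => by
    let g : TJ (Ioi 0) → Circle × ℂ := fun x =>
      ((x.1.1 ^ p)⁻¹ * a x, (‖x.1.2‖ : ℂ) * x.1.1)
    have hg : Continuous g := ((c1.zpow p).inv.mul a.continuous).prodMk
      (cn.mul (continuous_subtype_val.comp c1))
    convert (hν.isOpenMap _ (hT _ (hV.preimage hg))).preimage
      (continuous_subtype_val (p := fun z => z ∈ (core ν)ᶜ)) using 1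
    ext x
    constructor
    · rintro ⟨y, hy, u, v, r, h0, rfl, h1⟩
      rw [S2_assoc] at h1
      have h : ‖(r : ℂ) * (u ^ p * v : Circle)‖ ∈ Ioi (0 : ℝ) := by rwa [S2_norm h0]
      refine ⟨_, ⟨⟨(u, (r : ℂ) * (u ^ p * v : Circle)), h⟩, ?_, rfl⟩, h1.symm⟩
      simpa only [g, mem_preimage, harg u _ r h0 h, S2_norm h0, inv_mul_cancel_left] using hy
    · rintro ⟨_, ⟨y, hy, rfl⟩, h1⟩
      refine ⟨_, hy, y.1.1, (y.1.1 ^ p)⁻¹ * a y, ‖y.1.2‖, y.2, rfl, ?_⟩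
      rw [S2_assoc, mul_inv_cancel_left, ← ha y, ← h1]
  refine ⟨⟨_, e1.continuous⟩, _, ⟨Nice.of_isOpenEmbedding hA.isOpenEmbedding_subtypeVal nice_S3,
    e1, e2, ?_⟩, fun x u v r h0 h1 => (hE _ _).2 ⟨u, v, r, h0, rfl, h1⟩⟩
  ext z
  constructor
  · rintro ⟨x, rfl⟩ ⟨u', h⟩
    obtain ⟨u, v, r, h0, h1, -⟩ := (hE _ _).1 h
    exact hne r u h0 (Prod.mk.inj h1).2.symm
  · intro hz
    obtain ⟨x | ⟨v, z⟩, rfl⟩ := Quot.mk_surjective z
    · exact ⟨x, rfl⟩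
    · have h : ‖z‖ ∈ Ioi (0 : ℝ) := norm_pos_iff.2 (by
        rintro rfl
        exact hz ⟨v, rfl⟩)
      refine ⟨⟨ν (a ⟨(v, z), h⟩, (‖z‖ : ℂ) * (a ⟨(v, z), h⟩ ^ p * v : Circle)),
        hnc _ _ (hne _ _ h)⟩, (hE _ _).2 ⟨a ⟨(v, z), h⟩, v, ‖z‖, h,
          Prod.ext rfl (ha ⟨(v, z), h⟩), ?_⟩⟩
      rw [S2_assoc]

/-- the number of homomorphisms of the group of the surgery -/
theorem card_surgery {ν : Circle × ℂ → S3} (hν : IsOpenEmbedding ν) (p : ℤ) {a : ↥(core ν)ᶜ}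
    (sl : Path a a) (hsl : ∀ t, (sl t).1 = ν (ex t, (ex t : ℂ) ^ p)) (a0 : ↥(core ν)ᶜ)
    (σ : Path a0 a) (z : Surgery ν p) (G : Type) [Group G] :
    Nat.card (FundamentalGroup (Surgery ν p) z →* G) =
      Nat.card {f : FundamentalGroup (↥(core ν)ᶜ) a0 →* G // f (conjLoop σ sl) = 1} := by
  obtain ⟨h, ν', F, hF⟩ := fill_surgery hν p
  have := pathConnected_compl hν
  have := F.pathConnected
  rw [← F.card sl (fun t => ?_) a0 σ G]
  · exact Nat.card_congr (MulEquiv.monoidHomCongrLeftEquiv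
      (FundamentalGroup.fundamentalGroupMulEquivOfPathConnected z (h a0)))
  · simpa using hF (sl t) (ex t) 1 1 one_pos (by simpa using hsl t)

end Vale.Agent.N258
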