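import Vale.Agent.N258.W2

/-! Block W3: uniqueness. -/

namespace Vale.Agent.N258

open Set Filter Topology
open Vale.Agent.P258.Braid (Word)
open Vale.Agent.P002Z

variable {o : ℕ} {w : Word} {G : Type} [Group G]

/-- sample points in the box of a crossing -/
theorem w3_sample (ok : Ok o w) {k : ℕ} {x : ℕ × Bool} (h : w[k]? = some x) {r s : ℝ}
    (r0 : 0 < r) (r1 : r < 1) (s0 : 0 < s) (s1 : s < 1) :
    ∃ y ∈ Vb o w k, y.1.1.re = x.1 + r ∧ y.1.2 - k = s := by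
  have h1 : (x.1 : ℝ) < ((((x.1 + r : ℝ) : ℂ), (k + s : ℝ)) : ℂ × ℝ).1.re := by
    simp only [Complex.ofReal_re]; linarith
  have h2 : ((((x.1 + r : ℝ) : ℂ), (k + s : ℝ)) : ℂ × ℝ).1.re < x.1 + 1 := by
    simp only [Complex.ofReal_re]; linarith
  have h3 : |((((x.1 + r : ℝ) : ℂ), (k + s : ℝ)) : ℂ × ℝ).1.im| <
      (((((x.1 + r : ℝ) : ℂ), (k + s : ℝ)) : ℂ × ℝ).2 - k) *
        (1 - (((((x.1 + r : ℝ) : ℂ), (k + s : ℝ)) : ℂ × ℝ).2 - k)) := by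
    simp only [Complex.ofReal_im, abs_zero, add_sub_cancel_left]
    exact mul_pos s0 (by linarith)
  exact ⟨⟨_, box_not_mem ok h h1 h2 h3⟩, ⟨x, h, h1, h2, h3⟩, Complex.ofReal_re _,
    add_sub_cancel_left _ _⟩

theorem w3_box (ok : Ok o w) {φ φ' : PF (XX o w) G} {τp τm τp' τm' : XX o w → G}
    (hp : φ.Pot (Up o w 1) τp) (hm : φ.Pot (Up o w (-1)) τm)
    (hp' : φ'.Pot (Up o w 1) τp') (hm' : φ'.Pot (Up o w (-1)) τm')
    (e : ∀ y ∈ Up o w 1 ∩ Up o w (-1), τm y * (τp y)⁻¹ = τm' y * (τp' y)⁻¹) (k : ℕ) :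
    ∃ s, Par φ φ' (Vb o w k) s ∧ (∀ y ∈ Vb o w k, y ∈ Up o w 1 → s y = (τp y)⁻¹ * τp' y) ∧
      ∀ y ∈ Vb o w k, y ∈ Up o w (-1) → s y = (τm y)⁻¹ * τm' y := by
  rcases hk : w[k]? with _ | x
  · have hno : ∀ y, y ∉ Vb o w k := by
      rintro y ⟨x, hx, -⟩
      rw [hk] at hx
      cases hx
    exact ⟨fun _ => 1, fun x y p hp => absurd (hp 0) (hno _), fun y hy => absurd hy (hno _),
      fun y hy => absurd hy (hno _)⟩
  obtain ⟨τ, aL, aR, bL, bR, hτ, H⟩ := box_pot ok hp hm hk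
  obtain ⟨τ', aL', aR', bL', bR', hτ', H'⟩ := box_pot ok hp' hm' hk
  have key : ∀ y ∈ Vb o w k, y.1.1.re ≠ ov x 1 (y.1.2 - k) → y.1.1.re ≠ ov x (-1) (y.1.2 - k) →
      ∀ a b a' b', τ y = a * τp y → τ y = b * τm y → τ' y = a' * τp' y → τ' y = b' * τm' y →
      b⁻¹ * a = b'⁻¹ * a' := by
    intro y hy h1 h2 a b a' b' e1 e2 e3 e4
    have h3 := e y ⟨(vb_mem_up ok hk (Or.inl rfl) hy).2 h1, (vb_mem_up ok hk (Or.inr rfl) hy).2 h2⟩
    calc b⁻¹ * a = b⁻¹ * (a * τp y) * (τp y)⁻¹ := by group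
      _ = τm y * (τp y)⁻¹ := by rw [← e1, e2]; group
      _ = b'⁻¹ * (b' * τm' y) * (τp' y)⁻¹ := by rw [h3]; group
      _ = _ := by rw [← e4, e3]; group
  have kLL : bL⁻¹ * aL = bL'⁻¹ * aL' := by
    obtain ⟨y, hy, h1, h2⟩ := w3_sample ok hk (r := 1 / 4) (s := 1 / 2) (by norm_num)
      (by norm_num) (by norm_num) (by norm_num)
    have l1 : y.1.1.re < ov x 1 (y.1.2 - k) := by rw [h1, h2, ov]; linarith
    have l2 : y.1.1.re < ov x (-1) (y.1.2 - k) := by rw [h1, h2, ov]; linarith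
    exact key y hy l1.ne l2.ne _ _ _ _ ((H y hy).1 l1) ((H y hy).2.2.1 l2) ((H' y hy).1 l1)
      ((H' y hy).2.2.1 l2)
  have kRR : bR⁻¹ * aR = bR'⁻¹ * aR' := by
    obtain ⟨y, hy, h1, h2⟩ := w3_sample ok hk (r := 3 / 4) (s := 1 / 2) (by norm_num)
      (by norm_num) (by norm_num) (by norm_num)
    have l1 : ov x 1 (y.1.2 - k) < y.1.1.re := by rw [h1, h2, ov]; linarith
    have l2 : ov x (-1) (y.1.2 - k) < y.1.1.re := by rw [h1, h2, ov]; linarith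
    exact key y hy l1.ne' l2.ne' _ _ _ _ ((H y hy).2.1 l1) ((H y hy).2.2.2 l2) ((H' y hy).2.1 l1)
      ((H' y hy).2.2.2 l2)
  have kLR : bR⁻¹ * aL = bR'⁻¹ * aL' := by
    have hs : sg x.2 = 1 ∨ sg x.2 = -1 := by cases x.2 <;> simp [sg]
    obtain ⟨y, hy, h1, h2⟩ := w3_sample ok hk (r := 1 / 2) (s := 1 / 2 + sg x.2 / 4) (by norm_num)
      (by norm_num) (by rcases hs with hs | hs <;> rw [hs] <;> norm_num)
      (by rcases hs with hs | hs <;> rw [hs] <;> norm_num)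
    have l1 : y.1.1.re < ov x 1 (y.1.2 - k) := by
      rw [h1, h2, ov]
      rcases hs with hs | hs <;> rw [hs] <;> linarith
    have l2 : ov x (-1) (y.1.2 - k) < y.1.1.re := by
      rw [h1, h2, ov]
      rcases hs with hs | hs <;> rw [hs] <;> linarith
    exact key y hy l1.ne l2.ne' _ _ _ _ ((H y hy).1 l1) ((H y hy).2.2.2 l2) ((H' y hy).1 l1)
      ((H' y hy).2.2.2 l2)
  have kR : aR⁻¹ * aL = aR'⁻¹ * aL' := by
    calc aR⁻¹ * aL = (bR⁻¹ * aR)⁻¹ * (bR⁻¹ * aL) := by group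
      _ = _ := by rw [kRR, kLR]; group
  have fin : ∀ (a a' u u' v v' : G), a⁻¹ * aL = a'⁻¹ * aL' → v = a * u → v' = a' * u' →
      v⁻¹ * (aL * aL'⁻¹ * v') = u⁻¹ * u' := by
    rintro a a' u u' v v' h1 rfl rfl
    calc (a * u)⁻¹ * (aL * aL'⁻¹ * (a' * u')) = u⁻¹ * (a⁻¹ * aL) * aL'⁻¹ * a' * u' := by group
      _ = _ := by rw [h1]; group
  refine ⟨fun y => (τ y)⁻¹ * (aL * aL'⁻¹ * τ' y), par_of_pot hτ (pot_mul_left hτ' _),
    fun y hy hu => ?_, fun y hy hu => ?_⟩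
  · rcases ((vb_mem_up ok hk (Or.inl rfl) hy).1 hu).lt_or_gt with l | l
    · exact fin aL aL' _ _ _ _ (by group) ((H y hy).1 l) ((H' y hy).1 l)
    · exact fin aR aR' _ _ _ _ kR ((H y hy).2.1 l) ((H' y hy).2.1 l)
  · rcases ((vb_mem_up ok hk (Or.inr rfl) hy).1 hu).lt_or_gt with l | l
    · exact fin bL bL' _ _ _ _ kLL ((H y hy).2.2.1 l) ((H' y hy).2.2.1 l)
    · exact fin bR bR' _ _ _ _ kLR ((H y hy).2.2.2 l) ((H' y hy).2.2.2 l)

theorem par_of_reg (ok : Ok o w) {φ φ' : PF (XX o w) G} {P P' : ℕ → G}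
    {τp τm τp' τm' : XX o w → G} (h : Reg φ P τp τm) (h' : Reg φ' P' τp' τm')
    (e : ∀ j ≤ 6 + o, P j = P' j) :
    ∃ s, Par φ φ' univ s ∧ ∀ y ∈ Up o w 1, s y = (τp y)⁻¹ * τp' y := by
  classical
  have e1 : ∀ y ∈ Up o w 1 ∩ Up o w (-1), τm y * (τp y)⁻¹ = τm' y * (τp' y)⁻¹ := by
    intro y hy
    rw [h.lab y hy, h'.lab y hy, reg_congr ok.rng e _ _ (idx_le o w y.1)]
    group
  choose sb hs1 hs2 hs3 using w3_box ok h.up h.dn h'.up h'.dn e1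
  let s : XX o w → G := fun y =>
    if hy : ∃ k, y ∈ Vb o w k then sb hy.choose y
    else if y ∈ Up o w 1 then (τp y)⁻¹ * τp' y else (τm y)⁻¹ * τm' y
  have s1 : ∀ k, ∀ y ∈ Vb o w k, s y = sb k y := by
    intro k y hy
    have hy' : ∃ k, y ∈ Vb o w k := ⟨k, hy⟩
    simp only [s, dif_pos hy']
    rw [vb_disjoint hy'.choose_spec hy]
  have s2 : ∀ y ∈ Up o w 1, s y = (τp y)⁻¹ * τp' y := by
    intro y hy
    by_cases hy' : ∃ k, y ∈ Vb o w k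
    · obtain ⟨k, hk⟩ := hy'
      rw [s1 k y hk, hs2 k y hk hy]
    · simp only [s, dif_neg hy', if_pos hy]
  have s3 : ∀ y ∈ Up o w (-1), s y = (τm y)⁻¹ * τm' y := by
    intro y hy
    by_cases hy' : ∃ k, y ∈ Vb o w k
    · obtain ⟨k, hk⟩ := hy'
      rw [s1 k y hk, hs3 k y hk hy]
    · by_cases hu : y ∈ Up o w 1
      · rw [s2 y hu]
        calc (τp y)⁻¹ * τp' y = (τm y)⁻¹ * (τm y * (τp y)⁻¹) * τp' y := by group
          _ = _ := by rw [e1 y ⟨hu, hy⟩]; group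
      · simp only [s, dif_neg hy', if_neg hu]
  let U : Option (Option ℕ) → Set (XX o w) := fun i =>
    match i with
    | none => Up o w 1
    | some none => Up o w (-1)
    | some (some k) => Vb o w k
  refine ⟨s, Par.glue U ?_ ?_ ?_, s2⟩
  · rintro (_ | _ | k)
    · exact isOpen_up o w (Or.inl rfl)
    · exact isOpen_up o w (Or.inr rfl)
    · exact isOpen_vb o w k
  · intro y _
    rcases cover ok y with hy | hy | ⟨k, hy⟩
    · exact mem_iUnion.2 ⟨none, hy⟩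
    · exact mem_iUnion.2 ⟨some none, hy⟩
    · exact mem_iUnion.2 ⟨some (some k), hy⟩
  · rintro (_ | _ | k)
    · exact ((par_of_pot h.up h'.up).congr s2).mono inter_subset_right
    · exact ((par_of_pot h.dn h'.dn).congr s3).mono inter_subset_right
    · exact ((hs1 k).congr (s1 k)).mono inter_subset_right

theorem lab_unique (ok : Ok o w) {φ φ' : PF (XX o w) G} {P P' : ℕ → G} {x0 : XX o w}
    (hx : x0 ∈ Up o w 1) (h : HasReg φ x0 P) (h' : HasReg φ' x0 P') (h0 : P 0 = 1)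
    (h0' : P' 0 = 1) (e : φ.toHom x0 = φ'.toHom x0) : ∀ j ≤ 6 + o, P j = P' j := by
  obtain ⟨τp, τm, h, hτ⟩ := h
  obtain ⟨τp', τm', h', hτ'⟩ := h'
  have := pathConnected_XX ok
  obtain ⟨s, hs0, hs⟩ := par_of_toHom e
  have hp := pot_of_par h.up (hs.mono (subset_univ _))
  have hm := pot_of_par h.dn (hs.mono (subset_univ _))
  have e1 : ∀ y ∈ Up o w 1, τp' y = τp y * s y := by
    intro y hy
    have h1 := pot_ratio hp h'.up (x := x0) (y := y)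
      (by rw [inter_self]; exact joined_up (Or.inl rfl) hx hy)
    rw [hτ, hτ', hs0, mul_one, mul_inv_cancel] at h1
    exact mul_inv_eq_one.1 h1
  have e2 : ∀ j ≤ 6 + o, ∃ r ∈ Up o w (-1), τm' r * (τm r * s r)⁻¹ = P' j * (P j)⁻¹ := by
    intro j hj
    obtain ⟨r, hr, hu⟩ := exists_ref ok (k := 0) (Nat.zero_le _) j
    have q1 : (j : ℝ) - 1 < r.1.1.re := by rw [hr, Complex.ofReal_re]; linarith
    have q2 : r.1.1.re < j := by rw [hr, Complex.ofReal_re]; linarith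
    have q3 : r.1.2 = (0 : ℕ) := by rw [hr]
    have l1 := QQ_ref ok P (Nat.zero_le _) hj q1 q2 q3
    have l2 := QQ_ref ok P' (Nat.zero_le _) hj q1 q2 q3
    rw [QQ, reg_zero] at l1 l2
    refine ⟨r, hu.2, ?_⟩
    rw [h.lab r hu, h'.lab r hu, l1, l2, e1 r hu.1]
    group
  intro j hj
  obtain ⟨r0, hr0, f0⟩ := e2 0 (Nat.zero_le _)
  obtain ⟨r, hr, f⟩ := e2 j hj
  have h1 := pot_ratio hm h'.dn (x := r0) (y := r)
    (by rw [inter_self]; exact joined_up (Or.inr rfl) hr0 hr)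
  rw [f, f0, h0, h0', mul_inv_cancel] at h1
  exact (mul_inv_eq_one.1 h1).symm

theorem hasReg_congr (ok : Ok o w) {φ : PF (XX o w) G} {P P' : ℕ → G} {x0 : XX o w}
    (h : HasReg φ x0 P) (e : ∀ j ≤ 6 + o, P j = P' j) : HasReg φ x0 P' := by
  obtain ⟨τp, τm, h, hτ⟩ := h
  refine ⟨τp, τm, ⟨h.up, h.dn, fun y hy => ?_⟩, hτ⟩
  rw [h.lab y hy, reg_congr ok.rng e _ _ (idx_le o w y.1)]

theorem hasReg_of_eq {φ φ' : PF (XX o w) G} {P : ℕ → G} {x0 : XX o w}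
    (h : HasReg φ x0 P) (e : ∀ x y (p : Path x y), φ'.v p = φ.v p) : HasReg φ' x0 P := by
  obtain ⟨τp, τm, h, hτ⟩ := h
  exact ⟨τp, τm, ⟨fun x y p hp => (e x y p).trans (h.up x y p hp),
    fun x y p hp => (e x y p).trans (h.dn x y p hp), h.lab⟩, hτ⟩

end Vale.Agent.N258
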