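import Vale.Agent.N258.P2
import Vale.Agent.N258.R1
import Vale.Agent.N258.W3
import Vale.Agent.N258.S

/-! Re-embedding: functions of paths on the complement of the knot and flat labellings. -/

namespace Vale.Agent.N258

open Set Filter Topology
open Vale.Agent.P258.Braid (Word)
open Vale.Agent.P002Z

variable {o : ℕ} {w : Word} {ν : Circle × ℂ → S3} {e : ↥(pattern o w) → S3}
  {eX : C(XX o w, ↥(core ν)ᶜ)} {G : Type} [Group G]

theorem xx_mem_pattern (y : XX o w) : y.1 ∈ pattern o w := by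
  by_contra h
  exact y.2 ((link_eq o w).ge (Or.inr h))

theorem Emb.isOpenEmbedding (E : Emb o w ν e eX) : IsOpenEmbedding eX := by
  have h1 : IsOpenEmbedding (inclusion (fun y (hy : y ∈ (link o w)ᶜ) =>
      xx_mem_pattern ⟨y, hy⟩) : XX o w → ↥(pattern o w)) :=
    IsOpenEmbedding.inclusion _ ((isClosed_link o w).isOpen_compl.preimage continuous_subtype_val)
  have h2 := E.he.comp h1
  have h3 : Subtype.val ∘ eX = e ∘ inclusion (fun y (hy : y ∈ (link o w)ᶜ) =>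
      xx_mem_pattern ⟨y, hy⟩) := funext fun y => E.heX y _
  rw [← h3] at h2
  exact IsOpenEmbedding.of_comp _ (isOpen_compl_core E.hν).isOpenEmbedding_subtypeVal h2

/-- the part of the complement of the knot outside the image of `C` -/
def Out (ν : Circle × ℂ → S3) (e : ↥(pattern o w) → S3) (C : Set (ℂ × ℝ)) : Set ↥(core ν)ᶜ :=
  {z | z.1 ∉ e '' (Subtype.val ⁻¹' C)}

variable {C : Set (ℂ × ℝ)}

theorem isOpen_out (E : Emb o w ν e eX) (hC : IsCompact C) (h2 : C ⊆ pattern o w) :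
    IsOpen (Out ν e C) := by
  have h1 : IsCompact (Subtype.val ⁻¹' C : Set ↥(pattern o w)) := by
    rw [Subtype.isCompact_iff, Subtype.image_preimage_coe, inter_eq_right.2 h2]
    exact hC
  exact (h1.image E.he.continuous).isClosed.isOpen_compl.preimage continuous_subtype_val

theorem mem_out (E : Emb o w ν e eX) (y : XX o w) : eX y ∈ Out ν e C ↔ y.1 ∉ C := by
  change (eX y).1 ∉ _ ↔ _
  rw [E.heX y (xx_mem_pattern y), E.he.injective.mem_set_image]
  rfl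

theorem cover_out (E : Emb o w ν e eX) (z : ↥(core ν)ᶜ) : z ∈ range eX ∨ z ∈ Out ν e C := by
  by_cases h : z ∈ Out ν e C
  · exact Or.inr h
  · left
    obtain ⟨c, -, hc⟩ : z.1 ∈ e '' (Subtype.val ⁻¹' C) := not_not.1 h
    have h1 : c.1 ∉ link o w := by
      rw [link_eq]
      rintro (h | h)
      · exact z.2 (E.hcore.ge ⟨c, h, hc⟩)
      · exact h c.2
    exact ⟨⟨c.1, h1⟩, Subtype.ext ((E.heX ⟨c.1, h1⟩ c.2).trans hc)⟩

theorem nice_compl (hν : IsOpenEmbedding ν) : Nice ↥(core ν)ᶜ := (fill_S3 hν).nice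

/-- gluing along the end -/
theorem glue_out (E : Emb o w ν e eX) (hC : IsCompact C) (h2 : C ⊆ pattern o w)
    (β : PF (↥(core ν)ᶜ) G) (φ : PF (XX o w) G) (s : XX o w → G)
    (hs : ∀ x y (p : Path x y), (∀ t, (p t).1 ∉ C) → φ.v p = (s y)⁻¹ * (β.comap eX).v p * s x) :
    ∃ (γ : PF (↥(core ν)ᶜ) G) (u : ↥(core ν)ᶜ → G),
      (∀ x y (p : Path x y), (γ.comap eX).v p = φ.v p) ∧ Par γ β (Out ν e C) u ∧
      ∀ y, y.1 ∉ C → u (eX y) * s y = 1 := by
  classical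
  have hO := isOpen_out E hC h2
  let j : C(↥(Out ν e C), ↥(core ν)ᶜ) := ⟨Subtype.val, continuous_subtype_val⟩
  obtain ⟨γ, u, h1, h3, h4⟩ := glue (nice_XX o w)
    (Nice.of_isOpenEmbedding hO.isOpenEmbedding_subtypeVal (nice_compl E.hν)) eX j
    E.isOpenEmbedding hO.isOpenEmbedding_subtypeVal
    (fun z => (cover_out (C := C) E z).imp id fun h => ⟨⟨z, h⟩, rfl⟩) φ (β.comap j) s (by
      intro x1 y1 p1 x2 y2 p2 h
      rw [hs x1 y1 p1 fun t => (mem_out E _).1 (by rw [h t]; exact (p2 t).2)]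
      congr 2
      exact β.congr h)
  refine ⟨γ, fun z => if h : z ∈ Out ν e C then u ⟨z, h⟩ else 1, h1, ?_, ?_⟩
  · intro x y p hp
    have hx : x ∈ Out ν e C := p.source ▸ hp 0
    have hy : y ∈ Out ν e C := p.target ▸ hp 1
    let q : Path (⟨x, hx⟩ : ↥(Out ν e C)) ⟨y, hy⟩ :=
      { toFun := fun t => ⟨p t, hp t⟩
        continuous_toFun := p.continuous.subtype_mk _
        source' := Subtype.ext p.source
        target' := Subtype.ext p.target }
    have h5 := h3 _ _ q fun _ => mem_univ _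
    simp only [hx, hy, dif_pos]
    rw [← β.congr (p := q.map j.continuous) (q := p) fun _ => rfl,
      ← γ.congr (p := q.map j.continuous) (q := p) fun _ => rfl]
    exact h5
  · intro y hy
    have := (mem_out E y).2 hy
    simp only [this, dif_pos]
    exact h4 y ⟨_, this⟩ rfl

/-- the use of the simple connectivity of the sphere -/
theorem outside (E : Emb o w ν e eX)
    (hZ : ∃ P : ℕ → Multiplicative ℤ, Capd w P ∧ P 1 = Multiplicative.ofAdd 1)
    (hC : IsCompact C) (h2 : C ⊆ pattern o w) (β : PF (↥(core ν)ᶜ) G) (φ : PF (XX o w) G)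
    (s : XX o w → G) (hs : Par (β.comap eX) φ {y | y.1 ∉ C} s) {x0 : XX o w} {P : ℕ → G}
    (hP : Capd w P) (h : HasReg φ x0 P) (h1 : P 1 = 1) :
    ∃ (ωX : XX o w → G) (ωY : ↥(core ν)ᶜ → G), φ.Pot univ ωX ∧ β.Pot (Out ν e C) ωY ∧
      ∀ y, y.1 ∉ C → ωX y = ωY (eX y) * s y := by
  obtain ⟨γ, u, g1, g2, g3⟩ := glue_out E hC h2 β φ s hs
  obtain ⟨a, mu, lam, sl, hmu, hlam, -, -⟩ := exists_loops E.hν 0
  obtain ⟨i, d, k, hi, -, hper⟩ := peripheral E hZ mu lam hmu hlam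
  obtain ⟨g, hg, -⟩ := hper G γ P x0 hP (hasReg_of_eq h g1)
  have hmu1 : γ.v mu = 1 := by
    rw [h1, inv_one] at hg
    have h5 : γ.v mu ^ i = 1 := by
      calc γ.v mu ^ i = g * (g⁻¹ * γ.v mu ^ i * g) * g⁻¹ := by group
        _ = 1 := by rw [← hg]; group
    rcases hi with rfl | rfl
    · simpa using h5
    · simpa using h5
  obtain ⟨Γ, hΓ⟩ := (fill_S3 E.hν).ext mu hmu γ hmu1
  have := simplyConnected_S3
  obtain ⟨Ω, hΩ⟩ := exists_pot_univ Γ
  have hω : γ.Pot univ fun z => Ω z.1 := fun x y p _ => by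
    rw [← hΓ]
    exact hΩ _ _ _ fun _ => mem_univ _
  refine ⟨fun y => Ω (eX y).1, fun z => Ω z.1 * u z, fun x y p _ => ?_,
    pot_of_par (pot_mono hω (subset_univ _)) g2, fun y hy => ?_⟩
  · rw [← g1]
    exact hω _ _ _ fun _ => mem_univ _
  · rw [mul_assoc, g3 y hy, mul_one]

theorem capd_zero {P : ℕ → G} (h : Capd w P) : P 0 = 1 := (h 0 (by omega)).1

theorem capd_one (w : Word) : Capd w fun _ => (1 : G) := fun _ _ => ⟨rfl, reg_one _ _ _⟩

theorem toHom_eq_of_pot {X : Type} [TopologicalSpace X] {φ : PF X G} {τ : X → G}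
    (h : φ.Pot univ τ) (x0 : X) : φ.toHom x0 = (triv X G).toHom x0 := by
  refine MonoidHom.ext fun a => ?_
  obtain ⟨p, rfl⟩ := Path.Homotopic.Quotient.mk_surjective a
  rw [PF.toHom_mk, PF.toHom_mk, h _ _ p fun _ => mem_univ _, inv_mul_cancel]
  rfl

/-- every function of paths on the complement of the knot has a flat labelling -/
theorem exists_flat (E : Emb o w ν e eX)
    (hZ : ∃ P : ℕ → Multiplicative ℤ, Capd w P ∧ P 1 = Multiplicative.ofAdd 1)
    (hS : Split o w G) {x0 : XX o w} (hx : x0 ∈ Up o w 1) (β : PF (↥(core ν)ᶜ) G) :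
    ∃ P, Capd w P ∧ Flat o P ∧ HasReg (β.comap eX) x0 P := by
  obtain ⟨P, hP, h⟩ := exists_lab E.ok (β.comap eX) x0
  let P' : ℕ → G := fun j => if j ≤ 6 then 1 else P j
  have hP'1 : ∀ j ≤ 6, P' j = 1 := fun j hj => if_pos hj
  have hP'2 : ∀ j, 6 ≤ j → P j = P' j := by
    intro j hj
    by_cases h6 : j ≤ 6
    · obtain rfl : j = 6 := by omega
      rw [hP'1 6 le_rfl]
      exact (hP 3 le_rfl).1
    · exact (if_neg h6).symm
  obtain ⟨s1, s2, s3⟩ := hS P (capd_zero hP)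
  obtain ⟨t1, t2, t3⟩ := hS P' (hP'1 0 (by omega))
  have hP' : Capd w P' := fun j hj => ⟨hP'1 _ (by omega), t3 hP'1 _ (by omega)⟩
  obtain ⟨φ', h'⟩ := exists_hasReg E.ok hP' x0
  obtain ⟨C, c1, c2, c3, c4⟩ := exists_end E.ok
  obtain ⟨τp, τm, hr, hτ⟩ := h
  obtain ⟨τp', τm', hr', hτ'⟩ := h'
  obtain ⟨s, hs⟩ := c4 G _ _ P P' _ _ _ _ hr hr' hP hP'
    (fun j h1 h2 => ⟨hP'2 j h1, by rw [s1 j h1 h2, t1 j h1 h2, hP'2 j h1]⟩)
    (fun p h1 h2 => by rw [s2 p h1 h2, t2 p h1 h2])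
  obtain ⟨ωX, -, hω, -⟩ := outside E hZ c1 c3 β φ' s hs hP' ⟨τp', τm', hr', hτ'⟩
    (hP'1 1 (by omega))
  have key := lab_unique E.ok hx ⟨τp', τm', hr', hτ'⟩ (hasReg_triv x0) (capd_zero hP') rfl
    (toHom_eq_of_pot hω x0)
  exact ⟨P, hP, fun j h1 h2 => (hP'2 j h1).trans (key j h2), τp, τm, hr, hτ⟩

/-- the gauge at the end between a flat function and the trivial one -/
theorem end_flat (ok : Ok o w) (hS : Split o w G) :
    ∃ C : Set (ℂ × ℝ), IsCompact C ∧ C ⊆ pattern o w ∧ ∀ (φ : PF (XX o w) G) (x0 : XX o w)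
      (P : ℕ → G), Capd w P → Flat o P → HasReg φ x0 P →
      ∃ s, Par φ (triv (XX o w) G) {y | y.1 ∉ C} s := by
  obtain ⟨C, c1, c2, c3, c4⟩ := exists_end ok
  refine ⟨C, c1, c3, ?_⟩
  rintro φ x0 P hP hF ⟨τp, τm, hr, -⟩
  obtain ⟨τp', τm', hr', -⟩ := hasReg_triv (G := G) x0
  obtain ⟨s1, s2, -⟩ := hS P (capd_zero hP)
  exact c4 G _ _ P _ _ _ _ _ hr hr' hP (capd_one w)
    (fun j h1 h2 => ⟨hF j h1 h2, by rw [s1 j h1 h2, hF j h1 h2, reg_one]⟩)
    (fun p h1 h2 => by rw [s2 p h1 h2, trP_one])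

/-- every flat labelling comes from the complement of the knot -/
theorem exists_ext (E : Emb o w ν e eX) (hS : Split o w G) (x0 : XX o w) {P : ℕ → G}
    (hP : Capd w P) (hF : Flat o P) :
    ∃ β : PF (↥(core ν)ᶜ) G, HasReg (β.comap eX) x0 P := by
  obtain ⟨C, c1, c3, c4⟩ := end_flat E.ok hS
  obtain ⟨φ, h⟩ := exists_hasReg E.ok hP x0
  obtain ⟨s, hs⟩ := c4 φ x0 P hP hF h
  obtain ⟨γ, u, g1, -, -⟩ := glue_out E c1 c3 (triv _ G) φ _ hs.symm
  exact ⟨γ, hasReg_of_eq h g1⟩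

theorem toHom_eq_of_flat (E : Emb o w ν e eX)
    (hZ : ∃ P : ℕ → Multiplicative ℤ, Capd w P ∧ P 1 = Multiplicative.ofAdd 1)
    (hS : Split o w G) {x0 : XX o w} (hx : x0 ∈ Up o w 1) {β β' : PF (↥(core ν)ᶜ) G} {P : ℕ → G}
    (hP : Capd w P) (hF : Flat o P) (h : HasReg (β.comap eX) x0 P)
    (h' : HasReg (β'.comap eX) x0 P) : β.toHom (eX x0) = β'.toHom (eX x0) := by
  obtain ⟨C, c1, c3, c4⟩ := end_flat E.ok hS
  obtain ⟨s, hs⟩ := c4 _ x0 P hP hF h
  obtain ⟨τp, τm, hr, hτ⟩ := h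
  obtain ⟨τp', τm', hr', hτ'⟩ := h'
  obtain ⟨r, hr1, hr2⟩ := par_of_reg E.ok hr hr' fun _ _ => rfl
  have hr0 : r x0 = 1 := by rw [hr2 x0 hx, hτ, hτ', inv_mul_cancel]
  have hs' := (hr1.symm.mono (subset_univ _)).trans hs
  obtain ⟨ωX, ωY, a1, a2, a3⟩ := outside E hZ c1 c3 β _ s hs (capd_one w) (hasReg_triv x0) rfl
  obtain ⟨ωX', ωY', b1, b2, b3⟩ :=
    outside E hZ c1 c3 β' _ _ hs' (capd_one w) (hasReg_triv x0) rfl
  have := pathConnected_XX E.ok
  have hconst : ∀ ω : XX o w → G, (triv (XX o w) G).Pot univ ω → ∀ y, ω y = ω x0 := by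
    intro ω hω y
    have := hω x0 y (PathConnectedSpace.somePath x0 y) fun _ => mem_univ _
    exact (inv_mul_eq_one.1 this.symm)
  have hO := isOpen_out E c1 c3
  let j : C(↥(Out ν e C), ↥(core ν)ᶜ) := ⟨Subtype.val, continuous_subtype_val⟩
  have hY := (par_of_pot a2 (pot_mul_left b2 (ωX x0 * (ωX' x0)⁻¹))).comap j
  obtain ⟨R, R1, R2, -⟩ := par_glue eX j E.isOpenEmbedding hO.isOpenEmbedding_subtypeVal
    (fun z => (cover_out (C := C) E z).imp id fun h => ⟨⟨z, h⟩, rfl⟩) β β' r _ hr1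
    (hY.mono fun z _ => z.2) (by
      intro x1 x2 h
      have h1 : x1.1 ∉ C := (mem_out E _).1 (by rw [h]; exact x2.2)
      have e1 := a3 x1 h1
      have e2 := b3 x1 h1
      rw [hconst ωX a1 x1] at e1
      rw [hconst ωX' b1 x1] at e2
      rw [← h, e1, e2]
      group)
  exact toHom_eq_of_par R1 ((R2 x0).trans hr0)

theorem toHom_comap {X Y : Type} [TopologicalSpace X] [TopologicalSpace Y] {β β' : PF Y G}
    (f : C(X, Y)) (x0 : X) (h : β.toHom (f x0) = β'.toHom (f x0)) :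
    (β.comap f).toHom x0 = (β'.comap f).toHom x0 := by
  refine MonoidHom.ext fun a => ?_
  obtain ⟨p, rfl⟩ := Path.Homotopic.Quotient.mk_surjective a
  rw [PF.toHom_mk, PF.toHom_mk]
  change β.v (p.map f.continuous) = β'.v (p.map f.continuous)
  rw [← PF.toHom_mk, ← PF.toHom_mk, h]

end Vale.Agent.N258
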