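import Vale.Agent.N258.G

/-! Block T: the circle and punctured solid tori. -/

namespace Vale.Agent.N258

open Set Filter Topology
open Vale.Agent.P258.Braid (Word)
open Vale.Agent.P002Z

variable {G : Type} [Group G]

theorem continuous_ex : Continuous ex :=
  Circle.exp.continuous.comp (continuous_const.mul continuous_id)

theorem ex_zero : ex 0 = 1 := by simp [ex]

theorem ex_one : ex 1 = 1 := by simp [ex]

/-- paths in the circle lift, with any starting point -/
theorem T1_lift {x y : Circle} (p : Path x y) (a : ℝ) (ha : Circle.exp a = x) :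
    ∃ f : C(I, ℝ), f 0 = a ∧ ∀ t, Circle.exp (f t) = p t :=
  ⟨Circle.isCoveringMap_exp.liftPath p a (p.source.trans ha.symm),
    Circle.isCoveringMap_exp.liftPath_zero ..,
    congr_fun (Circle.isCoveringMap_exp.liftPath_lifts p a (p.source.trans ha.symm))⟩

/-- the increase of the argument along a path -/
noncomputable def T1_inc {x y : Circle} (p : Path x y) : ℝ :=
  Circle.isCoveringMap_exp.liftPath p (Complex.arg x) (p.source.trans (Circle.exp_arg x).symm) 1 -
    Complex.arg x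

theorem T1_inc_eq {x y : Circle} (p : Path x y) (f : I → ℝ) (hf : Continuous f)
    (h : ∀ t, Circle.exp (f t) = p t) : T1_inc p = f 1 - f 0 := by
  obtain ⟨m, hm⟩ := Circle.exp_eq_exp.1 ((h 0).trans (p.source.trans (Circle.exp_arg x).symm))
  have e := (Circle.isCoveringMap_exp.eq_liftPath_iff (γ := p) (e := Complex.arg x)
    (p.source.trans (Circle.exp_arg x).symm) (Γ := fun t => f t - m * (2 * Real.pi))).2
    ⟨hf.sub continuous_const, funext fun t =>
      (Circle.exp_eq_exp.2 ⟨-m, by push_cast; ring⟩).trans (h t), by rw [hm]; ring⟩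
  rw [T1_inc, ← congr_fun e 1, hm]
  ring

theorem T1_inc_trans {x y z : Circle} (p : Path x y) (q : Path y z) :
    T1_inc (p.trans q) = T1_inc q + T1_inc p := by
  obtain ⟨f, -, hf⟩ := T1_lift p _ (Circle.exp_arg x)
  obtain ⟨g, g0, hg⟩ := T1_lift q (f 1) ((hf 1).trans p.target)
  let F : Path (f 0) (f 1) := ⟨f, rfl, rfl⟩
  let H : Path (f 1) (g 1) := ⟨g, g0, rfl⟩
  rw [T1_inc_eq p f f.continuous hf, T1_inc_eq q g g.continuous hg, g0,
    T1_inc_eq (p.trans q) (F.trans H) (F.trans H).continuous fun t => ?_]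
  · rw [Path.source, Path.target]
    ring
  · rw [Path.trans_apply, Path.trans_apply]
    split_ifs
    · exact hf _
    · exact hg _

theorem T1_int {x y : Circle} (p : Path x y) :
    ∃ m : ℤ, T1_inc p = m * (2 * Real.pi) + Complex.arg y - Complex.arg x := by
  obtain ⟨f, f0, hf⟩ := T1_lift p _ (Circle.exp_arg x)
  obtain ⟨m, hm⟩ := Circle.exp_eq_exp.1 ((hf 1).trans (p.target.trans (Circle.exp_arg y).symm))
  exact ⟨m, by rw [T1_inc_eq p f f.continuous hf, hm, f0]; ring⟩

theorem T1_cancel {m n : ℤ} (h : (m : ℝ) * (2 * Real.pi) = n * (2 * Real.pi)) : m = n := by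
  exact_mod_cast mul_right_cancel₀ (by positivity) h

/-- the degree of loops in the circle -/
noncomputable def dg : PF Circle (Multiplicative ℤ) where
  v p := Multiplicative.ofAdd (T1_int p).choose
  hom {x y p q} h := by
    refine congrArg _ (T1_cancel ?_)
    have e : T1_inc p = T1_inc q := congrArg (fun s => s - Complex.arg x)
      (Circle.isCoveringMap_exp.liftPath_apply_one_eq_of_homotopicRel h _ _ _)
    linarith [(T1_int p).choose_spec, (T1_int q).choose_spec]
  trans p q := by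
    rw [← ofAdd_add]
    refine congrArg _ (T1_cancel ?_)
    push_cast
    linarith [(T1_int p).choose_spec, (T1_int q).choose_spec, (T1_int (p.trans q)).choose_spec,
      T1_inc_trans p q]

/-- the degree is read off from any lift -/
theorem dg_lift {x y : Circle} (p : Path x y) (f : I → ℝ) (hf : Continuous f)
    (h : ∀ t, Circle.exp (f t) = p t) :
    f 1 - f 0 = (Multiplicative.toAdd (dg.v p) : ℤ) * (2 * Real.pi) + Complex.arg y -
      Complex.arg x :=
  (T1_inc_eq p f hf h).symm.trans (T1_int p).choose_spec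

/-- the standard loop -/
noncomputable def exLoop : Path (1 : Circle) 1 where
  toFun t := ex t
  continuous_toFun := continuous_ex.comp continuous_subtype_val
  source' := ex_zero
  target' := ex_one

theorem dg_exLoop : dg.v exLoop = Multiplicative.ofAdd 1 := by
  have h := dg_lift exLoop (fun t => 2 * Real.pi * t) (by fun_prop) fun _ => rfl
  refine congrArg Multiplicative.ofAdd (T1_cancel (m := Multiplicative.toAdd (dg.v exLoop)) ?_)
  simp only [Icc.coe_one, Icc.coe_zero] at h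
  push_cast
  linarith

theorem circle_pow (α : PF Circle G) (y : Circle) :
    ∃ g, ∀ p : Path y y, α.v p = g⁻¹ * α.v exLoop ^ (Multiplicative.toAdd (dg.v p)) * g := by
  obtain ⟨τ, hτ⟩ := exists_pot_univ (α.comap Circle.exp)
  have key : ∀ {x y : Circle} (p : Path x y) (f : C(I, ℝ)), (∀ t, Circle.exp (f t) = p t) →
      α.v p = (τ (f 1))⁻¹ * τ (f 0) := fun p f h =>
    (α.congr fun t => (h t).symm).trans (hτ _ _ ⟨f, rfl, rfl⟩ fun _ => mem_univ _)
  have hτ' : (α.comap Circle.exp).Pot univ fun a => τ (a + 2 * Real.pi) := fun a b F _ => by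
    have h := key (F.map Circle.exp.continuous) ⟨fun t => F t + 2 * Real.pi, by fun_prop⟩
      fun t => Circle.exp_eq_exp.2 ⟨1, by simp⟩
    simp only [ContinuousMap.coe_mk, Path.source, Path.target] at h
    exact h
  obtain ⟨c, hc⟩ : ∃ c, ∀ a, τ (a + 2 * Real.pi) = c * τ a :=
    ⟨τ (0 + 2 * Real.pi) * (τ 0)⁻¹, fun a => by
      rw [← pot_ratio hτ hτ' (x := 0) (y := a)
        ⟨PathConnectedSpace.somePath 0 a, fun _ => ⟨mem_univ _, mem_univ _⟩⟩]
      group⟩
  have hm : ∀ (m : ℤ) (a : ℝ), τ (a + m * (2 * Real.pi)) = c ^ m * τ a := by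
    intro m
    induction m using Int.induction_on with
    | zero => simp
    | succ n ih =>
      intro a
      rw [show a + ((n : ℤ) + 1 : ℤ) * (2 * Real.pi) =
        a + (n : ℤ) * (2 * Real.pi) + 2 * Real.pi by push_cast; ring, hc, ih]
      group
    | pred n ih =>
      intro a
      have h := hc (a + (-(n : ℤ) - 1 : ℤ) * (2 * Real.pi))
      rw [show a + (-(n : ℤ) - 1 : ℤ) * (2 * Real.pi) + 2 * Real.pi =
        a + (-(n : ℤ) : ℤ) * (2 * Real.pi) by push_cast; ring, ih] at h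
      rw [← inv_mul_eq_iff_eq_mul.2 h]
      group
  have hE : α.v exLoop = (τ 0)⁻¹ * c⁻¹ * τ 0 := by
    have h := key exLoop ⟨fun t => 2 * Real.pi * t, by fun_prop⟩ fun _ => rfl
    have h' := hc 0
    simp only [ContinuousMap.coe_mk, Icc.coe_one, Icc.coe_zero, mul_one, mul_zero, zero_add]
      at h h'
    rw [h, h']
    group
  refine ⟨(τ 0)⁻¹ * τ (Complex.arg y), fun p => ?_⟩
  obtain ⟨f, f0, hf⟩ := T1_lift p _ (Circle.exp_arg y)
  have e : f 1 = Complex.arg y + (Multiplicative.toAdd (dg.v p) : ℤ) * (2 * Real.pi) := by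
    linarith [dg_lift p f f.continuous hf]
  have e2 : ∀ m : ℤ, ((τ 0)⁻¹ * c⁻¹ * τ 0) ^ m = (τ 0)⁻¹ * c⁻¹ ^ m * τ 0 := fun m => by
    simpa using conj_zpow (i := m) (a := (τ 0)⁻¹) (b := c⁻¹)
  rw [key p f hf, e, f0, hm, hE, e2]
  group

/-- the first coordinate -/
def fstC (J : Set ℝ) : C(TJ J, Circle) := ⟨fun x => x.1.1, by fun_prop⟩

/-- the argument of the second coordinate -/
theorem exists_argC (J : Set ℝ) (hJ : J ⊆ Ioi 0) :
    ∃ a : C(TJ J, Circle), ∀ x, x.1.2 = (‖x.1.2‖ : ℂ) * a x := by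
  have h0 : ∀ x : TJ J, (‖x.1.2‖ : ℂ) ≠ 0 := fun x =>
    Complex.ofReal_ne_zero.2 (ne_of_gt (hJ x.2))
  refine ⟨⟨fun x => ⟨x.1.2 / ‖x.1.2‖, mem_sphere_zero_iff_norm.2 ?_⟩, ?_⟩, fun x => ?_⟩
  · rw [norm_div, Complex.norm_real, norm_norm, div_self (ne_of_gt (hJ x.2))]
  · exact Continuous.subtype_mk (Continuous.div (by fun_prop) (by fun_prop) h0) _
  · exact (mul_div_cancel₀ _ (h0 x)).symm

theorem pathConnected_TJ {J : Set ℝ} (hJ : J ⊆ Ioi 0) (hc : J.OrdConnected) (hn : J.Nonempty) :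
    PathConnectedSpace (TJ J) := by
  have _ : PathConnectedSpace J :=
    isPathConnected_iff_pathConnectedSpace.1 (G1_sc hc.convex hn).isPathConnected
  have hn : ∀ q : Circle × Circle × J, ‖((q.2.2 : ℝ) : ℂ) * q.2.1‖ = q.2.2 := fun q => by
    rw [norm_mul, Circle.norm_coe, mul_one, Complex.norm_real, Real.norm_of_nonneg (hJ q.2.2.2).le]
  let f : Circle × Circle × J → TJ J := fun q =>
    ⟨(q.1, ((q.2.2 : ℝ) : ℂ) * q.2.1), by rw [hn]; exact q.2.2.2⟩
  obtain ⟨a, ha⟩ := exists_argC J hJ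
  refine Function.Surjective.pathConnectedSpace (f := f) (fun x => ?_)
    (Continuous.subtype_mk (by fun_prop) _)
  exact ⟨(x.1.1, a x, ⟨_, x.2⟩), Subtype.ext (Prod.ext rfl (ha x).symm)⟩

theorem exists_torus_loops {J : Set ℝ} {r : ℝ} (h0 : 0 < r) (hr : r ∈ J) :
    ∃ (b : TJ J) (m l : Path b b), (∀ t, (m t).1 = (1, (r : ℂ) * ex t)) ∧
      ∀ t, (l t).1 = (ex t, (r : ℂ)) := by
  have h1 : ‖(r : ℂ)‖ ∈ J := by rwa [Complex.norm_real, Real.norm_of_nonneg h0.le]
  have h2 : ∀ u : Circle, ‖(r : ℂ) * u‖ ∈ J := fun u => by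
    rwa [norm_mul, Circle.norm_coe, mul_one]
  have hc : Continuous fun t : I => ex t := continuous_ex.comp continuous_subtype_val
  refine ⟨⟨(1, r), h1⟩,
    ⟨⟨fun t => ⟨(1, (r : ℂ) * ex t), h2 _⟩, Continuous.subtype_mk (by fun_prop) _⟩, ?_, ?_⟩,
    ⟨⟨fun t => ⟨(ex t, (r : ℂ)), h1⟩, Continuous.subtype_mk (by fun_prop) _⟩, ?_, ?_⟩,
    fun _ => rfl, fun _ => rfl⟩
  all_goals simp [ex_zero, ex_one]

end Vale.Agent.N258
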