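import Vale.Agent.N258.Q

/-! Block W2: every function of paths has a labelling. -/

namespace Vale.Agent.N258

open Set Filter Topology
open Vale.Agent.P258.Braid (Word)
open Vale.Agent.P002Z

variable {o : ℕ} {w : Word} {G : Type} [Group G]

theorem W2_half (ok : Ok o w) {φ : PF (XX o w) G} {σ τ : XX o w → G} {e : ℝ}
    (he : e = 1 ∨ e = -1) (hσ : φ.Pot (Up o w e) σ) {k : ℕ} {x : ℕ × Bool} (h : w[k]? = some x)
    (hτ : φ.Pot (Vb o w k) τ) (d : ℝ) :
    ∃ a : G, ∀ y ∈ Vb o w k, 0 < d * (y.1.1.re - ov x e (y.1.2 - k)) → τ y = a * σ y := by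
  set S : Set (XX o w) := {y | y ∈ Vb o w k ∧ 0 < d * (y.1.1.re - ov x e (y.1.2 - k))} with hS
  have hc : Convex ℝ (Subtype.val '' S) := by
    have e1 : Subtype.val '' S = Subtype.val '' Vb o w k ∩
        {z : ℂ × ℝ | 0 < d * (z.1.re - ov x e (z.2 - k))} := by
      ext z
      constructor
      · rintro ⟨y, hy, rfl⟩
        exact ⟨⟨y, hy.1, rfl⟩, hy.2⟩
      · rintro ⟨⟨y, hy, rfl⟩, h2⟩
        exact ⟨y, ⟨hy, h2⟩, rfl⟩
    rw [e1]
    refine (convex_vb ok k).inter ?_
    intro a ha b hb s t hs ht hst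
    simp only [mem_ofPred_eq] at ha hb ⊢
    have e2 : d * ((s • a + t • b).1.re - ov x e ((s • a + t • b).2 - k)) =
        s * (d * (a.1.re - ov x e (a.2 - k))) + t * (d * (b.1.re - ov x e (b.2 - k))) := by
      obtain rfl : t = 1 - s := by linarith
      simp only [ov, Prod.fst_add, Prod.snd_add, Prod.smul_fst, Prod.smul_snd, Complex.add_re,
        Complex.real_smul, Complex.re_ofReal_mul, smul_eq_mul]
      ring
    rw [e2]
    rcases hs.eq_or_lt with rfl | hs'
    · obtain rfl : t = 1 := by linarith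
      linarith
    · have := mul_pos hs' ha
      have := mul_nonneg ht hb.le
      linarith
  have hsub : S ⊆ Up o w e ∩ Vb o w k := fun y hy =>
    ⟨(vb_mem_up ok h he hy.1).2 fun h0 => by
      have := hy.2
      rw [h0, sub_self, mul_zero] at this
      exact lt_irrefl _ this, hy.1⟩
  rcases S.eq_empty_or_nonempty with h0 | ⟨y0, hy0⟩
  · exact ⟨1, fun y h1 h2 => absurd (show y ∈ S from ⟨h1, h2⟩) (by rw [h0]; exact notMem_empty y)⟩
  · refine ⟨τ y0 * (σ y0)⁻¹, fun y h1 h2 => ?_⟩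
    rw [← pot_ratio hσ hτ ((joinedIn_of_convex hc hy0 ⟨h1, h2⟩).mono hsub), inv_mul_cancel_right]

/-- the potential in the box of a crossing -/
theorem box_pot (ok : Ok o w) {φ : PF (XX o w) G} {τp τm : XX o w → G}
    (hp : φ.Pot (Up o w 1) τp) (hm : φ.Pot (Up o w (-1)) τm) {k : ℕ} {x : ℕ × Bool}
    (h : w[k]? = some x) :
    ∃ (τ : XX o w → G) (aL aR bL bR : G), φ.Pot (Vb o w k) τ ∧ ∀ y ∈ Vb o w k,
      (y.1.1.re < ov x 1 (y.1.2 - k) → τ y = aL * τp y) ∧
      (ov x 1 (y.1.2 - k) < y.1.1.re → τ y = aR * τp y) ∧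
      (y.1.1.re < ov x (-1) (y.1.2 - k) → τ y = bL * τm y) ∧
      (ov x (-1) (y.1.2 - k) < y.1.1.re → τ y = bR * τm y) := by
  obtain ⟨τ, hτ⟩ := (null_of_convex (convex_vb ok k)).exists_pot φ
  obtain ⟨aL, h1⟩ := W2_half ok (Or.inl rfl) hp h hτ (-1)
  obtain ⟨aR, h2⟩ := W2_half ok (Or.inl rfl) hp h hτ 1
  obtain ⟨bL, h3⟩ := W2_half ok (Or.inr rfl) hm h hτ (-1)
  obtain ⟨bR, h4⟩ := W2_half ok (Or.inr rfl) hm h hτ 1
  exact ⟨τ, aL, aR, bL, bR, hτ, fun y hy => ⟨fun a => h1 y hy (by linarith),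
    fun a => h2 y hy (by linarith), fun a => h3 y hy (by linarith),
    fun a => h4 y hy (by linarith)⟩⟩

/-- no strand has the real part `r` at the height `t` -/
def W2Free (o : ℕ) (w : Word) (r t : ℝ) : Prop :=
  ∀ p < 6 + o, act w p t → (strand w p t).re ≠ r

open Classical in
/-- the value of `R` at the point `(r, t)` -/
noncomputable def W2val (R : XX o w → G) (r t : ℝ) : G :=
  if h : (((r : ℝ) : ℂ), t) ∈ (link o w)ᶜ then R ⟨_, h⟩ else 1

theorem W2_val_eq (R : XX o w → G) {r t : ℝ} {y : XX o w} (h : y.1 = (((r : ℝ) : ℂ), t)) :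
    W2val R r t = R y := by
  obtain ⟨y, hy⟩ := y
  obtain rfl : y = _ := h
  exact dif_pos hy

theorem W2_pt {r t : ℝ} (h : W2Free o w r t) : ∃ y : XX o w, y.1 = (((r : ℝ) : ℂ), t) :=
  ⟨⟨_, not_mem_link (y := (((r : ℝ) : ℂ), t)) h⟩, rfl⟩

theorem W2_move {R : XX o w → G}
    (hR : ∀ x y, JoinedIn (Up o w 1 ∩ Up o w (-1)) x y → R x = R y) {r t r' t' : ℝ}
    (h : ∀ u : ℝ, 0 ≤ u → u ≤ 1 → W2Free o w (r + u * (r' - r)) (t + u * (t' - t))) :
    W2val R r t = W2val R r' t' := by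
  obtain ⟨y, hy⟩ := W2_pt (show W2Free o w r t by simpa using h 0 le_rfl zero_le_one)
  obtain ⟨y', hy'⟩ := W2_pt (show W2Free o w r' t' by simpa using h 1 zero_le_one le_rfl)
  rw [W2_val_eq R hy, W2_val_eq R hy']
  refine hR _ _ (joinedIn_of_segment y y' ?_)
  rintro z ⟨a, b, ha, hb, hab, rfl⟩
  obtain rfl : a = 1 - b := by linarith
  obtain ⟨z, hz⟩ := W2_pt (h b hb (by linarith))
  refine ⟨z, mem_up_up.2 ?_, ?_⟩
  · rw [hz]
    exact h b hb (by linarith)
  · rw [hz, hy, hy']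
    refine Prod.ext ?_ ?_
    · simp only [Prod.fst_add, Prod.smul_fst, Complex.real_smul]
      push_cast
      ring
    · simp only [Prod.snd_add, Prod.smul_snd, smul_eq_mul]
      ring

theorem W2_slab {k : ℕ} {x : ℕ × Bool} (h : w[k]? = some x) {r t : ℝ} (h1 : k ≤ t)
    (h2 : t ≤ k + 1) (h3 : r ≠ x.1 + (t - k)) (h4 : r ≠ x.1 + 1 - (t - k))
    (h5 : ∀ q : ℕ, (q : ℝ) + 1 ≤ x.1 ∨ (x.1 : ℝ) + 2 ≤ q → r ≠ q) : W2Free o w r t := by
  intro p _ _
  rw [strand_mid h p h1 h2]
  rcases geoB_mv x (pos w k p) (t - k) with ⟨-, e, -⟩ | ⟨-, e, -⟩ | ⟨c, e, -⟩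
  · rw [e]; exact h3.symm
  · rw [e]; exact h4.symm
  · rw [e]; exact (h5 _ c).symm

theorem W2_half_ne (j q : ℕ) : (j : ℝ) - 1 / 2 ≠ q := by
  intro h
  have h1 : (2 * j : ℝ) = 2 * q + 1 := by linarith
  have h2 : 2 * j = 2 * q + 1 := by exact_mod_cast h1
  omega

theorem W2_step (ok : Ok o w) {φ : PF (XX o w) G} {τp τm : XX o w → G}
    (hp : φ.Pot (Up o w 1) τp) (hm : φ.Pot (Up o w (-1)) τm) {k : ℕ} {x : ℕ × Bool}
    (h : w[k]? = some x) (j : ℕ) :
    W2val (fun y => τm y * (τp y)⁻¹) ((j : ℝ) - 1 / 2) ((k : ℝ) + 1) =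
      stepP x (fun j : ℕ => W2val (fun y => τm y * (τp y)⁻¹) ((j : ℝ) - 1 / 2) k) j := by
  set R : XX o w → G := fun y => τm y * (τp y)⁻¹ with hRd
  have hR : ∀ x y, JoinedIn (Up o w 1 ∩ Up o w (-1)) x y → R x = R y := fun x y hj =>
    (pot_ratio hp hm hj).symm
  by_cases hj : j = x.1 + 1
  · subst hj
    obtain ⟨τ, aL, aR, bL, bR, -, H⟩ := box_pot ok hp hm h
    have box : ∀ r s : ℝ, (x.1 : ℝ) < r → r < x.1 + 1 → 0 < s → s < 1 →
        (r < ov x 1 s → r < ov x (-1) s → W2val R r (k + s) = bL⁻¹ * aL) ∧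
        (r < ov x 1 s → ov x (-1) s < r → W2val R r (k + s) = bR⁻¹ * aL) ∧
        (ov x 1 s < r → r < ov x (-1) s → W2val R r (k + s) = bL⁻¹ * aR) ∧
        (ov x 1 s < r → ov x (-1) s < r → W2val R r (k + s) = bR⁻¹ * aR) := by
      intro r s h1 h2 h3 h4
      have h5 : |(((r : ℝ) : ℂ), (k : ℝ) + s).1.im| <
          ((((r : ℝ) : ℂ), (k : ℝ) + s).2 - k) * (1 - ((((r : ℝ) : ℂ), (k : ℝ) + s).2 - k)) := by
        simp only [Complex.ofReal_im, abs_zero, add_sub_cancel_left]
        exact mul_pos h3 (by linarith)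
      let y : XX o w := ⟨(((r : ℝ) : ℂ), (k : ℝ) + s), box_not_mem ok h h1 h2 h5⟩
      have hy := H y ⟨x, h, h1, h2, h5⟩
      have e1 : y.1.1.re = r := rfl
      have e2 : y.1.2 - k = s := add_sub_cancel_left _ _
      rw [e1, e2] at hy
      rw [W2_val_eq R (y := y) rfl]
      have key : ∀ a b : G, τ y = a * τp y → τ y = b * τm y → R y = b⁻¹ * a := by
        intro a b ha hb
        calc R y = b⁻¹ * (b * τm y) * (τp y)⁻¹ := by rw [hRd]; group
          _ = _ := by rw [← hb, ha]; group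
      exact ⟨fun a b => key _ _ (hy.1 a) (hy.2.2.1 b), fun a b => key _ _ (hy.1 a) (hy.2.2.2 b),
        fun a b => key _ _ (hy.2.1 a) (hy.2.2.1 b), fun a b => key _ _ (hy.2.1 a) (hy.2.2.2 b)⟩
    have mL : W2val R ((x.1 : ℝ) - 1 / 2) k = W2val R (x.1 + 1 / 8) (k + 1 / 2) :=
      W2_move hR fun u h0 h1 => W2_slab h (by linarith) (by linarith)
        (fun e => by linarith) (fun e => by linarith)
        fun q hq e => by rcases hq with a | a <;> linarith
    have mR : W2val R (((x.1 + 2 : ℕ) : ℝ) - 1 / 2) k = W2val R (x.1 + 7 / 8) (k + 1 / 2) := by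
      push_cast
      exact W2_move hR fun u h0 h1 => W2_slab h (by linarith) (by linarith)
        (fun e => by linarith) (fun e => by linarith)
        fun q hq e => by rcases hq with a | a <;> linarith
    have mB : W2val R (((x.1 + 1 : ℕ) : ℝ) - 1 / 2) k = W2val R (x.1 + 1 / 2) (k + 1 / 4) := by
      push_cast
      exact W2_move hR fun u h0 h1 => W2_slab h (by linarith) (by linarith)
        (fun e => by linarith) (fun e => by linarith)
        fun q hq e => by rcases hq with a | a <;> linarith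
    have mT : W2val R (((x.1 + 1 : ℕ) : ℝ) - 1 / 2) (k + 1) =
        W2val R (x.1 + 1 / 2) (k + 3 / 4) := by
      push_cast
      exact W2_move hR fun u h0 h1 => W2_slab h (by linarith) (by linarith)
        (fun e => by linarith) (fun e => by linarith)
        fun q hq e => by rcases hq with a | a <;> linarith
    have bL' := (box (x.1 + 1 / 8) (1 / 2) (by linarith) (by linarith) (by norm_num)
      (by norm_num)).1 (by simp only [ov]; linarith) (by simp only [ov]; linarith)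
    have bR' := (box (x.1 + 7 / 8) (1 / 2) (by linarith) (by linarith) (by norm_num)
      (by norm_num)).2.2.2 (by simp only [ov]; linarith) (by simp only [ov]; linarith)
    have bB := box (x.1 + 1 / 2) (1 / 4) (by linarith) (by linarith) (by norm_num) (by norm_num)
    have bT := box (x.1 + 1 / 2) (3 / 4) (by linarith) (by linarith) (by norm_num) (by norm_num)
    rw [stepP, Function.update_self, mL, mR, mB, mT, bL', bR']
    obtain ⟨i, e⟩ := x
    cases e
    · have s0 : sg false = -1 := by simp [sg]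
      rw [bB.2.1 (by simp only [ov, s0]; linarith) (by simp only [ov, s0]; linarith),
        bT.2.2.1 (by simp only [ov, s0]; linarith) (by simp only [ov, s0]; linarith)]
      simp only [Bool.false_eq_true, if_false]
      group
    · have s0 : sg true = 1 := by simp [sg]
      rw [bB.2.2.1 (by simp only [ov, s0]; linarith) (by simp only [ov, s0]; linarith),
        bT.2.1 (by simp only [ov, s0]; linarith) (by simp only [ov, s0]; linarith)]
      simp only [if_true]
      group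
  · rw [stepP, Function.update_of_ne hj]
    have hj' : (j : ℝ) ≤ x.1 ∨ (x.1 : ℝ) + 2 ≤ j := by
      rcases (by omega : j ≤ x.1 ∨ x.1 + 2 ≤ j) with a | a
      · exact Or.inl (by exact_mod_cast a)
      · exact Or.inr (by exact_mod_cast a)
    refine (W2_move hR fun u h0 h1 => W2_slab h (by linarith) (by linarith)
      (fun e => ?_) (fun e => ?_) fun q _ e => W2_half_ne j q (by linarith)).symm
    · rcases hj' with a | a <;> linarith
    · rcases hj' with a | a <;> linarith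

theorem W2_cap_ne (q j : ℕ) {s : ℝ} (hs : 0 ≤ s) : (cap q s).re ≠ ((2 * j : ℕ) : ℝ) - 1 / 2 := by
  rw [QA_cap_re]
  have h0 : 0 ≤ min s 1 := le_min hs zero_le_one
  have h1 : min s 1 ≤ 1 := min_le_right _ _
  split_ifs with hq
  · intro e
    rcases Nat.even_or_odd' q with ⟨a, rfl | rfl⟩
    · rw [pow_mul, neg_one_sq, one_pow] at e
      push_cast at e
      have h2 : (a : ℝ) < j := by linarith
      have h3 : (a : ℝ) + 1 ≤ j := by exact_mod_cast (show a < j by exact_mod_cast h2)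
      linarith
    · rw [pow_succ, pow_mul, neg_one_sq, one_pow] at e
      push_cast at e
      have h2 : (a : ℝ) < j := by linarith
      have h3 : (a : ℝ) + 1 ≤ j := by exact_mod_cast (show a < j by exact_mod_cast h2)
      linarith
  · exact (W2_half_ne _ q).symm

theorem W2_cap_big {q : ℕ} (hq : 6 ≤ q) (s : ℝ) : (6 : ℝ) ≤ (cap q s).re := by
  rw [QA_cap_re, if_neg (by omega)]
  exact_mod_cast hq

theorem W2_bot {R : XX o w → G}
    (hR : ∀ x y, JoinedIn (Up o w 1 ∩ Up o w (-1)) x y → R x = R y) {j : ℕ} (hj : j ≤ 3) :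
    W2val R (((2 * j : ℕ) : ℝ) - 1 / 2) 0 = W2val R (-(1 / 2)) (-2) := by
  have hj' : (j : ℝ) ≤ 3 := by exact_mod_cast hj
  have hj0 : (0 : ℝ) ≤ j := Nat.cast_nonneg j
  refine (W2_move hR (r' := ((2 * j : ℕ) : ℝ) - 1 / 2) (t' := -2) fun u h0 h1 p _ _ => ?_).trans
    (W2_move hR fun u h0 h1 p _ ha => ?_)
  · rw [strand_bot w p (by linarith), sub_self, mul_zero, add_zero]
    exact W2_cap_ne p j (by linarith)
  · have hp : 6 ≤ p := ha.resolve_right fun a => by linarith [a.1]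
    rw [strand_bot w p (by linarith)]
    refine ne_of_gt (lt_of_lt_of_le ?_ (W2_cap_big hp _))
    push_cast
    nlinarith [mul_nonneg h0 hj0]

theorem W2_top (ok : Ok o w) {R : XX o w → G}
    (hR : ∀ x y, JoinedIn (Up o w 1 ∩ Up o w (-1)) x y → R x = R y) {j : ℕ} (hj : j ≤ 3) :
    W2val R (((2 * j : ℕ) : ℝ) - 1 / 2) w.length = W2val R (-(1 / 2)) (w.length + 2) := by
  have hj' : (j : ℝ) ≤ 3 := by exact_mod_cast hj
  have hj0 : (0 : ℝ) ≤ j := Nat.cast_nonneg j
  refine (W2_move hR (r' := ((2 * j : ℕ) : ℝ) - 1 / 2) (t' := w.length + 2)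
    fun u h0 h1 p _ _ => ?_).trans (W2_move hR fun u h0 h1 p _ ha => ?_)
  · rw [strand_top p (by linarith), sub_self, mul_zero, add_zero]
    exact W2_cap_ne _ j (by linarith)
  · have hp : 6 ≤ p := ha.resolve_right fun a => by linarith [a.2]
    obtain ⟨c, rfl⟩ : ∃ c, p = c + 6 := ⟨p - 6, by omega⟩
    rw [strand_top _ (by linarith), ok.top]
    refine ne_of_gt (lt_of_lt_of_le ?_ (W2_cap_big (q := c + 6) hp _))
    push_cast
    nlinarith [mul_nonneg h0 hj0]

theorem exists_lab (ok : Ok o w) (φ : PF (XX o w) G) (x0 : XX o w) :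
    ∃ P : ℕ → G, Capd w P ∧ HasReg φ x0 P := by
  obtain ⟨τp0, hp0⟩ := (null_up o w (Or.inl rfl)).exists_pot φ
  obtain ⟨τm0, hm0⟩ := (null_up o w (Or.inr rfl)).exists_pot φ
  obtain ⟨r0, hr0, -⟩ := exists_ref ok (Nat.zero_le w.length) 0
  have hp := pot_mul_left hp0 (τp0 x0)⁻¹
  set τp : XX o w → G := fun y => (τp0 x0)⁻¹ * τp0 y with hτp
  have hm := pot_mul_left hm0 (τp r0 * (τm0 r0)⁻¹)
  set τm : XX o w → G := fun y => τp r0 * (τm0 r0)⁻¹ * τm0 y with hτm
  set R : XX o w → G := fun y => τm y * (τp y)⁻¹ with hRd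
  have hR : ∀ x y, JoinedIn (Up o w 1 ∩ Up o w (-1)) x y → R x = R y := fun x y hj =>
    (pot_ratio hp hm hj).symm
  set P : ℕ → G := fun j => W2val R ((j : ℝ) - 1 / 2) ((0 : ℕ) : ℝ) with hP
  have P0 : P 0 = 1 := by
    rw [hP]
    simp only
    rw [W2_val_eq R hr0, hRd, hτm]
    simp only
    group
  have hreg : ∀ k ≤ w.length, (fun j : ℕ => W2val R ((j : ℝ) - 1 / 2) k) = reg w P k := by
    intro k
    induction k with
    | zero => exact fun _ => (reg_zero w P).symm
    | succ k ih =>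
      intro hk
      have h : w[k]? = some w[k] := List.getElem?_eq_getElem hk
      rw [reg_succ h, ← ih (by omega)]
      funext j
      rw [Nat.cast_succ]
      exact W2_step ok hp hm h j
  have hC : Capd w P := by
    intro j hj
    constructor
    · have h1 := W2_bot hR hj
      have h2 := W2_bot hR (Nat.zero_le 3)
      rw [← P0, hP]
      simp only [Nat.mul_zero, Nat.cast_zero] at h1 h2 ⊢
      exact h1.trans h2.symm
    · have h1 := W2_top ok hR hj
      have h2 := W2_top ok hR (Nat.zero_le 3)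
      rw [← P0, ← reg_left w P w.length, ← hreg _ le_rfl]
      exact h1.trans h2.symm
  refine ⟨P, hC, τp, τm, ⟨hp, hm, fun y hy => ?_⟩, inv_mul_cancel _⟩
  obtain ⟨k, hk, j, hj, r, hr, hjn⟩ := joined_ref ok hy
  have h1 : QQ o w P y.1 = QQ o w P r.1 :=
    const_of_joinedIn (f := fun z : XX o w => QQ o w P z.1) (fun z hz =>
      mem_nhdsWithin_of_mem_nhds (continuous_subtype_val.continuousAt.eventually
        (QQ_lc ok hC (mem_up_up.1 hz)))) hjn
  have h2 : QQ o w P r.1 = reg w P k j :=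
    QQ_ref ok P hk hj (by rw [hr]; simp only [Complex.ofReal_re]; linarith)
      (by rw [hr]; simp only [Complex.ofReal_re]; linarith) (by rw [hr])
  have h3 : R y = reg w P k j := by
    rw [hR y r hjn, ← W2_val_eq R hr, ← hreg k hk]
  change τm y = QQ o w P y.1 * τp y
  rw [h1, h2, ← h3, hRd, inv_mul_cancel_right]

end Vale.Agent.N258
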